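import Vale.Agent.P167.H199.C.CDefs
import Vale.Agent.P167.QT.OnE
import Vale.Agent.P167.N.Kit

/-!
# P167, `0 < q < 1`, Stage II by local surgery near the target: the statements

* `S_phi` : the marked domains `Φ'` (cut near the target along an arc with a straight diagonal piece);
* `S_walk` : simple lattice paths close to an arc, exact staircases on the straight piece;
* `S_law` : two domains which agree outside of a box;
* `S_loc` : approximations in the class `K` whose interfaces have almost the same law outside of a ball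
  around the target.
-/

set_option autoImplicit false
set_option linter.unusedVariables false

open MeasureTheory Filter Topology Set Metric

namespace Vale.Agent.P167.N.ST2

open Vale.Agent.P167.FK
open Vale.Agent.P145.FB (PStep)
open Vale.Agent.P167.E6
open Vale.Agent.P153.R2.Final (dom circ toC IsUniformizer)
open Vale.Agent.P167.QE (Cls CurveLimitOn wq)
open Vale.Agent.P167.H199.C (VisC PV)

/-! ### PHI -/

/-- The data of the cut domain: `Φ' (circ t) = Φ₀ ((1 - g t) • circ t)`, `g` is positive exactly near `π`,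
and the new boundary is straight, in the direction of a staircase, near `t = π`. -/
structure CutPhi (Φ₀ Φ' : (ℝ × ℝ) ≃ₜ (ℝ × ℝ)) (g : ℝ → ℝ) (s x₀ : ℝ) (τ : ℝ → ℝ) (d : Fin 4) :
    Prop where
  s_pos : 0 < s
  s_lt : s < 1
  cont : Continuous g
  per : ∀ t, g (t + 2 * Real.pi) = g t
  nonneg : ∀ t, 0 ≤ g t
  lt : ∀ t, g t < 1
  zero : ∀ t ∈ Icc (s - Real.pi) (Real.pi - s), g t = 0
  pos : ∀ t ∈ Ioo (Real.pi - s) (Real.pi + s), 0 < g t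
  eq : ∀ t, Φ' (circ t) = Φ₀ ((1 - g t) • circ t)
  x_pos : 0 < x₀
  x_lt : x₀ < s
  mono : StrictMonoOn τ (Icc (Real.pi - x₀) (Real.pi + x₀))
  flat : ∀ t ∈ Icc (Real.pi - x₀) (Real.pi + x₀), toC (Φ' (circ t)) =
    toC (Φ' (circ Real.pi)) + (τ t : ℂ) * (pt (dir d) + pt (dir (d + 1)))

/-- **[PHI]** -/
def S_phi : Prop := ∀ (Φ : (ℝ × ℝ) ≃ₜ (ℝ × ℝ)) (δ : ℕ → ℝ) (N k : ℕ → ℕ)
  (p : ∀ n, ZMod (N n) → ℤ × ℤ) (S : ℕ → Finset (ℤ × ℤ)), Approx Φ δ N k p S →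
  ∃ Φ₀ : (ℝ × ℝ) ≃ₜ (ℝ × ℝ), dom Φ₀ = dom Φ ∧ Φ₀ (circ 0) = Φ (circ 0) ∧
    Φ₀ (circ Real.pi) = Φ (circ Real.pi) ∧ Approx Φ₀ δ N k p S ∧
    ∀ η : ℝ, 0 < η → ∃ (Φ' : (ℝ × ℝ) ≃ₜ (ℝ × ℝ)) (g : ℝ → ℝ) (s x₀ : ℝ) (τ : ℝ → ℝ) (d : Fin 4),
      CutPhi Φ₀ Φ' g s x₀ τ d ∧ s < η ∧ (∀ t, g t < η) ∧
      ∀ t, dist (toC (Φ' (circ t))) (toC (Φ₀ (circ t))) < η

/-! ### WALK -/

/-- **[WALK]** The path `y 0, …, y M` of mesh `δ`, with the parametrisation `s`, close to the arc `Γ`; it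
is a staircase (as in `QE.Stair`) near the vertex `y c`, which is close to `Γ tb`. The length `r` of the
staircase does not depend on `ε`, `δ`. -/
def S_walk : Prop := ∀ (Γ : ℝ → ℂ) (t₁ tb t₂ : ℝ) (τ : ℝ → ℝ) (d : Fin 4),
  ContinuousOn Γ (Icc 0 1) → InjOn Γ (Icc 0 1) → 0 < t₁ → t₁ < tb → tb < t₂ → t₂ < 1 →
  StrictMonoOn τ (Icc t₁ t₂) →
  (∀ t ∈ Icc t₁ t₂, Γ t = Γ tb + (τ t : ℂ) * (pt (dir d) + pt (dir (d + 1)))) →
  ∃ r : ℝ, 0 < r ∧ ∀ ε : ℝ, 0 < ε → ∃ δ₀ : ℝ, 0 < δ₀ ∧ ∀ δ : ℝ, 0 < δ → δ < δ₀ →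
    ∃ (M c : ℕ) (y : ℕ → ℤ × ℤ) (s : ℕ → ℝ), 0 < c ∧ c < M ∧ InjOn y (Iic M) ∧
      (∀ i < M, ∃ r, y (i + 1) = y i + dir r) ∧ Monotone s ∧ s 0 = 0 ∧ s M = 1 ∧ |s c - tb| < ε ∧
      (∀ i < M, ∀ t ∈ Icc (s i) (s (i + 1)), dist ((δ : ℂ) * pt (y i)) (Γ t) < ε ∧
        dist ((δ : ℂ) * pt (y (i + 1))) (Γ t) < ε) ∧
      ∀ m : ℕ, (m : ℝ) * δ ≤ r → m + 1 ≤ c ∧ c + m + 1 ≤ M ∧
        y (c + m + 1) = y (c + m) + (if Even m then dir d else dir (d + 1)) ∧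
        y (c - m) = y (c - m - 1) + (if Even m then dir d else dir (d + 1))

/-! ### LAW -/

/-- The frozen open squares of `(D, η)` are one cluster, with the site `f`. -/
def OneW (D : Finset (ℤ × ℤ)) (η : Cfg) (f : ℤ × ℤ) : Prop :=
  (f.1 + f.2) % 2 = 0 ∧ ∀ v, v ∉ D → η v = true → ∀ s, (s.1 + s.2) % 2 = 0 → FKA.Cor v s →
    Relation.ReflTransGen (PStep {w | w ∉ D ∧ η w = true}) f s

/-- **[LAW]** Two domains which agree outside of the box `bxx x r`: the laws of the configurations outside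
of the box `bxx x R` are close. The site `f` (`f'`) of the wired cluster is in the box. -/
def S_law (Q : ℝ) : Prop := ∃ α C : ℝ, 0 < α ∧ 0 < C ∧
  ∀ (x : ℤ × ℤ) (r R : ℤ) (D D' : Finset (ℤ × ℤ)) (η η' : Cfg) (f f' : ℤ × ℤ) (E : Set Cfg),
    1 ≤ r → r ≤ R → Good η → Good η' → OneW D η f → OneW D' η' f' →
    nm (f - x) ≤ r → nm (f' - x) ≤ r →
    (∀ v, v ∉ H166.bxx x r → (v ∈ D ↔ v ∈ D') ∧ (v ∉ D → η v = η' v)) →
    (∀ ω ω' : Cfg, (∀ v, v ∉ H166.bxx x R → ω v = ω' v) → (ω ∈ E ↔ ω' ∈ E)) →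
    |Pr Q D η E - Pr Q D' η' E| ≤ C * ((r : ℝ) / R) ^ α

/-! ### LOC -/

/-- **[LOC]** -/
def S_loc (K : Cls) (q : ℝ) : Prop :=
  ∀ (Φ : (ℝ × ℝ) ≃ₜ (ℝ × ℝ)) (δ : ℕ → ℝ) (N k : ℕ → ℕ) (p : ∀ n, ZMod (N n) → ℤ × ℤ)
    (S : ℕ → Finset (ℤ × ℤ)), Approx Φ δ N k p S →
  ∃ Φ₀ : (ℝ × ℝ) ≃ₜ (ℝ × ℝ), dom Φ₀ = dom Φ ∧ Φ₀ (circ 0) = Φ (circ 0) ∧
    Φ₀ (circ Real.pi) = Φ (circ Real.pi) ∧
    ∀ r η e : ℝ, 0 < r → 0 < η → 0 < e →
      ∃ (Φ' : (ℝ × ℝ) ≃ₜ (ℝ × ℝ)) (N' k' : ℕ → ℕ) (p' : ∀ n, ZMod (N' n) → ℤ × ℤ)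
        (S' : ℕ → Finset (ℤ × ℤ)),
        (∀ t, dist (toC (Φ' (circ t))) (toC (Φ₀ (circ t))) < η) ∧
        Approx Φ' δ N' k' p' S' ∧ K Φ' δ N' k' p' S' ∧
        ∀ᶠ n in atTop, ∀ c c' : Finset (Sym2 (ℤ × ℤ)) → C(unitInterval, ℂ),
          (∀ A ⊆ edges (S n), IsInterface (p n) (k n) (δ n) A (c A)) →
          (∀ A ⊆ edges (S' n), IsInterface (p' n) (k' n) (δ n) A (c' A)) →
          ∀ (m : ℕ) (A B : Fin m → Set ℂ),
            |PV q (p n) (k n) (S n) c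
                (⋂ j, Vale.Agent.P167.H199.C.Vis (A j ∪ closedBall (toC (Φ (circ Real.pi))) r) (B j)) -
              PV q (p' n) (k' n) (S' n) c'
                (⋂ j, Vale.Agent.P167.H199.C.Vis (A j ∪ closedBall (toC (Φ (circ Real.pi))) r) (B j))| ≤ e

/-! ### The interface as an event of the squares -/

/-- The position of the square `v` (midpoint of the edge) in the lattice of mesh `δ`. -/
noncomputable def sqp (δ : ℝ) (v : ℤ × ℤ) : ℂ :=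
  (δ : ℂ) * ⟨((v.1 + v.2 + 1 : ℤ) : ℝ) / 2, ((v.2 - v.1 : ℤ) : ℝ) / 2⟩

/-- The polygonal curve through the squares of the strand from `e₀`. -/
noncomputable def strand (δ : ℝ) (e₀ : Ed) (ω : Cfg) (x : ℝ) : ℂ :=
  Vale.Agent.P167.E2.lin (fun j => sqp δ (hdv ((nx ω)^[j] e₀))) x

/-- The event: for all `j` the strand from `e₀` visits the interior of `B j` before `A j` and before the
closed ball. -/
def EvB (δ : ℝ) (e₀ : Ed) (b : ℂ) (r : ℝ) {m : ℕ} (A B : Fin m → Set ℂ) : Set Cfg :=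
  {ω | ∀ j, ∃ t : ℝ, 0 ≤ t ∧ strand δ e₀ ω t ∈ interior (B j) ∧
    ∀ s, 0 ≤ s → s ≤ t → strand δ e₀ ω s ∉ A j ∪ closedBall b r}

end Vale.Agent.P167.N.ST2
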