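import Vale.Agent.P167.N.ST2.PhiDefs
import Vale.Agent.P167.N.ST2.Defs

/-!
# P167, `0 < q < 1`, block ST2, GLUE: the arc along which the domain is cut

The arc `Gam` : from the outside along the ray at `π - 2 τ` to the boundary of `Φ₀`, along the crosscut (the
boundary of `Φ'`), to the outside along the ray at `π + 2 τ`.
-/

set_option autoImplicit false

namespace Vale.Agent.P167.N.ST2

open Set Metric Topology Filter
open Vale.Agent.P167.E6 (Approx dir pt)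
open Vale.Agent.P153.R2.R1 (DC FC homC)

/-- The clamp. -/
noncomputable def cl14 (x : ℝ) : ℝ := max (1 / 4) (min x (3 / 4))

/-- The angle. -/
noncomputable def Aa (τ x : ℝ) : ℝ := Real.pi + 8 * τ * (cl14 x - 1 / 2)

/-- The radius. -/
noncomputable def Ra (g : ℝ → ℝ) (τ x : ℝ) : ℝ :=
  1 - g (Aa τ x) + 4 * max (1 / 4 - x) 0 + 4 * max (x - 3 / 4) 0

/-- The arc in the coordinates of `Φ₀`. -/
noncomputable def Gt (g : ℝ → ℝ) (τ x : ℝ) : ℂ := (Ra g τ x : ℂ) * Complex.exp (Aa τ x * Complex.I)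

/-- The arc. -/
noncomputable def Gam (Φ₀ : (ℝ × ℝ) ≃ₜ (ℝ × ℝ)) (g : ℝ → ℝ) (τ x : ℝ) : ℂ := homC Φ₀ (Gt g τ x)

variable {Φ₀ Φ' : (ℝ × ℝ) ≃ₜ (ℝ × ℝ)} {ρ : ℝ} {d : Fin 4} {g ℓ : ℝ → ℝ} {τ : ℝ}

theorem cl14_mem (x : ℝ) : cl14 x ∈ Icc (1 / 4 : ℝ) (3 / 4) :=
  ⟨le_max_left _ _, max_le (by norm_num) (min_le_right _ _)⟩

theorem cl14_of_mem {x : ℝ} (h : x ∈ Icc (1 / 4 : ℝ) (3 / 4)) : cl14 x = x := by
  unfold cl14
  rw [min_eq_left h.2, max_eq_right h.1]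

theorem cl14_le {x : ℝ} (h : x ≤ 1 / 4) : cl14 x = 1 / 4 := by
  unfold cl14
  rw [min_eq_left (h.trans (by norm_num)), max_eq_left h]

theorem cl14_ge {x : ℝ} (h : 3 / 4 ≤ x) : cl14 x = 3 / 4 := by
  unfold cl14
  rw [min_eq_right h, max_eq_right (by norm_num)]

theorem cont_cl14 : Continuous cl14 := by
  unfold cl14
  fun_prop

theorem mono_cl14 : Monotone cl14 := fun _ _ h => max_le_max le_rfl (min_le_min h le_rfl)

theorem cont_Aa : Continuous (Aa τ) := by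
  have := cont_cl14
  unfold Aa
  fun_prop

theorem mono_Aa (hτ : 0 < τ) : Monotone (Aa τ) := fun x y h => by
  have := mono_cl14 h
  unfold Aa
  nlinarith

theorem Aa_half : Aa τ (1 / 2) = Real.pi := by
  unfold Aa
  rw [cl14_of_mem ⟨by norm_num, by norm_num⟩]
  ring

theorem Aa_of_mem {x : ℝ} (h : x ∈ Icc (1 / 4 : ℝ) (3 / 4)) :
    Aa τ x = Real.pi + 8 * τ * (x - 1 / 2) := by
  unfold Aa
  rw [cl14_of_mem h]

theorem Aa_le {x : ℝ} (h : x ≤ 1 / 4) : Aa τ x = Real.pi - 2 * τ := by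
  unfold Aa
  rw [cl14_le h]
  ring

theorem Aa_ge {x : ℝ} (h : 3 / 4 ≤ x) : Aa τ x = Real.pi + 2 * τ := by
  unfold Aa
  rw [cl14_ge h]
  ring

theorem abs_Aa (hτ : 0 < τ) (x : ℝ) : |Aa τ x - Real.pi| ≤ 2 * τ := by
  obtain ⟨h1, h2⟩ := cl14_mem x
  unfold Aa
  rw [add_sub_cancel_left, abs_le]
  constructor <;> nlinarith

/-- The inverse of the angle. -/
theorem Aa_inv (hτ : 0 < τ) {t : ℝ} (h : |t - Real.pi| ≤ 2 * τ) :
    1 / 2 + (t - Real.pi) / (8 * τ) ∈ Icc (1 / 4 : ℝ) (3 / 4) ∧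
      Aa τ (1 / 2 + (t - Real.pi) / (8 * τ)) = t := by
  obtain ⟨h1, h2⟩ := abs_le.1 h
  have h3 : -(1 / 4) ≤ (t - Real.pi) / (8 * τ) := by
    rw [le_div_iff₀ (by linarith)]
    linarith
  have h4 : (t - Real.pi) / (8 * τ) ≤ 1 / 4 := by
    rw [div_le_iff₀ (by linarith)]
    linarith
  have h5 : 1 / 2 + (t - Real.pi) / (8 * τ) ∈ Icc (1 / 4 : ℝ) (3 / 4) :=
    ⟨by linarith, by linarith⟩
  refine ⟨h5, ?_⟩
  rw [Aa_of_mem h5]
  field_simp
  ring

namespace Cut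

variable (H : Cut Φ₀ Φ' ρ d g ℓ τ)
include H

theorem tau1 : 2 * τ < 1 := H.tau_lt.trans_le (min_le_right _ _)

theorem g_lt1 (t : ℝ) : g t < 1 := (H.g_lt t).trans_le (min_le_right _ _)

theorem cont_Ra : Continuous (Ra g τ) := by
  have h1 := cont_Aa (τ := τ)
  have h2 := H.g_cont
  unfold Ra
  fun_prop

theorem Ra_pos (x : ℝ) : 0 < Ra g τ x := by
  have h1 := H.g_lt1 (Aa τ x)
  have h2 := le_max_right (1 / 4 - x) 0
  have h3 := le_max_right (x - 3 / 4) 0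
  unfold Ra
  linarith

theorem cont_Gt : Continuous (Gt g τ) := by
  have h1 := cont_Aa (τ := τ)
  have h2 := H.cont_Ra
  unfold Gt
  fun_prop

theorem cont_Gam : Continuous (Gam Φ₀ g τ) := (homC Φ₀).continuous.comp H.cont_Gt

theorem norm_Gt (x : ℝ) : ‖Gt g τ x‖ = Ra g τ x := by
  unfold Gt
  rw [norm_mul, Complex.norm_exp_ofReal_mul_I, mul_one, Complex.norm_real,
    Real.norm_of_nonneg (H.Ra_pos x).le]

/-- On the middle piece the arc is the boundary of `Φ'`. -/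
theorem Gam_mid {x : ℝ} (h : x ∈ Icc (1 / 4 : ℝ) (3 / 4)) : Gam Φ₀ g τ x = FC Φ' (Aa τ x) := by
  rw [H.eq]
  unfold Gam Gt Ra
  rw [max_eq_right (by linarith [h.1]), max_eq_right (by linarith [h.2])]
  simp

theorem g_end1 : g (Real.pi - 2 * τ) = 0 := by
  have h0 := H.tau_pos
  have h1 := H.tau1
  have h3 := Real.pi_gt_three
  refine H.g_zero _ ?_ ?_
  · rw [show Real.pi - 2 * τ - Real.pi = -(2 * τ) by ring, abs_neg, abs_of_pos (by linarith)]
  · rw [show Real.pi - 2 * τ - Real.pi = -(2 * τ) by ring, abs_neg, abs_of_pos (by linarith)]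
    linarith

theorem g_end2 : g (Real.pi + 2 * τ) = 0 := by
  have h0 := H.tau_pos
  have h1 := H.tau1
  have h3 := Real.pi_gt_three
  refine H.g_zero _ ?_ ?_
  · rw [show Real.pi + 2 * τ - Real.pi = 2 * τ by ring, abs_of_pos (by linarith)]
  · rw [show Real.pi + 2 * τ - Real.pi = 2 * τ by ring, abs_of_pos (by linarith)]
    linarith

theorem Ra_le {x : ℝ} (h : x ≤ 1 / 4) : Ra g τ x = 2 - 4 * x := by
  unfold Ra
  rw [Aa_le h, H.g_end1, max_eq_left (by linarith), max_eq_right (by linarith)]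
  ring

theorem Ra_ge {x : ℝ} (h : 3 / 4 ≤ x) : Ra g τ x = 4 * x - 2 := by
  unfold Ra
  rw [Aa_ge h, H.g_end2, max_eq_right (by linarith), max_eq_left (by linarith)]
  ring

omit H in
theorem Ra_mid {x : ℝ} (h : x ∈ Icc (1 / 4 : ℝ) (3 / 4)) : Ra g τ x = 1 - g (Aa τ x) := by
  unfold Ra
  rw [max_eq_right (by linarith [h.1]), max_eq_right (by linarith [h.2])]
  ring

theorem Ra_mid_lt {x : ℝ} (h : x ∈ Ioo (1 / 4 : ℝ) (3 / 4)) : Ra g τ x < 1 := by
  rw [Ra_mid ⟨h.1.le, h.2.le⟩]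
  have h0 := H.tau_pos
  have h1 : |Aa τ x - Real.pi| < 2 * τ := by
    rw [Aa_of_mem ⟨h.1.le, h.2.le⟩, add_sub_cancel_left, abs_lt]
    constructor <;> nlinarith [h.1, h.2]
  have := H.g_pos _ h1
  linarith

/-- The angles are in `(0, 2 π)`. -/
theorem Aa_mem (x : ℝ) : Aa τ x ∈ Ioo 0 (2 * Real.pi) := by
  have h1 := abs_le.1 (abs_Aa H.tau_pos x)
  have h2 := H.tau1
  have h3 := Real.pi_gt_three
  constructor <;> linarith [h1.1, h1.2]

omit H in
theorem exp_inj {s t : ℝ} (hs : s ∈ Ioo 0 (2 * Real.pi)) (ht : t ∈ Icc 0 (2 * Real.pi))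
    (h : Complex.exp (s * Complex.I) = Complex.exp (t * Complex.I)) : s = t := by
  rw [Complex.exp_eq_exp_iff_exists_int] at h
  obtain ⟨n, hn⟩ := h
  have h1 : s = t + n * (2 * Real.pi) := by
    have h2 := congrArg Complex.im hn
    simpa using h2
  have hp := Real.pi_pos
  have h3 : n < 1 := by
    by_contra hcon
    push Not at hcon
    have : (1 : ℝ) ≤ n := by exact_mod_cast hcon
    nlinarith [hs.1, hs.2, ht.1, ht.2]
  have h4 : -1 < n := by
    by_contra hcon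
    push Not at hcon
    have : (n : ℝ) ≤ -1 := by exact_mod_cast hcon
    nlinarith [hs.1, hs.2, ht.1, ht.2]
  have h5 : n = 0 := by omega
  rw [h5] at h1
  simpa using h1

theorem inj_Gt : InjOn (Gt g τ) (Icc 0 1) := by
  intro x _ y _ hxy
  have h1 : Ra g τ x = Ra g τ y := by rw [← H.norm_Gt, ← H.norm_Gt, hxy]
  have h2 : Aa τ x = Aa τ y := by
    refine exp_inj (H.Aa_mem x) ⟨(H.Aa_mem y).1.le, (H.Aa_mem y).2.le⟩ ?_
    unfold Gt at hxy
    rw [h1] at hxy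
    exact mul_left_cancel₀ (by exact_mod_cast (H.Ra_pos y).ne') hxy
  have h0 := H.tau_pos
  have h3 : cl14 x = cl14 y := by
    unfold Aa at h2
    have h4 : 8 * τ * (cl14 x - 1 / 2) = 8 * τ * (cl14 y - 1 / 2) := by linarith
    have := mul_left_cancel₀ (by positivity : 8 * τ ≠ 0) h4
    linarith
  rcases le_or_gt x (1 / 4) with hx | hx
  · rw [cl14_le hx] at h3
    have hy : y ≤ 1 / 4 := by
      by_contra hcon
      push Not at hcon
      rcases le_or_gt y (3 / 4) with hy | hy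
      · rw [cl14_of_mem ⟨hcon.le, hy⟩] at h3
        linarith
      · rw [cl14_ge hy.le] at h3
        norm_num at h3
    rw [H.Ra_le hx, H.Ra_le hy] at h1
    linarith
  · rcases le_or_gt x (3 / 4) with hx' | hx'
    · rw [cl14_of_mem ⟨hx.le, hx'⟩] at h3
      rcases le_or_gt y (1 / 4) with hy | hy
      · rw [cl14_le hy] at h3
        linarith
      · rcases lt_or_ge y (3 / 4) with hy' | hy'
        · rwa [cl14_of_mem ⟨hy.le, hy'.le⟩] at h3
        · rw [cl14_ge hy'] at h3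
          rw [H.Ra_ge hy', h3, H.Ra_ge le_rfl] at h1
          linarith
    · rw [cl14_ge hx'.le] at h3
      have hy : 3 / 4 ≤ y := by
        by_contra hcon
        push Not at hcon
        rcases le_or_gt y (1 / 4) with hy | hy
        · rw [cl14_le hy] at h3
          norm_num at h3
        · rw [cl14_of_mem ⟨hy.le, hcon.le⟩] at h3
          linarith
      rw [H.Ra_ge hx'.le, H.Ra_ge hy] at h1
      linarith

theorem inj_Gam : InjOn (Gam Φ₀ g τ) (Icc 0 1) := fun _ hx _ hy h =>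
  H.inj_Gt hx hy ((homC Φ₀).injective h)

/-- The straight piece. -/
theorem Gam_line {t : ℝ} (ht : t ∈ Icc (3 / 8 : ℝ) (5 / 8)) :
    Gam Φ₀ g τ t = Gam Φ₀ g τ (1 / 2) + (ℓ (Aa τ t) : ℂ) * (pt (dir d) + pt (dir (d + 1))) := by
  have h0 := H.tau_pos
  have h1 : t ∈ Icc (1 / 4 : ℝ) (3 / 4) := ⟨by linarith [ht.1], by linarith [ht.2]⟩
  have h2 : |Aa τ t - Real.pi| ≤ τ := by
    rw [Aa_of_mem h1, add_sub_cancel_left, abs_le]
    constructor <;> nlinarith [ht.1, ht.2]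
  rw [H.Gam_mid h1, H.Gam_mid ⟨by norm_num, by norm_num⟩, Aa_half, H.line _ h2]
  congr 2
  unfold ud pt
  apply Complex.ext <;> simp

theorem l_Aa : StrictMonoOn (fun t => ℓ (Aa τ t)) (Icc (3 / 8 : ℝ) (5 / 8)) := by
  intro x hx y hy hxy
  refine H.l_mono ?_
  have h0 := H.tau_pos
  rw [Aa_of_mem ⟨by linarith [hx.1], by linarith [hx.2]⟩,
    Aa_of_mem ⟨by linarith [hy.1], by linarith [hy.2]⟩]
  nlinarith

/-- The crosscut meets the boundary only at its ends. -/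
theorem sep {μ : ℝ} (hμ : 0 < μ) : ∃ κ > 0, ∀ x ∈ Icc (0 : ℝ) 1, ∀ t ∈ Icc (0 : ℝ) (2 * Real.pi),
    ‖Gt g τ x - Complex.exp (t * Complex.I)‖ < 2 * κ →
      (|x - 1 / 4| < μ ∧ |t - (Real.pi - 2 * τ)| < μ) ∨
      (|x - 3 / 4| < μ ∧ |t - (Real.pi + 2 * τ)| < μ) := by
  set Kc : Set (ℝ × ℝ) := (Icc (0 : ℝ) 1 ×ˢ Icc (0 : ℝ) (2 * Real.pi)) ∩
    {z | ¬ ((|z.1 - 1 / 4| < μ ∧ |z.2 - (Real.pi - 2 * τ)| < μ) ∨
      (|z.1 - 3 / 4| < μ ∧ |z.2 - (Real.pi + 2 * τ)| < μ))} with hKc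
  have hO : IsOpen {z : ℝ × ℝ | (|z.1 - 1 / 4| < μ ∧ |z.2 - (Real.pi - 2 * τ)| < μ) ∨
      (|z.1 - 3 / 4| < μ ∧ |z.2 - (Real.pi + 2 * τ)| < μ)} := by
    have ho : ∀ a : ℝ, IsOpen {z : ℝ × ℝ | |z.1 - a| < μ} := fun a =>
      isOpen_lt (by fun_prop) continuous_const
    have ho' : ∀ a : ℝ, IsOpen {z : ℝ × ℝ | |z.2 - a| < μ} := fun a =>
      isOpen_lt (by fun_prop) continuous_const
    exact ((ho _).inter (ho' _)).union ((ho _).inter (ho' _))
  have hK : IsCompact Kc := (isCompact_Icc.prod isCompact_Icc).inter_right hO.isClosed_compl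
  have hc : Continuous fun z : ℝ × ℝ => ‖Gt g τ z.1 - Complex.exp (z.2 * Complex.I)‖ := by
    have := H.cont_Gt
    fun_prop
  have hpos : ∀ z ∈ Kc, 0 < ‖Gt g τ z.1 - Complex.exp (z.2 * Complex.I)‖ := by
    rintro ⟨x, t⟩ ⟨⟨hx, ht⟩, hz⟩
    refine norm_pos_iff.2 fun h0 => hz ?_
    have h1 : Gt g τ x = Complex.exp (t * Complex.I) := sub_eq_zero.1 h0
    have h2 : Ra g τ x = 1 := by
      rw [← H.norm_Gt, h1, Complex.norm_exp_ofReal_mul_I]
    have h3 : Aa τ x = t := by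
      refine exp_inj (H.Aa_mem x) ht ?_
      rw [← h1]
      unfold Gt
      rw [h2]
      simp
    rcases le_or_gt x (1 / 4) with h4 | h4
    · rw [H.Ra_le h4] at h2
      have h5 : x = 1 / 4 := by linarith
      left
      show |x - 1 / 4| < μ ∧ |t - (Real.pi - 2 * τ)| < μ
      rw [← h3, Aa_le h4, h5]
      simp [hμ]
    · rcases lt_or_ge x (3 / 4) with h5 | h5
      · exact absurd h2 (H.Ra_mid_lt ⟨h4, h5⟩).ne
      · rw [H.Ra_ge h5] at h2
        have h6 : x = 3 / 4 := by linarith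
        right
        show |x - 3 / 4| < μ ∧ |t - (Real.pi + 2 * τ)| < μ
        rw [← h3, Aa_ge h5, h6]
        simp [hμ]
  rcases Kc.eq_empty_or_nonempty with he | hne
  · refine ⟨1, one_pos, fun x hx t ht _ => ?_⟩
    by_contra hcon
    have : (x, t) ∈ Kc := ⟨⟨hx, ht⟩, hcon⟩
    rw [he] at this
    exact this
  · obtain ⟨z₀, hz₀, hmin⟩ := hK.exists_isMinOn hne hc.continuousOn
    set m := ‖Gt g τ z₀.1 - Complex.exp (z₀.2 * Complex.I)‖ with hm
    have hm0 : 0 < m := hpos _ hz₀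
    refine ⟨m / 2, by positivity, fun x hx t ht hlt => ?_⟩
    by_contra hcon
    have h1 := hmin (show (x, t) ∈ Kc from ⟨⟨hx, ht⟩, hcon⟩)
    have h2 : m ≤ ‖Gt g τ x - Complex.exp (t * Complex.I)‖ := h1
    linarith

/-- The straight piece is well inside. -/
theorem Ra_flat : ∃ κ > 0, ∀ x ∈ Icc (3 / 8 : ℝ) (5 / 8), Ra g τ x ≤ 1 - 2 * κ := by
  obtain ⟨z, hz, hmax⟩ := (isCompact_Icc (a := (3 / 8 : ℝ)) (b := 5 / 8)).exists_isMaxOn
    ⟨1 / 2, by norm_num, by norm_num⟩ H.cont_Ra.continuousOn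
  have h1 := H.Ra_mid_lt (x := z) ⟨by linarith [hz.1], by linarith [hz.2]⟩
  refine ⟨(1 - Ra g τ z) / 2, by linarith, fun x hx => ?_⟩
  have h2 : Ra g τ x ≤ Ra g τ z := hmax hx
  linarith

end Cut

end Vale.Agent.P167.N.ST2
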