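import Vale.Agent.P167.N.ST2.BilF

/-!
# The laws of two domains which agree outside of a small set of squares

`I ⊆ J` are finite sets of squares (two concentric boxes). The frozen open squares of `J \ I` are
joined to the site `f` (of the wired arc). `law_one` : the law of the squares of `D` outside of `J`
does not change by more than `δ` if all squares of `I` are opened; `δ` is the probability (for the
domain `D \ I`, with `I` open) of an open cluster of `D ∩ (J \ I)` which joins `I` to the outside of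
`J` and does not touch the frozen open squares. `law_two` : two domains with the same squares outside
of `I`.
-/

set_option autoImplicit false

namespace Vale.Agent.P167.N.ST2

open Finset Vale.Agent.P167.FK Vale.Agent.P167.FKA
open Vale.Agent.P167.H635 (corn corn_even PC_refl PC_symm PC_trans Wi cor_pab)
open Vale.Agent.P145.FB (PStep PConn)
open Vale.Agent.P167.H259 (f_markov PC_mono cf_mono)
open Vale.Agent.P167.H519 (pa_cor pb_cor pa_even pb_even pc_of_cor cf_in ind_le_of_imp)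

variable {Q : ℝ} {D D' I J : Finset (ℤ × ℤ)} {η η' ω : Cfg} {f : ℤ × ℤ}

/-- The open squares of `D ∩ (J \ I)`. -/
def OpA (D I J : Finset (ℤ × ℤ)) (ω : Cfg) : Set (ℤ × ℤ) :=
  {v | (v ∈ D ∧ v ∉ I ∧ v ∈ J) ∧ ω v = true}

/-- An open cluster of `D ∩ (J \ I)` joins `I` to the outside of `J` and does not touch the frozen
open squares of `J \ I`. -/
def FreshX (D I J : Finset (ℤ × ℤ)) : Set Cfg :=
  {ω | ∃ s t : ℤ × ℤ, Even (s.1 + s.2) ∧ (∃ v ∈ I, Cor v s) ∧ (∃ v, v ∉ J ∧ Cor v t) ∧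
    Relation.ReflTransGen (PStep (OpA D I J ω)) s t ∧
    ∀ v, v ∈ J → v ∉ I → v ∉ D → ω v = true → ∀ c, Cor v c → Even (c.1 + c.2) →
      ¬ Relation.ReflTransGen (PStep (OpA D I J ω)) s c}

/-- The configuration `η` with the squares of `I` opened. -/
noncomputable def opI (I : Finset (ℤ × ℤ)) (η : Cfg) : Cfg := cf I η I

theorem opI_in {v : ℤ × ℤ} (h : v ∈ I) : opI I η v = true := by
  unfold opI
  rw [cf_in h]
  simp [h]

theorem opI_out {v : ℤ × ℤ} (h : v ∉ I) : opI I η v = η v := cf_out h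

theorem good_opI (h : Good η) : Good (opI I η) := f_good.1 _ _ _ h

/-- The frozen open squares of `J \ I` are joined to `f`, and so are the sites of `I` if `I` is
open. -/
structure Rt (D I J : Finset (ℤ × ℤ)) (η : Cfg) (f : ℤ × ℤ) : Prop where
  /-- `f` is a corner of a square of `D` outside of `I` -/
  cor : f ∈ corn (D \ I)
  /-- the frozen open squares of `J \ I` -/
  fr : ∀ v, v ∈ J → v ∉ I → v ∉ D → η v = true → PC (cf D η ∅) f (FK.pa v)
  /-- the sites of `I` -/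
  inn : ∀ v ∈ I, ∀ c, Cor v c → Even (c.1 + c.2) → PC (cf (D \ I) (opI I η) ∅) f c

/-- The sites of `I` and `f`. -/
def WI (I : Finset (ℤ × ℤ)) (f : ℤ × ℤ) : Set (ℤ × ℤ) :=
  {c | (∃ v ∈ I, Cor v c ∧ Even (c.1 + c.2)) ∨ c = f}

theorem wi_opI (h : Rt D I J η f) (S : Finset (ℤ × ℤ)) :
    Wi (D \ I) (cf D η S) (opI I η) (WI I f) where
  le := fun v hv hv' => by
    by_cases hI : v ∈ I
    · exact opI_in hI
    · rw [opI_out hI]
      rwa [cf_out fun hD => hv (mem_sdiff.2 ⟨hD, hI⟩)] at hv'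
  new := fun v hv hv0 hv1 => by
    have hI : v ∈ I := by
      by_contra hI
      rw [opI_out hI] at hv1
      rw [cf_out fun hD => hv (mem_sdiff.2 ⟨hD, hI⟩)] at hv0
      rw [hv0] at hv1
      exact absurd hv1 (by simp)
    exact ⟨Or.inl ⟨v, hI, pa_cor v, pa_even v⟩, Or.inl ⟨v, hI, pb_cor v, pb_even v⟩⟩
  con := fun s hs t ht => by
    have key : ∀ s ∈ WI I f, PC (cf (D \ I) (opI I η) ∅) f s := by
      rintro s (⟨v, hv, h1, h2⟩ | rfl)
      · exact h.inn v hv s h1 h2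
      · exact PC_refl _ _
    exact PC_trans (PC_symm (key s hs)) (key t ht)

theorem rtg_even {F : Set (ℤ × ℤ)} {s t : ℤ × ℤ} (h : Relation.ReflTransGen (PStep F) s t)
    (hs : Even (s.1 + s.2)) : Even (t.1 + t.2) := by
  induction h with
  | refl => exact hs
  | tail _ hab ih => exact (FKA.even_step hab).1 ih

/-- The deterministic part. -/
theorem fresh_of_bad (h : Rt D I J η f) {S S' : Finset (ℤ × ℤ)} {s u : ℤ × ℤ}
    (hs : s ∈ WI I f) (hu : ∃ v ∈ D \ J, Cor v u)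
    (h1 : PC (cf (D \ I) (cf D η S) S') s u) (h2 : ¬ PC (cf (D \ I) (cf D η S) S') s f) :
    cf (D \ I) (opI I η) S' ∈ FreshX D I J := by
  set ω := cf (D \ I) (opI I η) S' with hω
  set ω' := cf (D \ I) (cf D η S) S' with hω'
  -- the two configurations agree off `I`
  have hsame : ∀ v, v ∉ I → ω' v = ω v := by
    intro v hv
    by_cases hD : v ∈ D
    · have : v ∈ D \ I := mem_sdiff.2 ⟨hD, hv⟩
      rw [hω, hω', cf_in this, cf_in this]
    · have : v ∉ D \ I := fun h => hD (mem_sdiff.1 h).1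
      rw [hω, hω', cf_out this, cf_out this, cf_out hD, opI_out hv]
  -- frozen open squares are joined to `f`
  have hfr : ∀ v, v ∈ J → v ∉ I → v ∉ D → ω' v = true → ∀ c, Cor v c → Even (c.1 + c.2) →
      PC ω' f c := by
    intro v hvJ hvI hvD hv c hc hce
    have e1 : ω' v = η v := by
      rw [hω', cf_out (fun h => hvD (mem_sdiff.1 h).1), cf_out hvD]
    have h3 := h.fr v hvJ hvI hvD (e1 ▸ hv)
    have h4 : PC ω' f (FK.pa v) := by
      refine PC_mono (fun w hw => ?_) h3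
      by_cases hwD : w ∈ D
      · rw [cf_in hwD] at hw
        simp at hw
      · rw [cf_out hwD] at hw
        rw [hω', cf_out (fun h => hwD (mem_sdiff.1 h).1), cf_out hwD]
        exact hw
    exact PC_trans h4 (pc_of_cor hv (pa_cor v) hc (pa_even v) hce)
  have hop : ∀ {s t : ℤ × ℤ}, Relation.ReflTransGen (PStep (OpA D I J ω)) s t → PC ω' s t := by
    intro s t h3
    induction h3 with
    | refl => exact PC_refl _ _
    | tail _ hab ih =>
      obtain ⟨⟨k1, k2, k3⟩, k4⟩ := hab.2.2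
      refine ih.tail ⟨hab.1, hab.2.1, ?_⟩
      show ω' _ = true
      rw [hsame _ k2]
      exact k4
  obtain ⟨v₀, hv₀, hs1, hse⟩ : ∃ v ∈ I, Cor v s ∧ Even (s.1 + s.2) := by
    rcases hs with hs | rfl
    · exact hs
    · exact absurd (PC_refl _ _) h2
  -- the induction along the path
  have key : ∀ z, PC ω' s z →
      (∃ s₁, Even (s₁.1 + s₁.2) ∧ (∃ v ∈ I, Cor v s₁) ∧ PC ω' s s₁ ∧
        Relation.ReflTransGen (PStep (OpA D I J ω)) s₁ z) ∨
      (∃ s₁ t, Even (s₁.1 + s₁.2) ∧ (∃ v ∈ I, Cor v s₁) ∧ PC ω' s s₁ ∧ (∃ v, v ∉ J ∧ Cor v t) ∧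
        Relation.ReflTransGen (PStep (OpA D I J ω)) s₁ t) := by
    intro z hz
    unfold PC at hz
    induction hz with
    | refl => exact Or.inl ⟨s, hse, ⟨v₀, hv₀, hs1⟩, PC_refl _ _, Relation.ReflTransGen.refl⟩
    | @tail y z hsy hyz ih =>
      rcases ih with ⟨s₁, k1, k2, k3, k4⟩ | ih
      · have hc := cor_of_step hyz
        have hye : Even (y.1 + y.2) := rtg_even k4 k1
        have hze : Even (z.1 + z.2) := (FKA.even_step hyz).1 hye
        have hopen : ω' (min y.1 z.1, min y.2 z.2) = true := hyz.2.2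
        by_cases hI : (min y.1 z.1, min y.2 z.2) ∈ I
        · exact Or.inl ⟨z, hze, ⟨_, hI, hc.2⟩, hsy.tail hyz, Relation.ReflTransGen.refl⟩
        by_cases hJ' : (min y.1 z.1, min y.2 z.2) ∈ J
        · by_cases hD : (min y.1 z.1, min y.2 z.2) ∈ D
          · refine Or.inl ⟨s₁, k1, k2, k3, k4.tail ⟨hyz.1, hyz.2.1, ⟨hD, hI, hJ'⟩, ?_⟩⟩
            rw [← hsame _ hI]
            exact hopen
          · have h3 := hfr _ hJ' hI hD hopen y hc.1 hye
            exact absurd (PC_trans hsy (PC_symm h3)) h2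
        · exact Or.inr ⟨s₁, y, k1, k2, k3, ⟨_, hJ', hc.1⟩, k4⟩
      · exact Or.inr ih
  obtain ⟨s₁, t, k1, k2, k3, k4, k5⟩ : ∃ s₁ t, Even (s₁.1 + s₁.2) ∧ (∃ v ∈ I, Cor v s₁) ∧
      PC ω' s s₁ ∧ (∃ v, v ∉ J ∧ Cor v t) ∧
        Relation.ReflTransGen (PStep (OpA D I J ω)) s₁ t := by
    rcases key u h1 with ⟨s₁, k1, k2, k3, k4⟩ | h3
    · obtain ⟨v, hv, hvu⟩ := hu
      exact ⟨s₁, u, k1, k2, k3, ⟨v, (mem_sdiff.1 hv).2, hvu⟩, k4⟩
    · exact h3
  refine ⟨s₁, t, k1, k2, k4, k5, fun v hvJ hvI hvD hv c hc hce h3 => ?_⟩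
  have h4 := hfr v hvJ hvI hvD (by rw [hsame _ hvI]; exact hv) c hc hce
  exact h2 (PC_trans k3 (PC_trans (hop h3) (PC_symm h4)))

/-- **One domain**: the effect of the opening of the squares of `I` on the squares outside of `J`. -/
theorem law_one (hQ0 : 0 < Q) (hQ1 : Q ≤ 1) (hη : Good η) (hJ : I ⊆ J) (h : Rt D I J η f)
    {X : Set Cfg} (hX : Loc (D \ J) (X.indicator 1)) {δ : ℝ}
    (hδ : Pr Q (D \ I) (opI I η) (FreshX D I J) ≤ δ) :
    |Pr Q D η X - Pr Q (D \ I) (opI I η) X| ≤ δ := by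
  set c := Pr Q (D \ I) (opI I η) X with hc
  have h1 : ∀ S ⊆ D, |Pr Q (D \ I) (cf D η S) X - c| ≤ δ := by
    intro S hS
    refine tv_f hQ0 hQ1 (V := D \ J) (sdiff_subset_sdiff subset_rfl hJ) (f_good.1 D η S hη)
      (good_opI hη) (wi_opI h S) (f := f) (Or.inr rfl) h.cor hX (le_trans ?_ hδ)
    refine Ex_mono hQ0 fun S' _ => ind_le_of_imp ?_
    rintro ⟨s, hs, u, hu, h1, h2⟩
    rw [on_cf] at h1 h2
    exact fresh_of_bad h hs hu h1 h2
  have h2 : Pr Q D η X = Ex Q D η (fun ω => Pr Q (D \ I) ω X) :=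
    f_markov Q (D \ I) D η _ hQ0 sdiff_subset hη
  rw [h2, abs_le]
  constructor
  · have h3 : Ex Q D η (fun _ => c - δ) ≤ Ex Q D η (fun ω => Pr Q (D \ I) ω X) :=
      Ex_mono hQ0 fun S hS => by
        have := (abs_le.1 (h1 S hS)).1
        linarith
    rw [Ex_const hQ0] at h3
    linarith
  · have h3 : Ex Q D η (fun ω => Pr Q (D \ I) ω X) ≤ Ex Q D η (fun _ => c + δ) :=
      Ex_mono hQ0 fun S hS => by
        have := (abs_le.1 (h1 S hS)).2
        linarith
    rw [Ex_const hQ0] at h3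
    linarith

/-- The bound in the annulus, for all conditions which are open on `I`. -/
theorem fresh_le (hQ0 : 0 < Q) (hη : Good η) {δ : ℝ}
    (hδ : ∀ ζ : Cfg, Good ζ → (∀ v ∈ I, ζ v = true) →
      Pr Q (D ∩ (J \ I)) ζ (FreshX D I J) ≤ δ) :
    Pr Q (D \ I) (opI I η) (FreshX D I J) ≤ δ := by
  have hsub : D ∩ (J \ I) ⊆ D \ I := fun v hv => by
    rw [mem_inter, mem_sdiff] at hv
    exact mem_sdiff.2 ⟨hv.1, hv.2.2⟩
  have h2 : Pr Q (D \ I) (opI I η) (FreshX D I J) =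
      Ex Q (D \ I) (opI I η) (fun ω => Pr Q (D ∩ (J \ I)) ω (FreshX D I J)) :=
    f_markov Q _ _ _ _ hQ0 hsub (good_opI hη)
  rw [h2]
  refine (Ex_mono hQ0 (G := fun _ => δ) fun S _ => ?_).trans (Ex_const hQ0 δ).le
  refine hδ _ (f_good.1 _ _ _ (good_opI hη)) fun v hv => ?_
  rw [cf_out fun h => (mem_sdiff.1 h).2 hv]
  exact opI_in hv

/-- **Two domains** with the same squares and the same frozen configuration outside of `I`. -/
theorem law_two (hQ0 : 0 < Q) (hQ1 : Q ≤ 1) (hη : Good η) (hη' : Good η') (hJ : I ⊆ J)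
    (hD : D \ I = D' \ I) (hηη : ∀ v, v ∉ I → v ∉ D → η v = η' v)
    {f' : ℤ × ℤ} (h : Rt D I J η f) (h' : Rt D' I J η' f')
    {X : Set Cfg} (hX : Loc (D \ J) (X.indicator 1)) {δ : ℝ}
    (hδ : Pr Q (D \ I) (opI I η) (FreshX D I J) ≤ δ) :
    |Pr Q D η X - Pr Q D' η' X| ≤ 2 * δ := by
  have hmem : ∀ v, v ∉ I → (v ∈ D ↔ v ∈ D') := by
    intro v hv
    have : v ∈ D \ I ↔ v ∈ D' \ I := by rw [hD]
    simpa [mem_sdiff, hv] using this
  have hJ2 : D \ J = D' \ J := by
    ext v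
    rw [mem_sdiff, mem_sdiff]
    constructor
    · rintro ⟨h1, h2⟩
      exact ⟨(hmem v fun h => h2 (hJ h)).1 h1, h2⟩
    · rintro ⟨h1, h2⟩
      exact ⟨(hmem v fun h => h2 (hJ h)).2 h1, h2⟩
  have hcf : ∀ S, cf (D \ I) (opI I η) S = cf (D' \ I) (opI I η') S := by
    intro S
    funext v
    by_cases hv : v ∈ D \ I
    · rw [cf_in hv, cf_in (hD ▸ hv)]
    · rw [cf_out hv, cf_out (hD ▸ hv)]
      by_cases hI : v ∈ I
      · rw [opI_in hI, opI_in hI]
      · rw [opI_out hI, opI_out hI]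
        exact hηη v hI fun h => hv (mem_sdiff.2 ⟨h, hI⟩)
  have hEx : ∀ F : Cfg → ℝ, Ex Q (D \ I) (opI I η) F = Ex Q (D' \ I) (opI I η') F := by
    intro F
    unfold Ex Zq
    have e1 : ∀ S, cf (D \ I) (opI I η) S = cf (D \ I) (opI I η') S := fun S => by
      rw [hcf S, hD]
    simp only [e1]
    rw [hD]
  have hop : ∀ ω, OpA D I J ω = OpA D' I J ω := by
    intro ω
    ext v
    simp only [OpA, Set.mem_ofPred_eq]
    by_cases hI : v ∈ I
    · simp [hI]
    · rw [hmem v hI]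
  have hF : FreshX D I J = FreshX D' I J := by
    ext ω
    simp only [FreshX, Set.mem_ofPred_eq, hop]
    constructor
    · rintro ⟨s, t, k1, k2, k3, k4, k5⟩
      exact ⟨s, t, k1, k2, k3, k4, fun v a b c => k5 v a b (fun h => c ((hmem v b).1 h))⟩
    · rintro ⟨s, t, k1, k2, k3, k4, k5⟩
      exact ⟨s, t, k1, k2, k3, k4, fun v a b c => k5 v a b (fun h => c ((hmem v b).2 h))⟩
  have h1 := law_one hQ0 hQ1 hη hJ h hX hδ
  have h2 := law_one hQ0 hQ1 hη' hJ h' (X := X) (by rwa [← hJ2]) (δ := δ) (by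
    rw [← hF]
    unfold Pr
    rw [← hEx]
    exact hδ)
  have h3 : Pr Q (D \ I) (opI I η) X = Pr Q (D' \ I) (opI I η') X := hEx _
  rw [h3] at h1
  rw [abs_le] at *
  constructor <;> linarith [h1.1, h1.2, h2.1, h2.2]

end Vale.Agent.P167.N.ST2
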