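import Vale.Agent.P167.N.ST2.XcEv
import Vale.Agent.P167.N.ST2.Law

/-!
# P167, block ST2, LAW in crosscut form

`law_cross`: the polygon `p` is cut along the path `y` (the parts `S'`, `S''`, the marks `k`, `k'` are on
the second part and on `y`), and a second path `y₂` separates `S''` from the part `T'` which contains the
start. The events `EvB` of the interface outside of a ball which contains `y₂` have almost the same
probability in the two marked domains; the error is twice the maximal probability (over all conditions)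
of an open path from `S''` to `T'`.
-/

set_option autoImplicit false
set_option linter.unusedSectionVars false

namespace Vale.Agent.P167.N.ST2

open Finset Relation Metric
open Vale.Agent.P167.FK Vale.Agent.P167.FKA
open Vale.Agent.P167.E6
open Vale.Agent.P167.E2 (verts mem_verts cs)
open Vale.Agent.P167.H192 (sq ed cfg cfg_true ro_dir even_ro sq_ed ed_sq isEdge_ed)
open Vale.Agent.P167.H718 (Dq etaQ wE mem_wE mem_Dq mem_Dq')
open Vale.Agent.P167.H635 (corn PC_refl PC_symm PC_trans mem_corn_of_cor)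
open Vale.Agent.P145.FB (PStep)
open Vale.Agent.P167.H259 (PC_mono)
open Vale.Agent.P167.H519 (pa_cor pa_even pc_of_cor)

/-! ### Paths of edges -/

theorem pstep_edge {F : Set (ℤ × ℤ)} {u : ℤ × ℤ} {r : Fin 4} (h : sq s(u, u + dir r) ∈ F) :
    PStep F (H192.ro u) (H192.ro (u + dir r)) :=
  ⟨(ro_dir u r).1, (ro_dir u r).2, h⟩

theorem pc_edge {F : Cfg} {u : ℤ × ℤ} {r : Fin 4} (h : F (sq s(u, u + dir r)) = true) :
    PC F (H192.ro u) (H192.ro (u + dir r)) :=
  ReflTransGen.single (pstep_edge h)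

theorem cor_sq (u : ℤ × ℤ) (r : Fin 4) : Cor (sq s(u, u + dir r)) (H192.ro u) ∧
    Cor (sq s(u, u + dir r)) (H192.ro (u + dir r)) :=
  cor_of_step (F := Set.univ) (pstep_edge (Set.mem_univ _))

section conn

variable {m : ℕ} [NeZero m] {q : ZMod m → ℤ × ℤ} {U : Finset (ℤ × ℤ)} {F : Cfg}

/-- The polygon is connected. -/
theorem pc_poly (hq : IsPolygon q) (hU : Encloses q U) (hF : ∀ e ∈ edges U, F (sq e) = true)
    (i j : ZMod m) : PC F (H192.ro (q i)) (H192.ro (q j)) := by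
  have key : ∀ l : ℕ, PC F (H192.ro (q i)) (H192.ro (q (i + l))) := by
    intro l
    induction l with
    | zero =>
      rw [Nat.cast_zero, add_zero]
      exact PC_refl _ _
    | succ l ih =>
      refine PC_trans ih ?_
      obtain ⟨r, hr⟩ := hq.2.2 (i + l)
      have h1 := E2.p_edge hq hU (i + l)
      rw [hr] at h1
      push_cast
      rw [← add_assoc, hr]
      exact pc_edge (hF _ h1)
  have h := key (j - i).val
  rw [ZMod.natCast_zmod_val, add_sub_cancel] at h
  exact h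

/-- Each vertex of the domain is joined to the polygon. -/
theorem pc_west (hU : Encloses q U) (hF : ∀ e ∈ edges U, F (sq e) = true)
    {v : ℤ × ℤ} (hv : v ∈ verts U) : ∃ i, PC F (H192.ro v) (H192.ro (q i)) := by
  obtain ⟨B, hB⟩ : ∃ B : ℤ, ∀ u ∈ verts U, B ≤ u.1 := by
    obtain ⟨w, -, hw⟩ := Finset.exists_min_image (verts U) (fun u => u.1) ⟨v, hv⟩
    exact ⟨w.1, hw⟩
  have key : ∀ (d : ℕ) (u : ℤ × ℤ), u ∈ verts U → u.1 < B + d →
      ∃ i, PC F (H192.ro u) (H192.ro (q i)) := by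
    intro d
    induction d with
    | zero =>
      intro u hu h
      have := hB u hu
      push_cast at h
      omega
    | succ d ih =>
      intro u hu h
      by_cases h1 : ∃ i, q i = u
      · obtain ⟨i, rfl⟩ := h1
        exact ⟨i, PC_refl _ _⟩
      · obtain ⟨r, hr⟩ := mem_verts.1 hu
        have h2 : ∀ s, face u s ∈ U := fun s => by
          by_contra hs
          exact h1 (E2.exists_of_mixed hU hr hs)
        have h3 : s(u, u + dir 2) ∈ edges U := (E2.mem_edges 2).2 (Or.inl (h2 2))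
        have h4 : u + dir 2 ∈ verts U :=
          mem_verts.2 ⟨2 + 1, by rw [E2.face_left]; exact h2 2⟩
        obtain ⟨i, hi⟩ := ih (u + dir 2) h4 (by
          have : (u + dir 2).1 = u.1 - 1 := by
            show u.1 + (dir 2).1 = _
            rfl
          push_cast at h
          omega)
        exact ⟨i, PC_trans (pc_edge (hF _ h3)) hi⟩
  exact key ((v.1 + 1 - B).toNat) v hv (by omega)

/-- The graph of the domain is connected. -/
theorem pc_verts (hq : IsPolygon q) (hU : Encloses q U) (hF : ∀ e ∈ edges U, F (sq e) = true)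
    {v w : ℤ × ℤ} (hv : v ∈ verts U) (hw : w ∈ verts U) :
    PC F (H192.ro v) (H192.ro w) := by
  obtain ⟨i, hi⟩ := pc_west hU hF hv
  obtain ⟨j, hj⟩ := pc_west hU hF hw
  exact PC_trans hi (PC_trans (pc_poly hq hU hF i j) (PC_symm hj))

end conn

section wired

variable {n : ℕ} [NeZero n] {P : ZMod n → ℤ × ℤ} {T : Finset (ℤ × ℤ)} {κ : ℕ} {F : Cfg}

/-- The wired arc is connected. -/
theorem pc_wired (hP : IsPolygon P)
    (hF : ∀ i : ℕ, κ ≤ i → i + 1 < n → F (sq s(P (i : ZMod n), P ((i : ZMod n) + 1))) = true)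
    {j : ℕ} (hj : κ ≤ j) (hjn : j < n) : PC F (H192.ro (P (-1))) (H192.ro (P (j : ZMod n))) := by
  have key : ∀ l : ℕ, j + l < n → PC F (H192.ro (P (j : ZMod n))) (H192.ro (P ((j + l : ℕ) : ZMod n))) := by
    intro l
    induction l with
    | zero => exact fun _ => PC_refl _ _
    | succ l ih =>
      intro h
      refine PC_trans (ih (by omega)) ?_
      obtain ⟨r, hr⟩ := hP.2.2 ((j + l : ℕ) : ZMod n)
      have h1 := hF (j + l) (by omega) (by omega)
      rw [hr] at h1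
      have e : ((j + (l + 1) : ℕ) : ZMod n) = ((j + l : ℕ) : ZMod n) + 1 := by
        push_cast
        ring
      rw [e, hr]
      exact pc_edge h1
  have h1 := key (n - 1 - j) (by omega)
  have e : ((j + (n - 1 - j) : ℕ) : ZMod n) = -1 := by
    rw [show j + (n - 1 - j) = n - 1 by omega, Nat.cast_sub (by omega), ZMod.natCast_self,
      Nat.cast_one, zero_sub]
  rw [e] at h1
  exact PC_symm h1

theorem last_notMem (hP : IsPolygon P) : s(P (-1), P 0) ∉ wE P κ := by
  rw [mem_wE]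
  rintro ⟨i, -, h2, h3⟩
  have hn := hP.1
  have e2 : (-1 : ZMod n) = ((n - 1 : ℕ) : ZMod n) := by
    rw [Nat.cast_sub (by omega), ZMod.natCast_self, Nat.cast_one, zero_sub]
  rw [Sym2.eq_iff] at h3
  rcases h3 with ⟨h4, -⟩ | ⟨h4, h5⟩
  · rw [e2] at h4
    have := P_inj hP (by omega) (by omega) h4
    omega
  · rw [e2] at h4
    have h6 : P ((n - 1 : ℕ) : ZMod n) = P ((i + 1 : ℕ) : ZMod n) := by
      rw [h4]
      push_cast
      rfl
    have h7 := P_inj hP (by omega) (by omega) h6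
    have h8 : P ((0 : ℕ) : ZMod n) = P (i : ZMod n) := by
      rw [Nat.cast_zero]
      exact h5
    have h9 := P_inj hP (by omega) (by omega) h8
    omega

theorem isEdge_wE (hP : IsPolygon P) {e : Sym2 (ℤ × ℤ)} (h : e ∈ wE P κ) : H192.IsEdge e := by
  rw [mem_wE] at h
  obtain ⟨i, -, -, rfl⟩ := h
  obtain ⟨r, hr⟩ := hP.2.2 (i : ZMod n)
  exact ⟨_, r, by rw [hr]⟩

theorem etaQ_wE (hP : IsPolygon P) {e : Sym2 (ℤ × ℤ)} (h : e ∈ wE P κ) :
    etaQ P κ (sq e) = true := by
  unfold etaQ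
  rw [cfg_true, ed_sq (isEdge_wE hP h)]
  exact h

/-- The squares of the sides of the faces of `U`. -/
def sqs (U : Finset (ℤ × ℤ)) : Finset (ℤ × ℤ) := (edges U).image sq

theorem mem_sqs {U : Finset (ℤ × ℤ)} {v : ℤ × ℤ} : v ∈ sqs U ↔ ed v ∈ edges U := by
  unfold sqs
  rw [mem_image]
  constructor
  · rintro ⟨e, he, rfl⟩
    rw [ed_sq (H192.isEdge_edges he)]
    exact he
  · exact fun h => ⟨_, h, sq_ed v⟩

/-- The ends of the edge of a square. -/
theorem exists_end {U : Finset (ℤ × ℤ)} {v : ℤ × ℤ} (hv : v ∈ sqs U) :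
    ∃ u ∈ verts U, ∃ r, v = sq s(u, u + dir r) ∧ Cor v (H192.ro u) := by
  rw [mem_sqs] at hv
  obtain ⟨u, r, h⟩ := isEdge_ed v
  have e : v = sq s(u, u + dir r) := by rw [← h, sq_ed]
  rw [h] at hv
  refine ⟨u, ?_, r, e, by rw [e]; exact (cor_sq u r).1⟩
  rw [mem_verts]
  rcases (E2.mem_edges _).1 hv with h1 | h1 <;> exact ⟨_, h1⟩

/-- An even corner of the square of an edge of `U` is a vertex of `U`. -/
theorem cor_verts {U : Finset (ℤ × ℤ)} {v s : ℤ × ℤ} (hv : v ∈ sqs U) (hs : Cor v s)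
    (he : Even (s.1 + s.2)) : ∃ u ∈ verts U, s = H192.ro u := by
  rw [mem_sqs] at hv
  obtain ⟨u, r, h⟩ := isEdge_ed v
  have e : v = sq s(u, u + dir r) := by rw [← h, sq_ed]
  rw [h] at hv
  have hu : u ∈ verts U := by
    rw [mem_verts]
    rcases (E2.mem_edges _).1 hv with h1 | h1 <;> exact ⟨_, h1⟩
  have hu' : u + dir r ∈ verts U := by
    rw [mem_verts]
    rcases (E2.mem_edges _).1 hv with h1 | h1
    · exact ⟨_, by rw [E2.face_left]; exact h1⟩
    · exact ⟨_, by rw [E2.face_right]; exact h1⟩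
  have hne : H192.ro u ≠ H192.ro (u + dir r) := fun h0 =>
    E2.add_dir_ne u r (H192.ro_inj h0).symm
  obtain ⟨c1, c2⟩ := cor_sq u r
  rw [← e] at c1 c2
  rcases H635.cor_pab hs he with h1 | h1
  · rcases H635.cor_pab c1 (even_ro u) with h2 | h2
    · exact ⟨u, hu, by rw [h1, h2]⟩
    · rcases H635.cor_pab c2 (even_ro _) with h3 | h3
      · exact ⟨_, hu', by rw [h1, h3]⟩
      · exact absurd (h2.trans h3.symm) hne
  · rcases H635.cor_pab c1 (even_ro u) with h2 | h2
    · rcases H635.cor_pab c2 (even_ro _) with h3 | h3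
      · exact absurd (h2.trans h3.symm) hne
      · exact ⟨_, hu', by rw [h1, h3]⟩
    · exact ⟨u, hu, by rw [h1, h2]⟩

/-- **The frozen open squares are one cluster**, with or without the opened part `U`. -/
theorem rt_gen (hP : IsPolygon P) (hT : Encloses P T) {m : ℕ} [NeZero m] {q : ZMod m → ℤ × ℤ}
    {U : Finset (ℤ × ℤ)} (hq : IsPolygon q) (hU : Encloses q U) (J : Finset (ℤ × ℤ)) {j : ℕ}
    (hj : κ ≤ j) (hjn : j < n) (hju : P (j : ZMod n) ∈ verts U)
    (hlast : s(P (-1), P 0) ∉ edges U) :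
    Rt (Dq T P κ) (sqs U) J (etaQ P κ) (H192.ro (P (-1))) where
  cor := by
    have e0 : (-1 : ZMod n) + 1 = 0 := neg_add_cancel 1
    have h1 := E2.p_edge hP hT (-1)
    rw [e0] at h1
    refine mem_corn_of_cor _ (v := sq s(P (-1), P 0)) (mem_sdiff.2 ⟨?_, ?_⟩) ?_ (even_ro _)
    · rw [mem_Dq (H192.isEdge_edges h1)]
      exact ⟨h1, last_notMem hP⟩
    · rw [mem_sqs, ed_sq (H192.isEdge_edges h1)]
      exact hlast
    · obtain ⟨r, hr⟩ := hP.2.2 (-1)
      rw [e0] at hr
      rw [hr]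
      exact (cor_sq _ r).1
  fr := fun v _ _ hvD hv => by
    have h1 : ed v ∈ wE P κ := by
      unfold etaQ at hv
      rwa [cfg_true] at hv
    obtain ⟨i, h2, h3, h4⟩ := mem_wE.1 h1
    have h5 : cf (Dq T P κ) (etaQ P κ) ∅ v = true := by
      rw [cf_out hvD]
      exact hv
    have h6 := pc_wired (κ := κ) (F := cf (Dq T P κ) (etaQ P κ) ∅) hP (fun i hi hi' => by
      have h7 : s(P (i : ZMod n), P ((i : ZMod n) + 1)) ∈ wE P κ := mem_wE.2 ⟨i, hi, hi', rfl⟩
      rw [cf_out]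
      · exact etaQ_wE hP h7
      · rw [mem_Dq (isEdge_wE hP h7)]
        exact fun h => h.2 h7) h2 (by omega)
    refine PC_trans h6 (pc_of_cor h5 ?_ (pa_cor v) (even_ro _) (pa_even v))
    obtain ⟨r, hr⟩ := hP.2.2 (i : ZMod n)
    have e : v = sq s(P (i : ZMod n), P (i : ZMod n) + dir r) := by
      rw [← hr, ← h4, sq_ed]
    rw [e]
    exact (cor_sq _ r).1
  inn := fun v hv c hc hce => by
    set F := cf (Dq T P κ \ sqs U) (opI (sqs U) (etaQ P κ)) ∅ with hF
    have hI : ∀ e ∈ edges U, F (sq e) = true := by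
      intro e he
      have h1 : sq e ∈ sqs U := by
        rw [mem_sqs, ed_sq (H192.isEdge_edges he)]
        exact he
      rw [hF, cf_out fun h => (mem_sdiff.1 h).2 h1]
      exact opI_in h1
    have h6 := pc_wired (κ := κ) (F := F) hP (fun i hi hi' => by
      have h7 : s(P (i : ZMod n), P ((i : ZMod n) + 1)) ∈ wE P κ := mem_wE.2 ⟨i, hi, hi', rfl⟩
      by_cases h8 : sq s(P (i : ZMod n), P ((i : ZMod n) + 1)) ∈ sqs U
      · rw [hF, cf_out fun h => (mem_sdiff.1 h).2 h8]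
        exact opI_in h8
      · rw [hF, cf_out, opI_out h8]
        · exact etaQ_wE hP h7
        · rw [mem_sdiff, mem_Dq (isEdge_wE hP h7)]
          exact fun h => h.1.2 h7) hj hjn
    obtain ⟨u, hu, rfl⟩ := cor_verts hv hc hce
    exact PC_trans h6 (pc_verts hq hU hI hju hu)

end wired

/-! ### The two domains -/

section cross

variable {N : ℕ} [NeZero N] {p : ZMod N → ℤ × ℤ} {S S' S'' T' T'' : Finset (ℤ × ℤ)} {a b M : ℕ}
  {y : ℕ → ℤ × ℤ} {a₂ b₂ M₂ k k' : ℕ} {y₂ : ℕ → ℤ × ℤ} {δ r Q : ℝ} {z : ℂ}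

/-- The domains and the frozen wired arcs agree off the cut-off part. -/
theorem CutP.agree_off (H : CutP p S a b M y S' S'') (hk : a ≤ k) (hkb : k ≤ b) (hk' : a ≤ k')
    (hkb' : k' ≤ a + M) {v : ℤ × ℤ} (hv : ed v ∉ edges S'') :
    (v ∈ Dq S p k ↔ v ∈ Dq S' (fun i : ZMod (nL N a b M) => cutL p a b M y i.val) k') ∧
      etaQ p k v = etaQ (fun i : ZMod (nL N a b M) => cutL p a b M y i.val) k' v := by
  have hab := H.cut.hab
  have hb := H.cut.hb
  have hM := H.cut.hM
  have hnL : nL N a b M = a + M + (N - b) := rfl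
  have : NeZero (nL N a b M) := ⟨H.cut.nL_pos.ne'⟩
  have hval : ∀ i : ℕ, i < nL N a b M →
      cutL p a b M y (ZMod.val ((i : ℕ) : ZMod (nL N a b M))) = cutL p a b M y i := by
    intro i hi
    rw [ZMod.val_cast_of_lt hi]
  have hw : ed v ∈ wE p k ↔ ed v ∈ wE (fun i : ZMod (nL N a b M) => cutL p a b M y i.val) k' := by
    rw [mem_wE, mem_wE]
    constructor
    · rintro ⟨i, h3, h4, h5⟩
      rcases Nat.lt_or_ge i b with h6 | h6
      · exfalso
        apply hv
        rw [h5]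
        exact (H.pe_iffR (by omega)).2 ⟨by omega, h6⟩
      · refine ⟨a + M + (i - b), by omega, by omega, ?_⟩
        have e1 := hval (a + M + (i - b)) (by omega)
        have e2 := hval (a + M + (i - b) + 1) (by omega)
        push_cast at e1 e2 ⊢
        rw [e1, e2, H.cut.L3, show a + M + (i - b) + 1 = a + M + (i - b + 1) by omega, H.cut.L3,
          show b + (i - b) = i by omega, show b + (i - b + 1) = i + 1 by omega, h5]
        push_cast
        rfl
    · rintro ⟨i, h3, h4, h5⟩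
      have e1 := hval i (by omega)
      have e2 := hval (i + 1) (by omega)
      push_cast at e2
      rw [e1, e2] at h5
      rcases Nat.lt_or_ge i (a + M) with h6 | h6
      · exfalso
        obtain ⟨j, rfl⟩ : ∃ j, i = a + j := ⟨i - a, by omega⟩
        apply hv
        rw [h5, H.cut.L2 (by omega), add_assoc, H.cut.L2 (by omega)]
        exact (H.cross_mem (by omega)).2
      · obtain ⟨j, rfl⟩ : ∃ j, i = a + M + j := ⟨i - (a + M), by omega⟩
        refine ⟨b + j, by omega, by omega, ?_⟩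
        rw [h5, H.cut.L3, add_assoc (a + M), H.cut.L3]
        push_cast
        rw [add_assoc]
  constructor
  · rw [mem_Dq', mem_Dq', H.edges_eq, Finset.mem_union, ← hw]
    constructor
    · rintro ⟨h3 | h3, h4⟩
      · exact ⟨h3, h4⟩
      · exact absurd h3 hv
    · rintro ⟨h3, h4⟩
      exact ⟨Or.inl h3, h4⟩
  · unfold etaQ
    rw [Bool.eq_iff_iff, cfg_true, cfg_true, Finset.mem_coe, Finset.mem_coe]
    exact hw

/-- The last edge of the polygon is not in the cut-off part. -/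
theorem CutP.last_off (H : CutP p S a b M y S' S'') : s(p (-1), p 0) ∉ edges S'' := by
  have hb := H.cut.hb
  have e2 : (-1 : ZMod N) = ((N - 1 : ℕ) : ZMod N) := by
    rw [Nat.cast_sub (by omega), ZMod.natCast_self, Nat.cast_one, zero_sub]
  have e3 : (0 : ZMod N) = ((N - 1 : ℕ) : ZMod N) + 1 := by
    rw [← e2, neg_add_cancel]
  rw [e3, e2, H.pe_iffR (by omega)]
  omega

theorem CutP.L_zero (H : CutP p S a b M y S' S'') :
    (fun i : ZMod (nL N a b M) => cutL p a b M y i.val) 0 = p 0 := by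
  show cutL p a b M y (ZMod.val 0) = _
  rw [ZMod.val_zero, H.cut.L1 (Nat.zero_le _), Nat.cast_zero]

theorem CutP.L_neg (H : CutP p S a b M y S' S'') :
    (fun i : ZMod (nL N a b M) => cutL p a b M y i.val) (-1) = p (-1) := by
  have hb := H.cut.hb
  have hN : 0 < nL N a b M := H.cut.nL_pos
  have e1 : (-1 : ZMod (nL N a b M)) = ((nL N a b M - 1 : ℕ) : ZMod (nL N a b M)) := by
    rw [Nat.cast_sub hN, ZMod.natCast_self, Nat.cast_one, zero_sub]
  have e2 : (-1 : ZMod N) = ((N - 1 : ℕ) : ZMod N) := by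
    rw [Nat.cast_sub (by omega), ZMod.natCast_self, Nat.cast_one, zero_sub]
  show cutL p a b M y (ZMod.val (-1)) = _
  rw [e1, ZMod.val_cast_of_lt (by omega), e2]
  have e3 : nL N a b M - 1 = a + M + (N - b - 1) := by unfold nL; omega
  rw [e3, H.cut.L3]
  congr 2
  omega

/-- The squares between the two paths. -/
def KX (S : Finset (ℤ × ℤ)) (p : ZMod N → ℤ × ℤ) (k : ℕ) (S'' T' : Finset (ℤ × ℤ)) :
    Finset (ℤ × ℤ) :=
  (Dq S p k \ sqs S'') \ sqs T'

/-- An open path of the squares of `K` from a square of `X` to a square of `Y`. -/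
def CrX (K X Y : Finset (ℤ × ℤ)) : Set Cfg :=
  {ω | ∃ s t : ℤ × ℤ, Even (s.1 + s.2) ∧ (∃ v ∈ X, Cor v s) ∧ (∃ v ∈ Y, Cor v t) ∧
    ReflTransGen (PStep {v | v ∈ K ∧ ω v = true}) s t}

theorem pr_congr {D : Finset (ℤ × ℤ)} {η : Cfg} {X Y : Set Cfg}
    (h : ∀ R ⊆ D, cf D η R ∈ X ↔ cf D η R ∈ Y) : Pr Q D η X = Pr Q D η Y := by
  unfold Pr Ex
  congr 1
  refine Finset.sum_congr rfl fun R hR => ?_
  congr 1
  rw [Finset.mem_powerset] at hR
  by_cases h1 : cf D η R ∈ X
  · rw [Set.indicator_of_mem h1, Set.indicator_of_mem ((h R hR).1 h1)]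
  · rw [Set.indicator_of_notMem h1, Set.indicator_of_notMem fun h2 => h1 ((h R hR).2 h2)]

theorem wE_sub {n : ℕ} {P : ZMod n → ℤ × ℤ} {T : Finset (ℤ × ℤ)} {κ : ℕ} (hP : IsPolygon P)
    (hT : Encloses P T) {e : Sym2 (ℤ × ℤ)} (h : e ∈ wE P κ) : e ∈ edges T := by
  rw [mem_wE] at h
  obtain ⟨i, -, -, rfl⟩ := h
  exact E2.p_edge hP hT _

/-- The open edges of the configurations of a domain are edges of the domain. -/
theorem cf_edges {n : ℕ} {P : ZMod n → ℤ × ℤ} {T : Finset (ℤ × ℤ)} {κ : ℕ} (hP : IsPolygon P)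
    (hT : Encloses P T) {R : Finset (ℤ × ℤ)} {v : ℤ × ℤ}
    (h : cf (Dq T P κ) (etaQ P κ) R v = true) : ed v ∈ edges T := by
  by_cases hv : v ∈ Dq T P κ
  · exact (mem_Dq'.1 hv).1
  · rw [cf_out hv] at h
    unfold etaQ at h
    rw [cfg_true] at h
    exact wE_sub hP hT h

theorem end_verts {U : Finset (ℤ × ℤ)} {u : ℤ × ℤ} {r : Fin 4} (h : s(u, u + dir r) ∈ edges U) :
    u ∈ verts U := by
  rw [mem_verts]
  rcases (E2.mem_edges _).1 h with h1 | h1 <;> exact ⟨_, h1⟩

open Classical in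
/-- **[LAW] in crosscut form.** -/
theorem law_cross (hQ0 : 0 < Q) (hQ1 : Q ≤ 1) (V : CutP p S a b M y S' S'') (hk : a ≤ k)
    (hkb : k ≤ b) (hk' : a ≤ k') (hkb' : k' ≤ a + M) (W : CutP p S a₂ b₂ M₂ y₂ T' T'')
    (hVW : Disjoint (verts S'') (verts T')) (hδ : 0 ≤ δ)
    (hy : ∀ i ≤ M₂, dist ((δ : ℂ) * pt (y₂ i)) z + δ ≤ r) {m : ℕ} (B C : Fin m → Set ℂ) {e : ℝ}
    (hfr : ∀ ζ : Cfg, Good ζ →
      Pr Q (KX S p k S'' T') ζ (CrX (KX S p k S'' T') (sqs S'') (sqs T')) ≤ e) :
    |Pr Q (Dq S p k) (etaQ p k) (EvB δ (H192.me (cs p)) z r B C) -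
      Pr Q (Dq S' (fun i : ZMod (nL N a b M) => cutL p a b M y i.val) k')
        (etaQ (fun i : ZMod (nL N a b M) => cutL p a b M y i.val) k')
        (EvB δ (H192.me (cs p)) z r B C)| ≤ 2 * e := by
  have : NeZero (nL N a b M) := ⟨V.cut.nL_pos.ne'⟩
  have : NeZero (nR a b M) := ⟨V.cut.nR_pos.ne'⟩
  have hab := V.cut.hab
  have hb := V.cut.hb
  have hM := V.cut.hM
  have hnL : nL N a b M = a + M + (N - b) := rfl
  set P' : ZMod (nL N a b M) → ℤ × ℤ := fun i => cutL p a b M y i.val with hP'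
  set E := EvB δ (H192.me (cs p)) z r B C with hE
  set D := Dq S p k with hD
  set D' := Dq S' P' k' with hD'
  set I := sqs S'' with hI
  set B₀ : Finset (ℤ × ℤ) := (sqs S).biUnion fun v =>
    Finset.Icc (v.1 - 1) (v.1 + 1) ×ˢ Finset.Icc (v.2 - 1) (v.2 + 1) with hB₀
  set J := B₀ \ sqs T' with hJ
  have hdis : ∀ v, v ∈ sqs S'' → v ∉ sqs T' := by
    intro v h1 h2
    rw [mem_sqs] at h1 h2
    obtain ⟨u, t, h⟩ := isEdge_ed v
    rw [h] at h1 h2
    exact disjoint_left.1 hVW (end_verts h1) (end_verts h2)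
  have hST : ∀ v, ed v ∈ edges S → ed v ∉ edges T' → ed v ∈ edges T'' := by
    intro v h1 h2
    rw [W.edges_eq, mem_union] at h1
    exact h1.resolve_left h2
  have hS'' : ∀ v, v ∈ sqs S'' → ed v ∈ edges S := by
    intro v h1
    rw [V.edges_eq, mem_union]
    exact Or.inr (mem_sqs.1 h1)
  have hB : ∀ v t w : ℤ × ℤ, v ∈ sqs S → Cor v t → Cor w t → w ∈ B₀ := by
    rintro v t w h1 ⟨h2, h3⟩ ⟨h4, h5⟩
    rw [hB₀, mem_biUnion]
    refine ⟨v, h1, ?_⟩
    rw [mem_product, Finset.mem_Icc, Finset.mem_Icc]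
    omega
  have hself : ∀ v ∈ sqs S, v ∈ B₀ := fun v hv =>
    hB v v v hv ⟨Or.inl rfl, Or.inl rfl⟩ ⟨Or.inl rfl, Or.inl rfl⟩
  have hIJ : I ⊆ J := by
    intro v hv
    rw [hJ, mem_sdiff]
    exact ⟨hself v (mem_sqs.2 (hS'' v hv)), hdis v hv⟩
  have hag : ∀ v, v ∉ I → (v ∈ D ↔ v ∈ D') ∧ etaQ p k v = etaQ P' k' v := by
    intro v hv
    exact V.agree_off hk hkb hk' hkb' fun h => hv (mem_sqs.2 h)
  have hDI : D \ I = D' \ I := by
    ext v
    rw [mem_sdiff, mem_sdiff]
    constructor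
    · rintro ⟨h1, h2⟩
      exact ⟨(hag v h2).1.1 h1, h2⟩
    · rintro ⟨h1, h2⟩
      exact ⟨(hag v h2).1.2 h1, h2⟩
  have hRt : Rt D I J (etaQ p k) (H192.ro (p (-1))) :=
    rt_gen V.poly V.enc (V.cut.polyR V.poly V.enc) V.encR J (j := b) hkb hb
      (V.p_memR hab.le le_rfl) V.last_off
  have hRt' : Rt D' I J (etaQ P' k') (H192.ro (P' (-1))) := by
    refine rt_gen (V.cut.polyL V.poly) V.encL (V.cut.polyR V.poly V.enc) V.encR J (j := a + M)
      hkb' (by omega) ?_ ?_
    · have e1 : P' ((a + M : ℕ) : ZMod (nL N a b M)) = y M := by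
        show cutL p a b M y (ZMod.val _) = _
        rw [ZMod.val_cast_of_lt (by omega), V.cut.L2 le_rfl]
      change P' ((a + M : ℕ) : ZMod (nL N a b M)) ∈ verts S''
      rw [e1]
      exact (V.y_mem le_rfl).2
    · have e1 : P' (-1) = p (-1) := V.L_neg
      have e2 : P' 0 = p 0 := V.L_zero
      change s(P' (-1), P' 0) ∉ edges S''
      rw [e1, e2]
      exact V.last_off
  -- the local event
  set gl : Cfg → Cfg := fun ω v => if v ∈ D \ J then ω v else etaQ p k v with hgl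
  set X : Set Cfg := {ω | gl ω ∈ E} with hXdef
  have hX : Loc (D \ J) (X.indicator 1) := by
    intro ω ω' h
    have h1 : gl ω = gl ω' := by
      funext v
      simp only [hgl]
      split_ifs with h2
      · exact h v h2
      · rfl
    by_cases h2 : ω ∈ X
    · have h3 : ω' ∈ X := by
        show gl ω' ∈ E
        rw [← h1]
        exact h2
      rw [Set.indicator_of_mem h2, Set.indicator_of_mem h3, Pi.one_apply, Pi.one_apply]
    · have h3 : ω' ∉ X := by
        show gl ω' ∉ E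
        rw [← h1]
        exact h2
      rw [Set.indicator_of_notMem h2, Set.indicator_of_notMem h3]
  -- the fresh crossing
  have hK : D ∩ (J \ I) = KX S p k S'' T' := by
    unfold KX
    ext v
    simp only [mem_inter, mem_sdiff, hJ]
    constructor
    · rintro ⟨h1, ⟨h2, h3⟩, h4⟩
      exact ⟨⟨h1, h4⟩, h3⟩
    · rintro ⟨⟨h1, h4⟩, h3⟩
      exact ⟨h1, ⟨hself v (mem_sqs.2 (mem_Dq'.1 h1).1), h3⟩, h4⟩
  have hbd : Pr Q (D \ I) (opI I (etaQ p k)) (FreshX D I J) ≤ e := by
    refine fresh_le hQ0 H718.good_etaQ fun ζ hζ _ => ?_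
    rw [hK]
    refine le_trans ?_ (hfr ζ hζ)
    refine Ex_mono hQ0 fun R _ => H519.ind_le_of_imp ?_
    rintro ⟨s, t, h1, ⟨v, hv, hvs⟩, ⟨w, hw, hwt⟩, h4, -⟩
    have hset : OpA D I J (cf (KX S p k S'' T') ζ R) =
        {v | v ∈ KX S p k S'' T' ∧ cf (KX S p k S'' T') ζ R v = true} := by
      ext v
      unfold OpA
      rw [← hK]
      simp only [Set.mem_ofPred_eq, mem_inter, mem_sdiff]
      tauto
    refine ⟨s, t, h1, ⟨v, hv, hvs⟩, ⟨w, ?_, hwt⟩, ?_⟩
    · -- the end is near the domain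
      have h5 : w ∈ B₀ := by
        rcases Relation.ReflTransGen.cases_tail h4 with h6 | ⟨c, -, h6⟩
        · subst h6
          exact hB v _ w (mem_sqs.2 (hS'' v hv)) hvs hwt
        · exact hB _ t w (mem_sqs.2 (mem_Dq'.1 h6.2.2.1.1).1) (cor_of_step h6).2 hwt
      by_contra h6
      exact hw (mem_sdiff.2 ⟨h5, h6⟩)
    · rw [← hset]
      exact h4
  have hmain := law_two hQ0 hQ1 H718.good_etaQ H718.good_etaQ hIJ hDI
    (fun v h1 _ => (hag v h1).2) hRt hRt' hX hbd
  -- the events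
  have hout : ∀ v, ed v ∉ edges T'' → v ∈ D → v ∈ D \ J := by
    intro v h1 h2
    rw [mem_sdiff]
    refine ⟨h2, fun h3 => h1 (hST v (mem_Dq'.1 h2).1 fun h4 => ?_)⟩
    exact (mem_sdiff.1 h3).2 (mem_sqs.2 h4)
  have e1 : Pr Q D (etaQ p k) E = Pr Q D (etaQ p k) X := by
    refine pr_congr fun R _ => ?_
    refine W.evB_cross hδ hy (fun v _ _ h => cf_edges V.poly V.enc h) fun v h1 _ => ?_
    simp only [hgl]
    split_ifs with h2
    · rfl
    · by_cases h3 : v ∈ D
      · exact absurd (hout v h1 h3) h2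
      · rw [cf_out h3]
  have e2 : Pr Q D' (etaQ P' k') E = Pr Q D' (etaQ P' k') X := by
    refine pr_congr fun R _ => ?_
    refine W.evB_cross hδ hy (fun v _ _ h => ?_) fun v h1 _ => ?_
    · rw [V.edges_eq, mem_union]
      exact Or.inl (cf_edges (V.cut.polyL V.poly) V.encL h)
    · simp only [hgl]
      split_ifs with h2
      · rfl
      · have h3 : v ∉ D := fun h3 => h2 (hout v h1 h3)
        have h4 : v ∉ I := fun h4 => by
          refine h1 (hST v (hS'' v h4) fun h5 => ?_)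
          exact hdis v h4 (mem_sqs.2 h5)
        rw [cf_out fun h5 => h3 ((hag v h4).1.2 h5)]
        exact (hag v h4).2.symm
  rw [e1, e2]
  exact hmain

end cross

end Vale.Agent.P167.N.ST2
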