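import Vale.Agent.P167.N.ST2.LDefs
import Vale.Agent.P167.N.ST2.LawX

/-!
# P167, block ST2: the statement `S_lawX`
-/

set_option autoImplicit false

namespace Vale.Agent.P167.N.ST2

open Vale.Agent.P167.FK
open Vale.Agent.P167.E6
open Vale.Agent.P167.H192 (ed)
open Vale.Agent.P167.H718 (Dq etaQ)

theorem Fq_eq {N : ℕ} [NeZero N] (p : ZMod N → ℤ × ℤ) (k : ℕ) (S S'' T' : Finset (ℤ × ℤ)) :
    Fq p k S S'' T' = KX S p k S'' T' := by
  unfold Fq KX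
  ext v
  simp only [Finset.mem_filter, Finset.mem_sdiff, mem_sqs]
  tauto

theorem XQ_eq (K S'' T' : Finset (ℤ × ℤ)) : XQ K S'' T' = CrX K (sqs S'') (sqs T') := by
  unfold XQ CrX
  simp only [mem_sqs]

/-- **(L2)** -/
theorem s_lawX {Q : ℝ} (hQ0 : 0 < Q) (hQ1 : Q ≤ 1) : S_lawX Q := by
  intro N k _ p S a b M c y S' S'' aw bw Mw yw T' T'' V W hk hkb hc hcM hVW δ r z hδ hy e hfr m B C
  refine law_cross hQ0 hQ1 V hk.le hkb.le (by omega) (by omega) W hVW hδ hy B C ?_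
  intro ζ hζ
  rw [← Fq_eq, ← XQ_eq]
  exact hfr ζ hζ

end Vale.Agent.P167.N.ST2
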