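import Vale.Agent.P167.N.ST2.Ext
import Vale.Agent.P167.N.ST2.LawY

/-!
# P167, block ST2: the quad between two crosscuts is not crossed (`S_bar`)

`s_bar`: from the bound for one arm in sets of squares with connected complement (`QC.UTc`).
-/

set_option autoImplicit false
set_option linter.unusedSectionVars false

namespace Vale.Agent.P167.N.ST2

open Finset Relation
open Vale.Agent.P167.FK Vale.Agent.P167.FKA
open Vale.Agent.P167.E6
open Vale.Agent.P167.H192 (sq ed rf cfg cfg_true isEdge_ed sq_ed ed_sq)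
open Vale.Agent.P167.H192.TA (Pw)
open Vale.Agent.P145.FB (PStep)
open Vale.Agent.P167.N.QC (Oa Oc lv An mem_An Cf Cf_compl OcC UTc Xr)

section bar

variable {N : ℕ} [NeZero N] {p : ZMod N → ℤ × ℤ} {S S' S'' T' T'' : Finset (ℤ × ℤ)} {a b M k : ℕ}
  {y : ℕ → ℤ × ℤ} {Q : ℝ} {x : ℤ × ℤ} {r R : ℤ}

/-- The complement of the part of the quad in the annulus is connected through odd corners. -/
theorem occ_quad (V : CutP p S a b M y S' S'') (hr : ∀ v, ed v ∈ edges S'' → nm (v - x) ≤ r)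
    (hR : ∀ v, ed v ∈ edges T' → R < nm (v - x)) : OcC (Fq p k S S'' T' ∩ An x r R) := by
  have hsub : Xt S ⊆ (↑(Fq p k S S'' T' ∩ An x r R) : Set (ℤ × ℤ))ᶜ := by
    intro v hv h
    have h1 := (Finset.mem_inter.1 (Finset.mem_coe.1 h)).1
    unfold Fq at h1
    rw [Finset.mem_filter, H718.mem_Dq'] at h1
    exact hv h1.1.1
  have hout : ∀ v, R < lv x v → v ∈ (↑(Fq p k S S'' T' ∩ An x r R) : Set (ℤ × ℤ))ᶜ := by
    intro v hv h
    have h1 := mem_An.1 (Finset.mem_inter.1 (Finset.mem_coe.1 h)).2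
    omega
  have hin : ∀ v, lv x v ≤ r → v ∈ (↑(Fq p k S S'' T' ∩ An x r R) : Set (ℤ × ℤ))ᶜ := by
    intro v hv h
    have h1 := mem_An.1 (Finset.mem_inter.1 (Finset.mem_coe.1 h)).2
    omega
  -- a square with an exterior corner
  have key : ∀ v F, v ∉ Fq p k S S'' T' ∩ An x r R → F ∉ S → Cor v (rf F) →
      ∃ w, R < lv x w ∧ Oc (↑(Fq p k S S'' T' ∩ An x r R) : Set (ℤ × ℤ))ᶜ v w := by
    intro v F hv hF hc
    obtain ⟨w, h1, h2⟩ := ext_oc V.poly V.enc hF hc x R
    refine ⟨w, h1, h2.mono ?_⟩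
    intro u hu
    rcases hu with rfl | hu
    · exact hv
    · exact hsub hu
  have far : ∀ v, v ∉ Fq p k S S'' T' ∩ An x r R →
      ∃ w, R < lv x w ∧ Oc (↑(Fq p k S S'' T' ∩ An x r R) : Set (ℤ × ℤ))ᶜ v w := by
    intro v hv
    by_cases h1 : lv x v ≤ r
    · -- the box contains a square of the polygon
      have hN := V.cut.hb
      have hab := V.cut.hab
      have h2 : s(p (a : ZMod N), p ((a : ZMod N) + 1)) ∈ edges S'' :=
        (V.pe_iffR (by omega)).2 ⟨le_rfl, hab⟩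
      have h3 : lv x (H192.sq s(p (a : ZMod N), p ((a : ZMod N) + 1))) ≤ r := by
        refine hr _ ?_
        rw [ed_sq (H192.isEdge_edges h2)]
        exact h2
      have h4 : Cor (H192.sq s(p (a : ZMod N), p ((a : ZMod N) + 1)))
          (rf (Of p (a : ZMod N))) := by
        rw [E2.ro_spec V.poly]
        exact (cor_face _ _).2
      obtain ⟨w, h5, h6⟩ := key _ _ (hin _ h3) (of_notMem V.poly V.enc _) h4
      exact ⟨w, h5, ((QC.box_conn h1 h3).mono fun u hu => hin u hu).trans h6⟩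
    by_cases h2 : R < lv x v
    · exact ⟨v, h2, Oc.refl⟩
    -- the square is off the quad
    have h3 : v ∉ H718.Dq S p k := by
      intro h4
      refine hv (Finset.mem_inter.2 ⟨?_, mem_An.2 ⟨by omega, by omega⟩⟩)
      unfold Fq
      rw [Finset.mem_filter]
      exact ⟨h4, fun h5 => h1 (hr v h5), fun h5 => h2 (hR v h5)⟩
    obtain ⟨F, hF, hc⟩ := off_cor V.poly V.enc h3
    exact key v F hv hF hc
  intro v w hv hw
  obtain ⟨v', h1, h2⟩ := far v hv
  obtain ⟨w', h3, h4⟩ := far w hw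
  exact (h2.trans ((QC.out_conn h1 h3).mono fun u hu => hout u hu)).trans h4.symm

/-- **(L1)** -/
theorem s_bar (hQ : 0 < Q) (hU : UTc Q) : S_bar Q := by
  obtain ⟨α, C, hα, hC, hU⟩ := hU
  refine ⟨α, C, hα, hC, ?_⟩
  intro N k _ p S a b M y S' S'' aw bw Mw yw T' T'' V W hak hkb x r R hr hrR hS hT ζ hζ
  have hG : Pr Q (Fq p k S S'' T') ζ (Xr x r R (Fq p k S S'' T' ∩ An x r R)) ≤
      C * ((r : ℝ) / R) ^ α :=
    QC.Xr_le hQ Finset.inter_subset_left (fun η hη => hU x r R hr hrR _ Finset.inter_subset_right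
      (occ_quad V hS hT) η hη) hζ
  refine le_trans (Ex_mono hQ fun U _ => H519.ind_le_of_imp ?_) hG
  rintro ⟨s, t, h1, ⟨v, hv, hvs⟩, ⟨w, hw, hwt⟩, h4⟩
  refine QC.Xr_sub (le_refl r) (le_refl R) _ ⟨s, t, Int.even_iff.1 h1, ?_, ?_, h4⟩
  · have h5 := hS v hv
    simp only [nm, Prod.fst_sub, Prod.snd_sub, max_le_iff, abs_le, Cor] at *
    omega
  · have h5 := hT w hw
    simp only [nm, Prod.fst_sub, Prod.snd_sub, lt_max_iff, lt_abs, le_max_iff, le_abs, Cor] at *
    omega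

end bar

end Vale.Agent.P167.N.ST2
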