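import Vale.Agent.P167.H587.Flat
import Vale.Agent.P167.H635.Bil

/-!
# Comparison of two boundary conditions which differ by the wiring of a block, with a common vertex

`bil_f`: `E^{ξ'}[F; N] E^ξ[G] ≤ E^ξ[F] E^{ξ'}[G]` for nonnegative functions `F`, `G` of the squares of
`V`, where `N` means that (for the condition `ξ` outside) no cluster joins `V` and the block `𝓦`
without containing the site `f` of `𝓦`.
-/

set_option autoImplicit false

namespace Vale.Agent.P167.N.ST2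

open Finset Vale.Agent.P167.H623 Vale.Agent.P167.H661 Vale.Agent.P167.FK Vale.Agent.P167.FKA
open Vale.Agent.P167.H635 Vale.Agent.P167.H587
open Vale.Agent.P145.FB (PStep PConn)
open Vale.Agent.P167.H259 (PC_mono cf_insert flip_cf cf_mono)
open Vale.Agent.P167.H519 (pa_cor pb_cor pa_even pb_even pc_of_cor cf_in Sx Jn ind_le_of_imp)

set_option linter.unusedSectionVars false

section sums

variable {V E : Type*} [Fintype V] [DecidableEq V] [Fintype E] [DecidableEq E]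
  (a b : E → V) {w : E → ℝ} {q : ℝ}

/-- The bilinear inequality on the graph, with a common vertex `f`. -/
theorem bil_graph_f (hw : ∀ e, 0 ≤ w e) (hq0 : 0 < q) (hq1 : q ≤ 1) (ρ : Setoid V)
    {W T : Finset V} {x₀ : V} (hfW : x₀ ∈ W) (hfT : x₀ ∈ T) {E0 : Finset E}
    (hE : ∀ e ∈ E0, a e ∈ T ∧ b e ∈ T)
    {f g k : Finset E → ℝ} (hf : ∀ S, 0 ≤ f S) (hg : ∀ S, 0 ≤ g S)
    (hk1 : ∀ ω, k ω ≤ 1)
    (hk2 : ∀ ω, (∃ x ∈ T, ∃ y ∈ W, (conf a b ω ⊔ ρ) x y ∧ ¬ (conf a b ω ⊔ ρ) x x₀) → k ω ≤ 0) :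
    ZF a b w q (ρ ⊔ blk W) (fun ω => f (ω ∩ E0) * k ω) * ZF a b w q ρ (fun ω => g (ω ∩ E0)) ≤
      ZF a b w q ρ (fun ω => f (ω ∩ E0)) * ZF a b w q (ρ ⊔ blk W) (fun ω => g (ω ∩ E0)) := by
  classical
  obtain ⟨M, hM⟩ : ∃ M : Finset E → Prop, ∀ ω, M ω ↔ ∀ x ∈ T, ∀ y ∈ W,
      (conf a b ω ⊔ ρ) x y → (conf a b ω ⊔ ρ) x x₀ := ⟨_, fun _ => Iff.rfl⟩
  have h0 : ZF a b w q (ρ ⊔ blk W) (fun ω => f (ω ∩ E0) * k ω) ≤
      ZF a b w q (ρ ⊔ blk W) (fun ω => f (ω ∩ E0) * (if M ω then 1 else 0)) := by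
    refine ZF_mono a b hw hq0.le _ fun ω => mul_le_mul_of_nonneg_left ?_ (hf _)
    split_ifs with h
    · exact hk1 ω
    · refine hk2 ω ?_
      rw [hM] at h
      push Not at h
      exact h
  have e1 : ∀ (σ : Setoid V) (h : Finset E → ℝ), ZF a b w q σ (fun ω => h (ω ∩ E0)) =
      ∑ S ∈ E0.powerset, h S * ZS a b w q σ (fun ω => ω ∩ E0 = S) := by
    intro σ h
    have h2 := ZF_split a b (w := w) (q := q) σ E0 h (fun _ => True)
    simp only [if_true, mul_one, and_true] at h2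
    exact h2
  have hg0 : 0 ≤ ZF a b w q ρ (fun ω => g (ω ∩ E0)) :=
    sum_nonneg fun ω _ => mul_nonneg (mul_nonneg (prod_nonneg fun e _ => hw e)
      (pow_nonneg hq0.le _)) (hg _)
  refine (mul_le_mul_of_nonneg_right h0 hg0).trans ?_
  rw [ZF_split, e1, e1, e1, sum_mul_sum, sum_mul_sum]
  refine sum_le_sum fun S hS => sum_le_sum fun S' hS' => ?_
  rw [mem_powerset] at hS hS'
  have h3 := star_f a b hw hq0 hq1 ρ hfW hfT hE hS hS'
  rw [← ZS_congr a b (fun ω => and_congr (Iff.refl (ω ∩ E0 = S)) (hM ω))] at h3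
  have h4 := mul_le_mul_of_nonneg_left h3 (mul_nonneg (hf S) (hg S'))
  calc _ = f S * g S' * (ZS a b w q (ρ ⊔ blk W) (fun ω => ω ∩ E0 = S ∧ M ω) *
          ZS a b w q ρ (fun ω => ω ∩ E0 = S')) := by ring
    _ ≤ _ := h4
    _ = _ := by ring

end sums

section model

variable {Q : ℝ} {A V : Finset (ℤ × ℤ)} {ξ ξ1 : Cfg}

/-- The configuration `ω` on `A` and `ξ` outside of `A`. -/
noncomputable def on (A : Finset (ℤ × ℤ)) (ξ ω : Cfg) : Cfg := cf A ξ (A.filter fun v => ω v = true)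

theorem on_in {ω : Cfg} {v : ℤ × ℤ} (h : v ∈ A) : on A ξ ω v = ω v := by
  unfold on
  rw [cf_in h]
  simp [h]

theorem on_out {ω : Cfg} {v : ℤ × ℤ} (h : v ∉ A) : on A ξ ω v = ξ v := cf_out h

theorem on_cf {S : Finset (ℤ × ℤ)} : on A ξ (cf A ξ1 S) = cf A ξ S := by
  funext v
  by_cases h : v ∈ A
  · rw [on_in h, cf_in h, cf_in h]
  · rw [on_out h, cf_out h]

/-- A cluster (with the condition `ξ` outside of `A`) joins a square of `V` and a site of `𝓦` and does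
not contain `f`. -/
def BadF (A V : Finset (ℤ × ℤ)) (ξ : Cfg) (𝓦 : Set (ℤ × ℤ)) (f : ℤ × ℤ) : Set Cfg :=
  {ω | ∃ s ∈ 𝓦, ∃ u, (∃ v ∈ V, Cor v u) ∧ PC (on A ξ ω) s u ∧ ¬ PC (on A ξ ω) s f}

/-- **The bilinear inequality** with a common site `f`, which is a corner of a square of `A`. -/
theorem bil_f (hQ0 : 0 < Q) (hQ1 : Q ≤ 1) (hVA : V ⊆ A) (hξ : Good ξ) (hξ1 : Good ξ1)
    {𝓦 : Set (ℤ × ℤ)} (h : Wi A ξ ξ1 𝓦) {f : ℤ × ℤ} (hf : f ∈ 𝓦) (hfA : f ∈ corn A)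
    {F G : Cfg → ℝ} (hF0 : ∀ ω, 0 ≤ F ω)
    (hG0 : ∀ ω, 0 ≤ G ω) (hF : Loc V F) (hG : Loc V G) :
    Ex Q A ξ1 (fun ω => F ω * (1 - (BadF A V ξ 𝓦 f).indicator 1 ω)) * Ex Q A ξ G ≤
      Ex Q A ξ F * Ex Q A ξ1 G := by
  classical
  set w : {v // v ∈ A} → ℝ := fun _ => Q with hw
  have hw0 : ∀ e, 0 ≤ w e := fun _ => hQ0.le
  have hq0 : 0 < Q ^ 2 := pow_pos hQ0 2
  have hq1 : Q ^ 2 ≤ 1 := pow_le_one₀ hQ0.le hQ1
  have z0 := ZS_pos (ea A) (eb A) hw0 hq0 (rho A ξ)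
  have z1 := ZS_pos (ea A) (eb A) hw0 hq0 (rho A ξ1)
  have ind1 : ∀ ω, (1 : ℝ) - (BadF A V ξ 𝓦 f).indicator 1 ω ≤ 1 := fun ω => by
    have := ind_nonneg (BadF A V ξ 𝓦 f) ω
    linarith
  -- local functions do not see the outside
  have hloc : ∀ {F : Cfg → ℝ}, Loc V F → ∀ S : Finset {v // v ∈ A},
      F (cf A ξ1 (up A S)) = F (cf A ξ (up A S)) := by
    intro F hF S
    refine hF _ _ fun v hv => ?_
    rw [cf_in (hVA hv), cf_in (hVA hv)]
  set x₀ : {s // s ∈ corn A} := ⟨f, hfA⟩ with hx₀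
  have hW : x₀ ∈ blW A ξ 𝓦 := mem_blW.2 ⟨f, hf, PC_refl _ _⟩
  set T : Finset {s // s ∈ corn A} := insert x₀ (univ.filter fun s => s.1 ∈ corn V) with hT
  set E0 : Finset {v // v ∈ A} := univ.filter fun e => e.1 ∈ V with hE0
  have hE : ∀ e ∈ E0, ea A e ∈ T ∧ eb A e ∈ T := by
    intro e he
    rw [hE0, mem_filter] at he
    rw [hT, mem_insert, mem_insert, mem_filter, mem_filter]
    exact ⟨Or.inr ⟨mem_univ _, pa_corn V he.2⟩, Or.inr ⟨mem_univ _, pb_corn V he.2⟩⟩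
  have hin : ∀ {F : Cfg → ℝ}, Loc V F → ∀ S : Finset {v // v ∈ A},
      F (cf A ξ (up A S)) = F (cf A ξ (up A (S ∩ E0))) := by
    intro F hF S
    refine hF _ _ fun v hv => ?_
    rw [cf_in (hVA hv), cf_in (hVA hv)]
    congr 1
    rw [mem_up, mem_up, eq_iff_iff]
    constructor
    · rintro ⟨h1, h2⟩
      exact ⟨h1, mem_inter.2 ⟨h2, by rw [hE0, mem_filter]; exact ⟨mem_univ _, hv⟩⟩⟩
    · rintro ⟨h1, h2⟩
      exact ⟨h1, (mem_inter.1 h2).1⟩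
  have main := bil_graph_f (ea A) (eb A) hw0 hq0 hq1 (rho A ξ) hW (mem_insert_self x₀ _) hE
    (f := fun S => F (cf A ξ (up A S))) (g := fun S => G (cf A ξ (up A S)))
    (k := fun S => 1 - (BadF A V ξ 𝓦 f).indicator 1 (cf A ξ1 (up A S)))
    (fun _ => hF0 _) (fun _ => hG0 _) (fun _ => ind1 _) (by
      rintro S ⟨x, hx, y, hy, hxy, hxf⟩
      rw [con_iff] at hxy hxf
      obtain ⟨z, hz, hyz⟩ := mem_blW.1 hy
      rcases mem_insert.1 hx with rfl | hx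
      · exact absurd (PC_refl _ _) hxf
      have h1 : cf A ξ1 (up A S) ∈ BadF A V ξ 𝓦 f := by
        have hx2 : x.1 ∈ V.image FK.pa ∪ V.image FK.pb := (mem_filter.1 hx).2
        rw [mem_union, mem_image, mem_image] at hx2
        have hzx : PC (cf A ξ (up A S)) z x.1 :=
          PC_symm (PC_trans hxy (PC_mono (cf_mono (empty_subset _)) hyz))
        refine ⟨z, hz, x.1, ?_, ?_, ?_⟩
        · rcases hx2 with ⟨v, hv, hvx⟩ | ⟨v, hv, hvx⟩
          · exact ⟨v, hv, hvx ▸ pa_cor v⟩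
          · exact ⟨v, hv, hvx ▸ pb_cor v⟩
        · rw [on_cf]
          exact hzx
        · rw [on_cf]
          exact fun h2 => hxf (PC_trans (PC_symm hzx) h2)
      rw [Set.indicator_of_mem h1]
      simp)
  rw [← rho_wire h] at main
  -- back to the loop model
  have e1 := ex_zf hQ0 hξ1 (A := A) (fun ω => F ω * (1 - (BadF A V ξ 𝓦 f).indicator 1 ω))
  have e2 := ex_zf hQ0 hξ G (A := A)
  have e3 := ex_zf hQ0 hξ F (A := A)
  have e4 := ex_zf hQ0 hξ1 G (A := A)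
  have c1 : (fun S : Finset {v // v ∈ A} => F (cf A ξ1 (up A S)) *
      (1 - (BadF A V ξ 𝓦 f).indicator 1 (cf A ξ1 (up A S)))) =
      fun S => F (cf A ξ (up A (S ∩ E0))) *
        (1 - (BadF A V ξ 𝓦 f).indicator 1 (cf A ξ1 (up A S))) :=
    funext fun S => by rw [hloc hF, hin hF]
  have c2 : (fun S : Finset {v // v ∈ A} => G (cf A ξ (up A S))) =
      fun S => G (cf A ξ (up A (S ∩ E0))) := funext fun S => hin hG S
  have c3 : (fun S : Finset {v // v ∈ A} => F (cf A ξ (up A S))) =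
      fun S => F (cf A ξ (up A (S ∩ E0))) := funext fun S => hin hF S
  have c4 : (fun S : Finset {v // v ∈ A} => G (cf A ξ1 (up A S))) =
      fun S => G (cf A ξ (up A (S ∩ E0))) := funext fun S => by rw [hloc hG, hin hG]
  rw [c1] at e1
  rw [c2] at e2
  rw [c3] at e3
  rw [c4] at e4
  rw [← e1, ← e2, ← e3, ← e4] at main
  have hzz := mul_pos z0 z1
  refine le_of_mul_le_mul_right ?_ hzz
  linarith [main]

/-- **The events of `V`**: total variation. -/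
theorem tv_f (hQ0 : 0 < Q) (hQ1 : Q ≤ 1) (hVA : V ⊆ A) (hξ : Good ξ) (hξ1 : Good ξ1)
    {𝓦 : Set (ℤ × ℤ)} (h : Wi A ξ ξ1 𝓦) {f : ℤ × ℤ} (hf : f ∈ 𝓦) (hfA : f ∈ corn A)
    {X : Set Cfg} (hX : Loc V (X.indicator 1)) {δ : ℝ} (hδ : Pr Q A ξ1 (BadF A V ξ 𝓦 f) ≤ δ) :
    |Pr Q A ξ X - Pr Q A ξ1 X| ≤ δ := by
  have key : ∀ X : Set Cfg, Loc V (X.indicator 1) → Pr Q A ξ1 X - δ ≤ Pr Q A ξ X := by
    intro X hX
    have h1 := bil_f hQ0 hQ1 hVA hξ hξ1 h hf hfA (F := X.indicator 1) (G := fun _ => 1)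
      (ind_nonneg X) (fun _ => zero_le_one) hX fun _ _ _ => rfl
    rw [Ex_const hQ0, Ex_const hQ0, mul_one, mul_one] at h1
    have h2 : Ex Q A ξ1 (fun ω => X.indicator 1 ω - (BadF A V ξ 𝓦 f).indicator 1 ω) ≤
        Ex Q A ξ1 (fun ω => X.indicator 1 ω * (1 - (BadF A V ξ 𝓦 f).indicator 1 ω)) := by
      refine Ex_mono hQ0 fun S _ => ?_
      have h3 := ind_nonneg (BadF A V ξ 𝓦 f) (cf A ξ1 S)
      have h4 := ind_le_one X (cf A ξ1 S)
      nlinarith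
    have h3 : Ex Q A ξ1 (fun ω => X.indicator 1 ω - (BadF A V ξ 𝓦 f).indicator 1 ω) =
        Pr Q A ξ1 X - Pr Q A ξ1 (BadF A V ξ 𝓦 f) := Ex_sub _ _
    have h4 : Ex Q A ξ (X.indicator 1) = Pr Q A ξ X := rfl
    rw [h4] at h1
    linarith
  have h1 := key X hX
  have h2 := key Xᶜ (by
    intro ω ω' hv
    have h3 := hX ω ω' hv
    by_cases h4 : ω ∈ X <;> by_cases h5 : ω' ∈ X <;> simp_all [Set.indicator])
  rw [Pr_compl hQ0, Pr_compl hQ0] at h2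
  rw [abs_le]
  constructor <;> linarith

end model

end Vale.Agent.P167.N.ST2
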