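import Vale.Agent.P167.H634.Apx.Jor2

/-!
# P167, block ST2: cutting a polygon of the square lattice along a simple path

`cut_polygon`: a simple path `y 0 = p a, …, y M = p b` inside of the polygon `p`, which does not meet
`p` otherwise, cuts the set of the enclosed faces `S` into two disjoint sets `S'`, `S''` which are
enclosed by the polygons `cutL` (`p 0, …, p a, y 1, …, y M = p b, …, p (N - 1)`) and `cutR`
(`p a, …, p b, y (M - 1), …, y 1`).
-/

set_option autoImplicit false
set_option linter.unusedSectionVars false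

namespace Vale.Agent.P167.N.ST2

open Finset
open Vale.Agent.P167.E6 (IsPolygon Encloses dir face)
open Vale.Agent.P167.H634.Apx

/-! ### Polygons from sequences -/

section seq

variable {n : ℕ} [NeZero n] {u : ℕ → ℤ × ℤ}

theorem val_succ (hc : u n = u 0) (i : ZMod n) : u (i + 1).val = u (i.val + 1) := by
  obtain ⟨m, rfl⟩ : ∃ m, n = m + 1 := ⟨n - 1, by have := NeZero.pos n; omega⟩
  rcases Nat.lt_or_ge (i.val + 1) (m + 1) with h | h
  · rcases Nat.eq_zero_or_pos m with h0 | h0
    · omega
    · have : Fact (1 < m + 1) := ⟨by omega⟩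
      rw [ZMod.val_add_of_lt (by rw [ZMod.val_one]; exact h), ZMod.val_one]
  · have h1 := ZMod.val_lt i
    have h2 : i.val + 1 = m + 1 := by omega
    have h3 : i + 1 = 0 := by
      have h4 : ((i.val + 1 : ℕ) : ZMod (m + 1)) = 0 := by
        rw [h2]
        exact ZMod.natCast_self (m + 1)
      rw [← h4]
      push_cast
      rw [ZMod.natCast_zmod_val]
    rw [h3, h2, ZMod.val_zero, hc]

theorem isPolygon_seq (hn : 2 < n) (hinj : ∀ i j, i < n → j < n → u i = u j → i = j)
    (hstep : ∀ i < n, ∃ r, u (i + 1) = u i + dir r) (hc : u n = u 0) :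
    IsPolygon (fun i : ZMod n => u i.val) := by
  refine ⟨hn, fun i j h => ZMod.val_injective n (hinj _ _ (ZMod.val_lt i) (ZMod.val_lt j) h),
    fun i => ?_⟩
  show ∃ r, u (i + 1).val = u i.val + dir r
  rw [val_succ hc]
  exact hstep _ (ZMod.val_lt i)

theorem sum_seq {A : Type*} [AddCommMonoid A] (f : ℕ → A) :
    ∑ i : ZMod n, f i.val = ∑ j ∈ range n, f j := by
  obtain ⟨m, rfl⟩ : ∃ m, n = m + 1 := ⟨n - 1, by have := NeZero.pos n; omega⟩
  exact Fin.sum_univ_eq_sum_range f (m + 1)

theorem W_seq (hc : u n = u 0) (F : ℤ × ℤ) :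
    W (fun i : ZMod n => u i.val) F = ∑ j ∈ range n, g F (u j) (u (j + 1)) := by
  rw [← sum_seq]
  unfold W
  refine Finset.sum_congr rfl fun i _ => ?_
  show g F (u i.val) (u (i + 1).val) = _
  rw [val_succ hc]

end seq

theorem g_symm (F a b : ℤ × ℤ) : g F b a = - g F a b := by
  unfold g
  rw [neg_sub]
  congr 1
  · refine if_congr ⟨?_, ?_⟩ rfl rfl
    · rintro ⟨h1, h2, h3, h4⟩
      exact ⟨by omega, h2.symm, h4, h3⟩
    · rintro ⟨h1, h2, h3, h4⟩
      exact ⟨by omega, h2.symm, h4, h3⟩
  · refine if_congr ⟨?_, ?_⟩ rfl rfl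
    · rintro ⟨h1, h2, h3, h4⟩
      exact ⟨by omega, h2.symm, h4, h3⟩
    · rintro ⟨h1, h2, h3, h4⟩
      exact ⟨by omega, h2.symm, h4, h3⟩

/-! ### The winding number and the enclosed faces -/

section wind

variable {n : ℕ} [NeZero n] {p : ZMod n → ℤ × ℤ} {S : Finset (ℤ × ℤ)}

open Classical in
/-- The winding number is the indicator of the set of the enclosed faces. -/
theorem W_eq (hp : IsPolygon p) (hS : Encloses p S) (F : ℤ × ℤ) :
    W p F = if F ∈ S then 1 else 0 := by
  obtain ⟨B, hB⟩ : ∃ B : ℤ, ∀ F : ℤ × ℤ, B ≤ F.1 → W p F = 0 ∧ F ∉ S := by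
    obtain ⟨B, hB⟩ := exists_bound p
    obtain ⟨B', hB'⟩ : ∃ B' : ℤ, ∀ F ∈ S, F.1 < B' := by
      by_cases h : S.Nonempty
      · obtain ⟨G, -, hG⟩ := Finset.exists_max_image S (fun F => F.1) h
        exact ⟨G.1 + 1, fun F hF => by have := hG F hF; omega⟩
      · exact ⟨0, fun F hF => absurd ⟨F, hF⟩ h⟩
    refine ⟨max B B', fun F hF => ⟨W_zero fun i => Or.inl ?_, fun h => ?_⟩⟩
    · have := hB i
      omega
    · have := hB' F h
      omega
  have key : ∀ (d : ℕ) (x y : ℤ), B ≤ x + d → W p (x, y) = if (x, y) ∈ S then 1 else 0 := by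
    intro d
    induction d with
    | zero =>
      intro x y hx
      obtain ⟨h1, h2⟩ := hB (x, y) (by simpa using hx)
      rw [h1, if_neg h2]
    | succ d ih =>
      intro x y hx
      have h1 := W_right hp x y
      have h2 := ih (x + 1) y (by push_cast at hx; omega)
      have hl : face (x + 1, y) 1 = (x, y) := by ext <;> simp [face]
      have hr : face (x + 1, y) (1 - 1) = (x + 1, y) := by ext <;> simp [face]
      have hl' : face (x + 1, y + 1) 3 = (x + 1, y) := by ext <;> simp [face]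
      have hr' : face (x + 1, y + 1) (3 - 1) = (x, y) := by
        show face (x + 1, y + 1) 2 = _
        ext <;> simp [face]
      have e1 := hS (x + 1, y) 1
      have e2 := hS (x + 1, y + 1) 3
      rw [hl, hr, dir1] at e1
      rw [hl', hr', dir3] at e2
      simp only [add_sub_cancel_right] at e2
      by_cases c1 : (x, y) ∈ S
      · by_cases c2 : (x + 1, y) ∈ S
        · rw [M_zero (fun h => (e1.1 h).2 c2) (fun h => (e2.1 h).2 c1)] at h1
          rw [if_pos c2] at h2
          rw [if_pos c1]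
          linarith
        · rw [M_one hp (e1.2 ⟨c1, c2⟩)] at h1
          rw [if_neg c2] at h2
          rw [if_pos c1]
          linarith
      · by_cases c2 : (x + 1, y) ∈ S
        · rw [M_neg hp (e2.2 ⟨c2, c1⟩)] at h1
          rw [if_pos c2] at h2
          rw [if_neg c1]
          linarith
        · rw [M_zero (fun h => c1 (e1.1 h).1) (fun h => c2 (e2.1 h).1)] at h1
          rw [if_neg c2] at h2
          rw [if_neg c1]
          linarith
  exact key (B - F.1).toNat F.1 F.2 (by omega)

/-- The winding number of the reversed polygon. -/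
theorem W_neg (F : ℤ × ℤ) : W (fun i => p (-i)) F = - W p F := by
  unfold W
  rw [← Finset.sum_neg_distrib]
  refine Finset.sum_bij (fun i _ => -(i + 1)) (fun _ _ => Finset.mem_univ _)
    (fun i _ j _ h => add_right_cancel (neg_injective h))
    (fun i _ => ⟨-(i + 1), Finset.mem_univ _, by ring⟩) fun i _ => ?_
  have e1 : -(i + 1) + 1 = -i := by ring
  show g F (p (-i)) (p (-(i + 1))) = - g F (p (-(i + 1))) (p (-(i + 1) + 1))
  rw [e1, g_symm]

omit [NeZero n] in
theorem neg_polygon (hp : IsPolygon p) : IsPolygon (fun i => p (-i)) := by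
  refine ⟨hp.1, fun a b hab => neg_injective (hp.2.1 hab), fun i => ?_⟩
  obtain ⟨r, hr⟩ := hp.2.2 (-(i + 1))
  have e1 : -(i + 1) + 1 = -i := by ring
  rw [e1] at hr
  refine ⟨r + 2, ?_⟩
  show p (-(i + 1)) = p (-i) + dir (r + 2)
  rw [hr, add_assoc, H174.dir_add_two, add_zero]

open Classical in
/-- Jordan theorem with the winding number. -/
theorem exists_W (hp : IsPolygon p) : ∃ S : Finset (ℤ × ℤ),
    (Encloses p S ∧ ∀ F, W p F = if F ∈ S then 1 else 0) ∨
      ∀ F, W p F = if F ∈ S then -1 else 0 := by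
  obtain ⟨S, h | h⟩ := exists_encloses hp
  · exact ⟨S, Or.inl ⟨h, W_eq hp h⟩⟩
  · refine ⟨S, Or.inr fun F => ?_⟩
    have h1 := W_eq (neg_polygon hp) h F
    rw [W_neg] at h1
    split_ifs at h1 ⊢ <;> omega

end wind

/-! ### The cut -/

section cut

variable {N : ℕ} [NeZero N] {p : ZMod N → ℤ × ℤ} {S : Finset (ℤ × ℤ)} {a b M : ℕ} {y : ℕ → ℤ × ℤ}

/-- The path `y 0 = p a, …, y M = p b` is simple, does not meet the polygon otherwise, and its edges
are inside of the polygon. -/
structure CutDat (p : ZMod N → ℤ × ℤ) (S : Finset (ℤ × ℤ)) (a b M : ℕ) (y : ℕ → ℤ × ℤ) : Prop where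
  ha : 0 < a
  hab : a < b
  hb : b < N
  hM : 0 < M
  y0 : y 0 = p (a : ZMod N)
  yM : y M = p (b : ZMod N)
  inj : ∀ i j, i ≤ M → j ≤ M → y i = y j → i = j
  step : ∀ i < M, ∃ r, y (i + 1) = y i + dir r
  off : ∀ i, 0 < i → i < M → ∀ j, y i ≠ p j
  inn : ∀ i < M, ∀ r, y (i + 1) = y i + dir r → face (y i) r ∈ S ∧ face (y i) (r - 1) ∈ S

/-- The vertices of the remaining polygon. -/
def cutL (p : ZMod N → ℤ × ℤ) (a b M : ℕ) (y : ℕ → ℤ × ℤ) (j : ℕ) : ℤ × ℤ :=
  if j ≤ a then p (j : ZMod N) else if j ≤ a + M then y (j - a)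
    else p ((j - (a + M) + b : ℕ) : ZMod N)

/-- The number of the vertices of the remaining polygon. -/
def nL (N a b M : ℕ) : ℕ := a + M + (N - b)

/-- The vertices of the polygon which is cut off. -/
def cutR (p : ZMod N → ℤ × ℤ) (a b M : ℕ) (y : ℕ → ℤ × ℤ) (j : ℕ) : ℤ × ℤ :=
  if j ≤ b - a then p ((a + j : ℕ) : ZMod N) else y (M - (j - (b - a)))

/-- The number of the vertices of the polygon which is cut off. -/
def nR (a b M : ℕ) : ℕ := b - a + M

theorem P_inj (hp : IsPolygon p) {i j : ℕ} (hi : i < N) (hj : j < N)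
    (h : p (i : ZMod N) = p (j : ZMod N)) : i = j := by
  have h1 := congrArg ZMod.val (hp.2.1 h)
  rwa [ZMod.val_cast_of_lt hi, ZMod.val_cast_of_lt hj] at h1

theorem P_step (hp : IsPolygon p) (j : ℕ) :
    ∃ r, p ((j + 1 : ℕ) : ZMod N) = p (j : ZMod N) + dir r := by
  push_cast
  exact hp.2.2 _

namespace CutDat

variable (H : CutDat p S a b M y)
include H

theorem L1 {j : ℕ} (h : j ≤ a) : cutL p a b M y j = p (j : ZMod N) := if_pos h

theorem L2 {j : ℕ} (h : j ≤ M) : cutL p a b M y (a + j) = y j := by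
  unfold cutL
  rcases Nat.eq_zero_or_pos j with rfl | h0
  · rw [if_pos (by omega), H.y0, add_zero]
  · rw [if_neg (by omega), if_pos (by omega)]
    congr 1
    omega

theorem L3 {j : ℕ} : cutL p a b M y (a + M + j) = p ((b + j : ℕ) : ZMod N) := by
  unfold cutL
  have hM := H.hM
  rcases Nat.eq_zero_or_pos j with rfl | h0
  · rw [if_neg (by omega), if_pos (by omega)]
    have e : a + M + 0 - a = M := by omega
    rw [e, H.yM, add_zero]
  · rw [if_neg (by omega), if_neg (by omega)]
    congr 2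
    omega

theorem R1 {j : ℕ} (h : j ≤ b - a) : cutR p a b M y j = p ((a + j : ℕ) : ZMod N) := if_pos h

theorem R2 {j : ℕ} (h : j ≤ M) : cutR p a b M y (b - a + j) = y (M - j) := by
  unfold cutR
  have hab := H.hab
  rcases Nat.eq_zero_or_pos j with rfl | h0
  · rw [if_pos (by omega)]
    have e : a + (b - a + 0) = b := by omega
    rw [e, Nat.sub_zero, H.yM]
  · rw [if_neg (by omega)]
    congr 1
    omega

theorem ne_p (hp : IsPolygon p) {i j : ℕ} (hi0 : 0 < i) (hiM : i ≤ M) (hj : j < N)
    (h : y i = p (j : ZMod N)) : i = M ∧ j = b := by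
  rcases Nat.lt_or_ge i M with h1 | h1
  · exact absurd h (H.off i hi0 h1 _)
  · have h2 : i = M := by omega
    refine ⟨h2, ?_⟩
    rw [h2, H.yM] at h
    exact (P_inj hp H.hb hj h).symm

theorem closeL : cutL p a b M y (nL N a b M) = cutL p a b M y 0 := by
  rw [H.L1 (Nat.zero_le a), nL, H.L3]
  have hb := H.hb
  have e : b + (N - b) = N := by omega
  rw [e, Nat.cast_zero, ZMod.natCast_self]

theorem closeR : cutR p a b M y (nR a b M) = cutR p a b M y 0 := by
  rw [H.R1 (Nat.zero_le _), nR, H.R2 le_rfl, Nat.sub_self, H.y0, add_zero]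

theorem injL (hp : IsPolygon p) : ∀ i j, i < nL N a b M → j < nL N a b M →
    cutL p a b M y i = cutL p a b M y j → i = j := by
  have ha := H.ha
  have hab := H.hab
  have hb := H.hb
  have hM := H.hM
  -- it is enough to consider `i < j`
  have key : ∀ i j, i < j → j < nL N a b M → cutL p a b M y i ≠ cutL p a b M y j := by
    intro i j hij hj h
    unfold nL at hj
    rcases Nat.lt_or_ge a j with h1 | h1
    · rcases Nat.lt_or_ge (a + M) j with h2 | h2
      · -- `j` in the third part
        obtain ⟨k, rfl⟩ : ∃ k, j = a + M + k := ⟨j - (a + M), by omega⟩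
        rw [H.L3] at h
        rcases Nat.lt_or_ge a i with h3 | h3
        · rcases Nat.lt_or_ge (a + M) i with h4 | h4
          · obtain ⟨l, rfl⟩ : ∃ l, i = a + M + l := ⟨i - (a + M), by omega⟩
            rw [H.L3] at h
            have := P_inj hp (by omega) (by omega) h
            omega
          · obtain ⟨l, rfl⟩ : ∃ l, i = a + l := ⟨i - a, by omega⟩
            rw [H.L2 (by omega)] at h
            have := H.ne_p hp (by omega) (by omega) (by omega) h
            omega
        · rw [H.L1 h3] at h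
          have := P_inj hp (by omega) (by omega) h
          omega
      · -- `j` in the second part
        obtain ⟨k, rfl⟩ : ∃ k, j = a + k := ⟨j - a, by omega⟩
        rw [H.L2 (by omega)] at h
        rcases Nat.lt_or_ge a i with h3 | h3
        · obtain ⟨l, rfl⟩ : ∃ l, i = a + l := ⟨i - a, by omega⟩
          rw [H.L2 (by omega)] at h
          have := H.inj l k (by omega) (by omega) h
          omega
        · rw [H.L1 h3] at h
          have := H.ne_p hp (by omega) (by omega) (by omega) h.symm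
          omega
    · rw [H.L1 h1, H.L1 (by omega)] at h
      have := P_inj hp (by omega) (by omega) h
      omega
  intro i j hi hj h
  rcases Nat.lt_trichotomy i j with h1 | h1 | h1
  · exact absurd h (key i j h1 hj)
  · exact h1
  · exact absurd h.symm (key j i h1 hi)

theorem stepL (hp : IsPolygon p) : ∀ i < nL N a b M,
    ∃ r, cutL p a b M y (i + 1) = cutL p a b M y i + dir r := by
  intro i hi
  unfold nL at hi
  rcases Nat.lt_or_ge i a with h1 | h1
  · rw [H.L1 h1.le, H.L1 (by omega)]
    exact P_step hp i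
  · rcases Nat.lt_or_ge i (a + M) with h2 | h2
    · obtain ⟨k, rfl⟩ : ∃ k, i = a + k := ⟨i - a, by omega⟩
      rw [add_assoc, H.L2 (by omega), H.L2 (by omega)]
      exact H.step k (by omega)
    · obtain ⟨k, rfl⟩ : ∃ k, i = a + M + k := ⟨i - (a + M), by omega⟩
      rw [add_assoc (a + M), H.L3, H.L3, ← add_assoc]
      exact P_step hp _

theorem polyL (hp : IsPolygon p) [NeZero (nL N a b M)] :
    IsPolygon (fun i : ZMod (nL N a b M) => cutL p a b M y i.val) := by
  refine isPolygon_seq ?_ (H.injL hp) (H.stepL hp) H.closeL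
  have ha := H.ha
  have hb := H.hb
  have hM := H.hM
  unfold nL
  omega

theorem injR (hp : IsPolygon p) : ∀ i j, i < nR a b M → j < nR a b M →
    cutR p a b M y i = cutR p a b M y j → i = j := by
  have ha := H.ha
  have hab := H.hab
  have hb := H.hb
  have hM := H.hM
  have key : ∀ i j, i < j → j < nR a b M → cutR p a b M y i ≠ cutR p a b M y j := by
    intro i j hij hj h
    unfold nR at hj
    rcases Nat.lt_or_ge (b - a) j with h1 | h1
    · obtain ⟨k, rfl⟩ : ∃ k, j = b - a + k := ⟨j - (b - a), by omega⟩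
      rw [H.R2 (by omega)] at h
      rcases Nat.lt_or_ge (b - a) i with h3 | h3
      · obtain ⟨l, rfl⟩ : ∃ l, i = b - a + l := ⟨i - (b - a), by omega⟩
        rw [H.R2 (by omega)] at h
        have := H.inj _ _ (by omega) (by omega) h
        omega
      · rw [H.R1 h3] at h
        have := H.ne_p hp (by omega) (by omega) (by omega) h.symm
        omega
    · rw [H.R1 h1, H.R1 (by omega)] at h
      have := P_inj hp (by omega) (by omega) h
      omega
  intro i j hi hj h
  rcases Nat.lt_trichotomy i j with h1 | h1 | h1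
  · exact absurd h (key i j h1 hj)
  · exact h1
  · exact absurd h.symm (key j i h1 hi)

theorem stepR (hp : IsPolygon p) : ∀ i < nR a b M,
    ∃ r, cutR p a b M y (i + 1) = cutR p a b M y i + dir r := by
  intro i hi
  unfold nR at hi
  rcases Nat.lt_or_ge i (b - a) with h1 | h1
  · rw [H.R1 h1.le, H.R1 (by omega), ← add_assoc]
    exact P_step hp _
  · obtain ⟨k, rfl⟩ : ∃ k, i = b - a + k := ⟨i - (b - a), by omega⟩
    rw [add_assoc, H.R2 (by omega), H.R2 (by omega)]
    obtain ⟨r, hr⟩ := H.step (M - (k + 1)) (by omega)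
    have e : M - (k + 1) + 1 = M - k := by omega
    rw [e] at hr
    refine ⟨r + 2, ?_⟩
    rw [hr, add_assoc, H174.dir_add_two, add_zero]

/-- The cut-off polygon is not degenerate. -/
theorem three (hS : Encloses p S) : 2 < nR a b M := by
  have hab := H.hab
  have hM := H.hM
  unfold nR
  by_contra hcon
  have h1 : b = a + 1 := by omega
  have h2 : M = 1 := by omega
  obtain ⟨r, hr⟩ := H.step 0 (by omega)
  have h3 := H.inn 0 (by omega) r hr
  rw [zero_add, ← h2, H.yM, h1, H.y0] at hr
  have h4 := (hS (p (a : ZMod N)) r).1 ⟨(a : ZMod N), rfl, by push_cast at hr; exact hr⟩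
  rw [H.y0] at h3
  exact h4.2 h3.2

theorem polyR (hp : IsPolygon p) (hS : Encloses p S) [NeZero (nR a b M)] :
    IsPolygon (fun i : ZMod (nR a b M) => cutR p a b M y i.val) :=
  isPolygon_seq (H.three hS) (H.injR hp) (H.stepR hp) H.closeR

omit H in
theorem W_p (F : ℤ × ℤ) :
    W p F = ∑ j ∈ range N, g F (p (j : ZMod N)) (p ((j + 1 : ℕ) : ZMod N)) := by
  rw [← sum_seq]
  unfold W
  refine Finset.sum_congr rfl fun i _ => ?_
  push_cast
  rw [ZMod.natCast_zmod_val]

/-- **The winding numbers add up.** -/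
theorem W_add [NeZero (nL N a b M)] [NeZero (nR a b M)] (F : ℤ × ℤ) :
    W (fun i : ZMod (nL N a b M) => cutL p a b M y i.val) F +
      W (fun i : ZMod (nR a b M) => cutR p a b M y i.val) F = W p F := by
  have hab := H.hab
  have hb := H.hb
  rw [W_seq H.closeL, W_seq H.closeR, W_p]
  unfold nL nR
  rw [Finset.sum_range_add, Finset.sum_range_add, Finset.sum_range_add]
  have e1 : ∑ j ∈ range a, g F (cutL p a b M y j) (cutL p a b M y (j + 1)) =
      ∑ j ∈ range a, g F (p (j : ZMod N)) (p ((j + 1 : ℕ) : ZMod N)) := by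
    refine Finset.sum_congr rfl fun j hj => ?_
    rw [Finset.mem_range] at hj
    rw [H.L1 hj.le, H.L1 (by omega)]
  have e2 : ∑ j ∈ range M, g F (cutL p a b M y (a + j)) (cutL p a b M y (a + j + 1)) =
      ∑ j ∈ range M, g F (y j) (y (j + 1)) := by
    refine Finset.sum_congr rfl fun j hj => ?_
    rw [Finset.mem_range] at hj
    rw [add_assoc, H.L2 hj.le, H.L2 (by omega)]
  have e3 : ∑ j ∈ range (N - b), g F (cutL p a b M y (a + M + j))
      (cutL p a b M y (a + M + j + 1)) =
      ∑ j ∈ range (N - b), g F (p ((b + j : ℕ) : ZMod N)) (p ((b + j + 1 : ℕ) : ZMod N)) := by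
    refine Finset.sum_congr rfl fun j _ => ?_
    rw [add_assoc (a + M), H.L3, H.L3, add_assoc b]
  have e4 : ∑ j ∈ range (b - a), g F (cutR p a b M y j) (cutR p a b M y (j + 1)) =
      ∑ j ∈ range (b - a), g F (p ((a + j : ℕ) : ZMod N)) (p ((a + j + 1 : ℕ) : ZMod N)) := by
    refine Finset.sum_congr rfl fun j hj => ?_
    rw [Finset.mem_range] at hj
    rw [H.R1 hj.le, H.R1 (by omega), add_assoc]
  have e5 : ∑ j ∈ range M, g F (cutR p a b M y (b - a + j)) (cutR p a b M y (b - a + j + 1)) =
      - ∑ j ∈ range M, g F (y j) (y (j + 1)) := by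
    rw [← Finset.sum_range_reflect, ← Finset.sum_neg_distrib]
    refine Finset.sum_congr rfl fun j hj => ?_
    rw [Finset.mem_range] at hj
    rw [add_assoc, H.R2 (by omega), H.R2 (by omega)]
    have k1 : M - (M - 1 - j) = j + 1 := by omega
    have k2 : M - (M - 1 - j + 1) = j := by omega
    rw [k1, k2, g_symm]
  have e6 : ∑ j ∈ range N, g F (p (j : ZMod N)) (p ((j + 1 : ℕ) : ZMod N)) =
      ∑ j ∈ range a, g F (p (j : ZMod N)) (p ((j + 1 : ℕ) : ZMod N)) +
      ∑ j ∈ range (b - a), g F (p ((a + j : ℕ) : ZMod N)) (p ((a + j + 1 : ℕ) : ZMod N)) +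
      ∑ j ∈ range (N - b), g F (p ((b + j : ℕ) : ZMod N)) (p ((b + j + 1 : ℕ) : ZMod N)) := by
    have h1 : N = a + (b - a) + (N - b) := by omega
    have h2 : a + (b - a) = b := by omega
    have h3 : range N = range (a + (b - a) + (N - b)) := congrArg range h1
    rw [h3, Finset.sum_range_add, Finset.sum_range_add, h2]
  rw [e1, e2, e3, e4, e5, e6]
  ring

/-- The winding numbers of the two polygons jump at the edges of the path. -/
theorem jumps (hp : IsPolygon p) (hS : Encloses p S) [NeZero (nL N a b M)]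
    [NeZero (nR a b M)] : ∃ f ∈ S, ∃ f' ∈ S,
      W (fun i : ZMod (nL N a b M) => cutL p a b M y i.val) f ≠
        W (fun i : ZMod (nL N a b M) => cutL p a b M y i.val) f' ∧
      W (fun i : ZMod (nR a b M) => cutR p a b M y i.val) f ≠
        W (fun i : ZMod (nR a b M) => cutR p a b M y i.val) f' := by
  have ha := H.ha
  have hab := H.hab
  have hb := H.hb
  have hM := H.hM
  obtain ⟨r, hr⟩ := H.step 0 hM
  obtain ⟨h1, h2⟩ := H.inn 0 hM r hr
  refine ⟨_, h1, _, h2, ?_, ?_⟩
  · have h3 := jump (H.polyL hp) (y 0) r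
    rw [M_one (H.polyL hp)] at h3
    · intro h
      rw [h] at h3
      omega
    · refine ⟨((a : ℕ) : ZMod (nL N a b M)), ?_, ?_⟩
      · show cutL p a b M y (ZMod.val _) = _
        rw [ZMod.val_cast_of_lt (by unfold nL; omega)]
        exact H.L2 (j := 0) (Nat.zero_le _)
      · show cutL p a b M y (ZMod.val _) = _
        rw [val_succ H.closeL, ZMod.val_cast_of_lt (by unfold nL; omega), H.L2 (by omega)]
        rw [zero_add] at hr
        exact hr
  · have h3 := jump (H.polyR hp hS) (y 0) r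
    rw [M_neg (H.polyR hp hS)] at h3
    · intro h
      rw [h] at h3
      omega
    · refine ⟨((b - a + (M - 1) : ℕ) : ZMod (nR a b M)), ?_, ?_⟩
      · show cutR p a b M y (ZMod.val _) = _
        rw [ZMod.val_cast_of_lt (by unfold nR; omega), H.R2 (by omega)]
        have e : M - (M - 1) = 0 + 1 := by omega
        rw [e]
        exact hr
      · show cutR p a b M y (ZMod.val _) = _
        rw [val_succ H.closeR, ZMod.val_cast_of_lt (by unfold nR; omega), add_assoc,
          H.R2 (by omega)]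
        congr 1
        omega

/-- The faces in the cut-off polygon are in each box which contains its vertices. -/
theorem box_R (hp : IsPolygon p) (hS : Encloses p S) [NeZero (nR a b M)]
    {S'' : Finset (ℤ × ℤ)}
    (h2 : Encloses (fun i : ZMod (nR a b M) => cutR p a b M y i.val) S'') {x0 x1 y0 y1 : ℤ}
    (hy : ∀ i ≤ M, x0 ≤ (y i).1 ∧ (y i).1 ≤ x1 ∧ y0 ≤ (y i).2 ∧ (y i).2 ≤ y1)
    (hpb : ∀ j, a ≤ j → j ≤ b → x0 ≤ (p (j : ZMod N)).1 ∧ (p (j : ZMod N)).1 ≤ x1 ∧
      y0 ≤ (p (j : ZMod N)).2 ∧ (p (j : ZMod N)).2 ≤ y1) {F : ℤ × ℤ} (hF : F ∈ S'') :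
    x0 ≤ F.1 ∧ F.1 < x1 ∧ y0 ≤ F.2 ∧ F.2 < y1 := by
  classical
  have h3 := W_eq (H.polyR hp hS) h2 F
  rw [if_pos hF] at h3
  have hall : ∀ i : ZMod (nR a b M), x0 ≤ (cutR p a b M y i.val).1 ∧
      (cutR p a b M y i.val).1 ≤ x1 ∧ y0 ≤ (cutR p a b M y i.val).2 ∧
      (cutR p a b M y i.val).2 ≤ y1 := by
    intro i
    have hi : i.val < b - a + M := ZMod.val_lt i
    have hM := H.hM
    have hab := H.hab
    rcases Nat.lt_or_ge (b - a) i.val with h | h
    · obtain ⟨k, hk⟩ : ∃ k, i.val = b - a + k := ⟨i.val - (b - a), by omega⟩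
      rw [hk, H.R2 (by omega)]
      exact hy _ (by omega)
    · rw [H.R1 h]
      exact hpb _ (by omega) (by omega)
  by_contra hcon
  have h4 : W (fun i : ZMod (nR a b M) => cutR p a b M y i.val) F = 0 := by
    by_cases k : F.1 < x0
    · refine W_left (H.polyR hp hS) fun i => ?_
      have := hall i
      show F.1 < (cutR p a b M y i.val).1
      omega
    · refine W_zero fun i => ?_
      have k1 := hall i
      have k2 := hall (i + 1)
      show (cutR p a b M y i.val).1 ≤ F.1 ∨ (cutR p a b M y i.val).2 ≤ F.2 ∧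
        (cutR p a b M y (i + 1).val).2 ≤ F.2 ∨ F.2 < (cutR p a b M y i.val).2 ∧
        F.2 < (cutR p a b M y (i + 1).val).2
      omega
  rw [h4] at h3
  omega

open Classical in
/-- **The path cuts the enclosed faces.** -/
theorem cut_polygon (hp : IsPolygon p) (hS : Encloses p S) [NeZero (nL N a b M)]
    [NeZero (nR a b M)] : ∃ S' S'' : Finset (ℤ × ℤ),
      Encloses (fun i : ZMod (nL N a b M) => cutL p a b M y i.val) S' ∧
      Encloses (fun i : ZMod (nR a b M) => cutR p a b M y i.val) S'' ∧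
      Disjoint S' S'' ∧ S = S' ∪ S'' := by
  obtain ⟨f, hf, f', hf', j1, j2⟩ := H.jumps hp hS
  have hW := H.W_add (S := S)
  have hWp := W_eq hp hS
  obtain ⟨S', h1⟩ := exists_W (H.polyL hp)
  obtain ⟨S'', h2⟩ := exists_W (H.polyR hp hS)
  have a1 := hW f
  have a2 := hW f'
  rw [hWp, if_pos hf] at a1
  rw [hWp, if_pos hf'] at a2
  rcases h1 with ⟨h1, h1'⟩ | h1'
  · rcases h2 with ⟨h2, h2'⟩ | h2'
    · refine ⟨S', S'', h1, h2, ?_, ?_⟩
      · rw [Finset.disjoint_left]
        intro F k1 k2
        have a3 := hW F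
        rw [hWp, h1', h2', if_pos k1, if_pos k2] at a3
        split_ifs at a3 <;> omega
      · ext F
        have a3 := hW F
        rw [hWp, h1', h2'] at a3
        rw [Finset.mem_union]
        by_cases k1 : F ∈ S' <;> by_cases k2 : F ∈ S'' <;> by_cases k3 : F ∈ S <;>
          simp [k1, k2, k3] at a3 ⊢
    · exfalso
      rw [h1', h1'] at j1
      rw [h1', h2'] at a1 a2
      split_ifs at j1 a1 a2 <;> simp_all
  · exfalso
    rcases h2 with ⟨h2, h2'⟩ | h2'
    · rw [h2', h2'] at j2
      rw [h1', h2'] at a1 a2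
      split_ifs at j2 a1 a2 <;> simp_all
    · rw [h1', h2'] at a1
      split_ifs at a1 <;> simp_all

end CutDat

end cut

end Vale.Agent.P167.N.ST2
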