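import Vale.Agent.P167.N.QC.Nh
import Vale.Agent.P167.N.ST2.LawX

/-!
# P167, block ST2: the exterior of a lattice polygon is connected through odd corners

`ext_far`: each exterior face is joined, across edges which are not edges of the domain, to faces which
are arbitrarily far to the right. `ext_oc`: the chain of squares.
-/

set_option autoImplicit false
set_option linter.unusedSectionVars false

namespace Vale.Agent.P167.N.ST2

open Finset Relation
open Vale.Agent.P167.FK Vale.Agent.P167.FKA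
open Vale.Agent.P167.E6
open Vale.Agent.P167.H192 (sq ed rf cfg cfg_true isEdge_ed sq_ed ed_sq)
open Vale.Agent.P167.H192.TA (Pw)
open Vale.Agent.P145.FB (PStep)
open Vale.Agent.P167.N.QC (Oa Oc lv)

/-- The squares of the edges which are not in the domain. -/
def Xt (S : Finset (ℤ × ℤ)) : Set (ℤ × ℤ) := {u | ed u ∉ edges S}

theorem pw_symm {F : Set (ℤ × ℤ)} {s t : ℤ × ℤ} (h : Pw F s t) : Pw F t s := FKA.rtg_symm h

section ext

variable {n : ℕ} [NeZero n] {p : ZMod n → ℤ × ℤ} {S : Finset (ℤ × ℤ)}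

omit [NeZero n] in
theorem xt_step {v : ℤ × ℤ} {r : Fin 4} (h1 : face v r ∉ S) (h2 : face v (r + 1) ∉ S) :
    Pw (Xt S) (rf (face v r)) (rf (face v (r + 1))) := by
  refine ReflTransGen.single ?_
  have h := (H192.fStep_iff (O := (edges S : Set (Sym2 (ℤ × ℤ))))).2
    ⟨v, r, rfl, rfl, fun h => by
      rcases (E2.mem_edges (r + 1)).1 h with h3 | h3
      · exact h2 h3
      · rw [E2.fin4_2] at h3
        exact h1 h3⟩
  refine ⟨h.1, h.2.1, fun h3 => h.2.2 ?_⟩
  rw [H192.mem_op_cfg]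
  exact h3

/-- The exterior faces around a vertex are joined. -/
theorem xt_around (hp : IsPolygon p) (hS : Encloses p S) {v : ℤ × ℤ} {s t : Fin 4}
    (hs : face v s ∉ S) (ht : face v t ∉ S) : Pw (Xt S) (rf (face v s)) (rf (face v t)) := by
  have hst : t = s ∨ t = s + 1 ∨ t = s + 1 + 1 ∨ s = t + 1 := by
    clear hs ht
    revert s t
    decide
  rcases hst with rfl | rfl | rfl | rfl
  · exact ReflTransGen.refl
  · exact xt_step hs ht
  · by_cases h1 : face v (s + 1) ∈ S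
    · have e1 : ∀ t : Fin 4, t + 1 + 1 + 1 + 1 = t := by decide
      by_cases h2 : face v (s + 1 + 1 + 1) ∈ S
      · exfalso
        have e2 : ∀ t : Fin 4, t + 1 - 1 = t := by decide
        obtain ⟨i, i1, i2⟩ := (hS v (s + 1)).2 ⟨h1, by rw [e2]; exact hs⟩
        obtain ⟨j, j1, j2⟩ := (hS v (s + 1 + 1 + 1)).2 ⟨h2, by rw [e2]; exact ht⟩
        have h3 : i = j := hp.2.1 (i1.trans j1.symm)
        subst h3
        have h4 := E2.add_dir_inj (i2.symm.trans j2)
        revert h4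
        clear * -
        revert s
        decide
      · have h3 := xt_step ht h2
        have h4 := xt_step (S := S) (v := v) (r := s + 1 + 1 + 1) h2 (by rw [e1]; exact hs)
        rw [e1] at h4
        exact pw_symm (h3.trans h4)
    · exact (xt_step hs h1).trans (xt_step h1 ht)
  · exact pw_symm (xt_step ht hs)

/-- The outer face of an edge of the polygon. -/
noncomputable def Of (p : ZMod n → ℤ × ℤ) (i : ZMod n) : ℤ × ℤ := face (p i) (E2.ro p i - 1)

theorem of_notMem (hp : IsPolygon p) (hS : Encloses p S) (i : ZMod n) : Of p i ∉ S :=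
  (E2.enc_out hp hS).2

theorem of_conn (hp : IsPolygon p) (hS : Encloses p S) (i j : ZMod n) :
    Pw (Xt S) (rf (Of p i)) (rf (Of p j)) := by
  have key : ∀ l : ℕ, Pw (Xt S) (rf (Of p i)) (rf (Of p (i + l))) := by
    intro l
    induction l with
    | zero =>
      rw [Nat.cast_zero, add_zero]
    | succ l ih =>
      refine ih.trans ?_
      have h1 := of_notMem hp hS (i + l)
      have h2 := of_notMem hp hS (i + l + 1)
      have e1 : Of p (i + l) = face (p (i + l + 1)) (E2.ro p (i + l) + 2) := by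
        rw [E2.ro_spec hp (i + l), E2.face_right]
        rfl
      rw [e1] at h1 ⊢
      push_cast
      rw [← add_assoc]
      exact xt_around hp hS h1 h2
  have h := key (j - i).val
  rw [ZMod.natCast_zmod_val, add_sub_cancel] at h
  exact h

omit [NeZero n] in
theorem face_east (F : ℤ × ℤ) : face (F + (1, 0)) 1 = F ∧ face (F + (1, 0)) 0 = F + (1, 0) := by
  constructor
  · show F + (1, 0) + (-1, 0) = F
    ext <;> simp
  · show F + (1, 0) + (0, 0) = F + (1, 0)
    ext <;> simp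

omit [NeZero n] in
/-- Steps to the right in the exterior. -/
theorem xt_east {F : ℤ × ℤ} (h1 : F ∉ S) (h2 : F + (1, 0) ∉ S) :
    Pw (Xt S) (rf F) (rf (F + (1, 0))) := by
  obtain ⟨e1, e2⟩ := face_east F
  have h := xt_step (S := S) (v := F + (1, 0)) (r := 0) (by rw [e2]; exact h2)
    (by rw [zero_add, e1]; exact h1)
  rw [zero_add, e1, e2] at h
  exact pw_symm h

omit [NeZero n] in
theorem xt_east_n {F : ℤ × ℤ} {m : ℕ} (h : ∀ j ≤ m, F + ((j : ℤ), 0) ∉ S) :
    Pw (Xt S) (rf F) (rf (F + ((m : ℤ), 0))) := by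
  induction m with
  | zero =>
    have : F + (((0 : ℕ) : ℤ), 0) = F := by ext <;> simp
    rw [this]
  | succ m ih =>
    refine (ih fun j hj => h j (by omega)).trans ?_
    have e : F + (((m + 1 : ℕ) : ℤ), 0) = F + ((m : ℤ), 0) + (1, 0) := by
      ext
      · simp; ring
      · simp
    rw [e]
    refine xt_east (h m (by omega)) ?_
    rw [← e]
    exact h _ le_rfl

/-- The exterior face to the left of a face of the domain. -/
theorem left_of (hp : IsPolygon p) (hS : Encloses p S) {F : ℤ × ℤ} (h1 : F ∉ S)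
    (h2 : F + (1, 0) ∈ S) : ∃ i, Of p i = F := by
  -- the edge is directed to the south
  have e1 : face (F + (1, 1)) 3 = F + (1, 0) := by
    show F + (1, 1) + (0, -1) = _
    ext <;> simp
  have e2 : face (F + (1, 1)) 2 = F := by
    show F + (1, 1) + (-1, -1) = _
    ext <;> simp
  obtain ⟨i, i1, i2⟩ := (hS (F + (1, 1)) 3).2 ⟨by rw [e1]; exact h2, by
    show face (F + (1, 1)) 2 ∉ S
    rw [e2]
    exact h1⟩
  refine ⟨i, ?_⟩
  have h3 : (3 : Fin 4) = E2.ro p i := E2.ro_unique hp (by rw [i1]; exact i2)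
  unfold Of
  rw [← h3, i1]
  exact e2

/-- The exterior face to the right of a face of the domain. -/
theorem right_of (hp : IsPolygon p) (hS : Encloses p S) {F : ℤ × ℤ} (h1 : F ∈ S)
    (h2 : F + (1, 0) ∉ S) : ∃ i, Of p i = F + (1, 0) := by
  obtain ⟨e1, e2⟩ := face_east F
  obtain ⟨i, i1, i2⟩ := (hS (F + (1, 0)) 1).2 ⟨by rw [e1]; exact h1, by
    show face (F + (1, 0)) 0 ∉ S
    rw [e2]
    exact h2⟩
  refine ⟨i, ?_⟩
  have h3 : (1 : Fin 4) = E2.ro p i := E2.ro_unique hp (by rw [i1]; exact i2)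
  unfold Of
  rw [← h3, i1]
  exact e2

/-- The two faces of an edge. -/
theorem cor_face (v : ℤ × ℤ) (r : Fin 4) : Cor (sq s(v, v + dir r)) (rf (face v r)) ∧
    Cor (sq s(v, v + dir r)) (rf (face v (r - 1))) := by
  obtain ⟨t, rfl⟩ : ∃ t : Fin 4, r = t + 1 := ⟨r - 1, (E2.fin4_1 r).symm⟩
  rw [E2.fin4_2]
  have h := (H192.fStep_iff (O := {e | e ≠ s(v, v + dir (t + 1))})).2
    ⟨v, t, rfl, rfl, fun h => h rfl⟩
  have h2 := h.2.2
  rw [Set.mem_compl_iff, H192.mem_op_cfg] at h2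
  have h3 : ed (min (rf (face v t)).1 (rf (face v (t + 1))).1,
      min (rf (face v t)).2 (rf (face v (t + 1))).2) = s(v, v + dir (t + 1)) := by
    by_contra h4
    exact h2 h4
  have h4 := cor_of_step h
  have h5 : (min (rf (face v t)).1 (rf (face v (t + 1))).1,
      min (rf (face v t)).2 (rf (face v (t + 1))).2) = sq s(v, v + dir (t + 1)) := by
    rw [← h3, sq_ed]
  rw [h5] at h4
  exact ⟨h4.2, h4.1⟩

/-- **Each exterior face is joined to a far face.** -/
theorem ext_far (hp : IsPolygon p) (hS : Encloses p S) {F : ℤ × ℤ} (hF : F ∉ S) (L : ℤ) :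
    ∃ G : ℤ × ℤ, L ≤ G.1 ∧ G ∉ S ∧ G + (1, 0) ∉ S ∧ Pw (Xt S) (rf F) (rf G) := by
  obtain ⟨B, hB⟩ : ∃ B : ℤ, ∀ G ∈ S, G.1 < B := by
    by_cases h : S.Nonempty
    · obtain ⟨G, -, hG⟩ := Finset.exists_max_image S (fun F => F.1) h
      exact ⟨G.1 + 1, fun F hF => by have := hG F hF; omega⟩
    · exact ⟨0, fun F hF => absurd ⟨F, hF⟩ h⟩
  have hB' : ∀ G : ℤ × ℤ, B ≤ G.1 → G ∉ S := fun G h1 h2 => by
    have := hB G h2
    omega
  -- straight to the right
  have straight : ∀ F : ℤ × ℤ, (∀ j : ℕ, F + ((j : ℤ), 0) ∉ S) →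
      ∃ G : ℤ × ℤ, L ≤ G.1 ∧ G ∉ S ∧ G + (1, 0) ∉ S ∧ Pw (Xt S) (rf F) (rf G) := by
    intro F h
    have e : ∀ m : ℕ, F + ((m : ℤ), 0) + (1, 0) = F + (((m + 1 : ℕ) : ℤ), 0) := by
      intro m
      ext
      · simp; ring
      · simp
    refine ⟨F + (((L - F.1).toNat : ℤ), 0), ?_, h _, ?_, xt_east_n fun j _ => h j⟩
    · show L ≤ F.1 + _
      omega
    · rw [e]
      exact h _
  -- the outer faces are joined to far faces
  have houter : ∀ i, ∃ G : ℤ × ℤ, L ≤ G.1 ∧ G ∉ S ∧ G + (1, 0) ∉ S ∧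
      Pw (Xt S) (rf (Of p i)) (rf G) := by
    intro i
    obtain ⟨G, hG, hmax⟩ := Finset.exists_max_image S (fun F => F.1)
      ⟨_, (E2.enc_out hp hS (i := i)).1⟩
    have h1 : ∀ j : ℕ, G + (1, 0) + ((j : ℤ), 0) ∉ S := fun j h2 => by
      have h3 := hmax _ h2
      have h4 : (G + (1, 0) + ((j : ℤ), 0)).1 = G.1 + 1 + j := rfl
      rw [h4] at h3
      omega
    have h2 : G + (1, 0) ∉ S := by
      have := h1 0
      have e : G + (1, 0) + (((0 : ℕ) : ℤ), 0) = G + (1, 0) := by ext <;> simp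
      rwa [e] at this
    obtain ⟨j, hj⟩ := right_of hp hS hG h2
    obtain ⟨G', k1, k2, k3, k4⟩ := straight (G + (1, 0)) h1
    rw [← hj] at k4
    exact ⟨G', k1, k2, k3, (of_conn hp hS i j).trans k4⟩
  by_cases h : ∀ j : ℕ, F + ((j : ℤ), 0) ∉ S
  · exact straight F h
  · push Not at h
    classical
    obtain ⟨m, hm, hmin⟩ : ∃ m : ℕ, F + ((m : ℤ), 0) ∈ S ∧ ∀ j < m, F + ((j : ℤ), 0) ∉ S :=
      ⟨Nat.find h, Nat.find_spec h, fun j hj => Nat.find_min h hj⟩
    obtain ⟨l, rfl⟩ : ∃ l, m = l + 1 := by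
      rcases m with _ | l
      · have e : F + (((0 : ℕ) : ℤ), 0) = F := by ext <;> simp
        rw [e] at hm
        exact absurd hm hF
      · exact ⟨l, rfl⟩
    have e : F + (((l + 1 : ℕ) : ℤ), 0) = F + ((l : ℤ), 0) + (1, 0) := by
      ext
      · simp; ring
      · simp
    rw [e] at hm
    obtain ⟨i, hi⟩ := left_of hp hS (hmin l (by omega)) hm
    obtain ⟨G, k1, k2, k3, k4⟩ := houter i
    rw [hi] at k4
    exact ⟨G, k1, k2, k3, (xt_east_n fun j hj => hmin j (by omega)).trans k4⟩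

/-- From a path of odd sites to a chain of squares. -/
theorem pw_oc {F F' : Set (ℤ × ℤ)} (hF : F ⊆ F') {s t : ℤ × ℤ} (hs : (s.1 + s.2) % 2 = 1)
    (h : Pw F s t) {v w : ℤ × ℤ} (hv : v ∈ F') (hw : w ∈ F') (cv : Cor v s) (cw : Cor w t) :
    Oc F' v w := by
  induction h generalizing w with
  | refl => exact Oc.one hv hw ⟨s, hs, cv, cw⟩
  | @tail t t' h1 h2 ih =>
    obtain ⟨c1, c2⟩ := cor_of_step h2
    have ht : (t'.1 + t'.2) % 2 = 1 := by
      have := Pw.parity (h1.tail h2)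
      omega
    exact (ih (hF h2.2.2) c1).trans (Oc.one (hF h2.2.2) hw ⟨t', ht, c2, cw⟩)

theorem odd_rf' (f : ℤ × ℤ) : ((rf f).1 + (rf f).2) % 2 = 1 := by
  simp only [rf]
  omega

/-- **A square at an exterior face is joined to far squares by squares off the domain.** -/
theorem ext_oc (hp : IsPolygon p) (hS : Encloses p S) {F : ℤ × ℤ} (hF : F ∉ S) {v : ℤ × ℤ}
    (hv : Cor v (rf F)) (x : ℤ × ℤ) (R : ℤ) :
    ∃ w, R < lv x w ∧ Oc (insert v (Xt S)) v w := by
  obtain ⟨G, h1, h2, h3, h4⟩ := ext_far hp hS hF (|R| + |x.1| + |x.2| + 2)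
  obtain ⟨e1, e2⟩ := face_east G
  obtain ⟨c1, -⟩ := cor_face (G + (1, 0)) 1
  rw [e1] at c1
  have h5 : sq s(G + (1, 0), G + (1, 0) + dir 1) ∈ Xt S := by
    show ed _ ∉ edges S
    rw [ed_sq ⟨_, _, rfl⟩, E2.mem_edges, e1]
    rintro (h | h)
    · exact h2 h
    · refine h3 ?_
      rw [← e2]
      exact h
  refine ⟨_, ?_, pw_oc (Set.subset_insert v (Xt S)) (odd_rf' F) h4 (Set.mem_insert v _)
    (Set.mem_insert_of_mem v h5) hv c1⟩
  rw [QC.lt_lv]
  generalize H192.sq s(G + (1, 0), G + (1, 0) + dir 1) = u at c1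
  simp only [Cor, rf] at c1
  simp only [lt_abs]
  have k1 := le_abs_self R
  have k2 := le_abs_self x.1
  have k3 := le_abs_self x.2
  have k4 := neg_le_abs x.1
  have k5 := neg_le_abs x.2
  have k6 := abs_nonneg R
  omega

/-- A square off the free squares of a marked polygon has an exterior corner. -/
theorem off_cor (hp : IsPolygon p) (hS : Encloses p S) {k : ℕ} {v : ℤ × ℤ}
    (hv : v ∉ H718.Dq S p k) : ∃ F, F ∉ S ∧ Cor v (rf F) := by
  rw [H718.mem_Dq'] at hv
  by_cases h : ed v ∈ edges S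
  · have h1 : ed v ∈ H718.wE p k := by
      by_contra h1
      exact hv ⟨h, h1⟩
    obtain ⟨i, -, -, h2⟩ := H718.mem_wE.1 h1
    refine ⟨Of p i, of_notMem hp hS i, ?_⟩
    have h3 : v = sq s(p i, p i + dir (E2.ro p i)) := by
      rw [← E2.ro_spec hp, ← h2, sq_ed]
    rw [h3]
    exact (cor_face _ _).2
  · obtain ⟨u, r, h1⟩ := isEdge_ed v
    have h3 : v = sq s(u, u + dir r) := by rw [← h1, sq_ed]
    rw [h1] at h
    refine ⟨face u r, fun h4 => h ((E2.mem_edges r).2 (Or.inl h4)), ?_⟩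
    rw [h3]
    exact (cor_face _ _).1

end ext

end Vale.Agent.P167.N.ST2
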