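import Vale.Agent.P167.N.ST2.Arc
import Vale.Agent.P167.N.ST2.Cut
import Vale.Agent.P167.H199.C.Lat
import Vale.Agent.P167.H199.C.Near

/-!
# P167, `0 < q < 1`, block ST2, GLUE: the walk close to the arc cuts the polygon
-/

set_option autoImplicit false

namespace Vale.Agent.P167.N.ST2

open Set Metric Topology Filter
open Vale.Agent.P167.E6 (Approx dir pt face region Encloses IsPolygon)
open Vale.Agent.P153.R2.R1 (DC FC homC)
open Vale.Agent.P167.H199.C (Close close_region close_bd exists_uc pt_mem_region)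

section lat

variable {N : ℕ} {p : ZMod N → ℤ × ℤ} {S : Finset (ℤ × ℤ)}

theorem status (hS : Encloses p S) {v : ℤ × ℤ} (hv : ∀ i, p i ≠ v) {a b : Fin 4}
    (ha : face v a ∈ S) : face v b ∈ S := by
  by_contra hb
  obtain ⟨r, h1, h2⟩ := H490.jump (fun r => face v r ∈ S) ha hb
  obtain ⟨i, hi, -⟩ := (hS v r).2 ⟨h1, h2⟩
  exact hv i hi

theorem face_dir (v : ℤ × ℤ) (r : Fin 4) : face (v + dir r) (r + 1) = face v r ∧
    face (v + dir r) (r + 2) = face v (r - 1) := by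
  obtain ⟨x, y⟩ := v
  fin_cases r <;> simp [face, dir]

/-- The status of the faces does not change along a path off the polygon. -/
theorem status_walk (hS : Encloses p S) {y : ℕ → ℤ × ℤ} {a : ℕ} (n : ℕ)
    (hst : ∀ i, a ≤ i → i < a + n → ∃ r, y (i + 1) = y i + dir r)
    (hoff : ∀ i, a ≤ i → i ≤ a + n → ∀ j, p j ≠ y i) :
    (∀ r, face (y a) r ∈ S) ↔ ∀ r, face (y (a + n)) r ∈ S := by
  induction n with
  | zero => exact Iff.rfl
  | succ n ih =>
    have h1 := ih (fun i hi hi' => hst i hi (by omega)) fun i hi hi' => hoff i hi (by omega)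
    rw [h1]
    obtain ⟨r, hr⟩ := hst (a + n) (by omega) (by omega)
    have o1 := hoff (a + n) (by omega) (by omega)
    have o2 := hoff (a + (n + 1)) (by omega) le_rfl
    have e : y (a + (n + 1)) = y (a + n) + dir r := hr
    obtain ⟨f1, -⟩ := face_dir (y (a + n)) r
    rw [← e] at f1
    constructor
    · intro h b
      exact status hS o2 (a := r + 1) (by rw [f1]; exact h r)
    · intro h b
      exact status hS o1 (a := r) (by rw [← f1]; exact h _)

theorem region_face {δ : ℝ} (hδ : 0 < δ) {v : ℤ × ℤ} (h : (δ : ℂ) * pt v ∈ region δ S) :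
    ∃ r, face v r ∈ S := by
  obtain ⟨f, hf, h1, h2, h3, h4⟩ := h
  have e1 : ((δ : ℂ) * pt v).re = δ * v.1 := by simp [pt]
  have e2 : ((δ : ℂ) * pt v).im = δ * v.2 := by simp [pt]
  rw [e1] at h1 h2
  rw [e2] at h3 h4
  have c1 := le_of_mul_le_mul_left h1 hδ
  have c2 := le_of_mul_le_mul_left h2 hδ
  have c3 := le_of_mul_le_mul_left h3 hδ
  have c4 := le_of_mul_le_mul_left h4 hδ
  have d1 : f.1 ≤ v.1 := by exact_mod_cast c1
  have d2 : v.1 ≤ f.1 + 1 := by exact_mod_cast c2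
  have d3 : f.2 ≤ v.2 := by exact_mod_cast c3
  have d4 : v.2 ≤ f.2 + 1 := by exact_mod_cast c4
  have key : ∀ r : Fin 4, face v r = v + ![(0, 0), (-1, 0), (-1, -1), (0, -1)] r := fun r => rfl
  rcases (show f.1 = v.1 ∨ f.1 = v.1 - 1 by omega) with h | h <;>
  rcases (show f.2 = v.2 ∨ f.2 = v.2 - 1 by omega) with h' | h'
  · exact ⟨0, by rw [key]; convert hf using 1; ext <;> simp [h, h']⟩
  · exact ⟨3, by rw [key]; convert hf using 1; ext <;> simp [h, h']; ring⟩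
  · exact ⟨1, by rw [key]; convert hf using 1; ext <;> simp [h, h']; ring⟩
  · exact ⟨2, by rw [key]; convert hf using 1; ext <;> simp [h, h'] <;> ring⟩

open Classical in
/-- The first visits of the polygon before and after the index `c`. -/
theorem exists_cut_lat [NeZero N] (hS : Encloses p S) {y : ℕ → ℤ × ℤ} {M c : ℕ}
    (hcM : c ≤ M) (hst : ∀ i < M, ∃ r, y (i + 1) = y i + dir r)
    (h0 : ∀ r, face (y 0) r ∉ S) (hM : ∀ r, face (y M) r ∉ S) (hc : ∀ j, p j ≠ y c)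
    (hcS : ∃ r, face (y c) r ∈ S) :
    ∃ jF jW iF iW : ℕ, jF < c ∧ c < jW ∧ jW ≤ M ∧ iF < N ∧ iW < N ∧ y jF = p iF ∧ y jW = p iW ∧
      (∀ i, jF < i → i < jW → ∀ j, p j ≠ y i) ∧ ∀ i, jF < i → i < jW → ∀ r, face (y i) r ∈ S := by
  obtain ⟨r₀, hr₀⟩ := hcS
  have hcall : ∀ r, face (y c) r ∈ S := fun r => status hS hc hr₀
  have e1 : ∃ j, j ≤ c ∧ ∃ i, p i = y j := by
    by_contra hcon
    push Not at hcon
    have h1 := status_walk hS (y := y) (a := 0) c (fun i _ hi => hst i (by omega))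
      fun i _ hi => hcon i (by omega)
    rw [zero_add] at h1
    exact h0 0 (h1.2 hcall 0)
  have e2 : ∃ j, c ≤ j ∧ j ≤ M ∧ ∃ i, p i = y j := by
    by_contra hcon
    push Not at hcon
    have h1 := status_walk hS (y := y) (a := c) (M - c) (fun i _ hi => hst i (by omega))
      fun i hi hi' => hcon i hi (by omega)
    rw [show c + (M - c) = M by omega] at h1
    exact hM 0 (h1.1 hcall 0)
  obtain ⟨j₀, hj₀, hj₀'⟩ := e1
  have s1 : ∃ i, p i = y (Nat.findGreatest (fun j => ∃ i, p i = y j) c) :=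
    Nat.findGreatest_spec (P := fun j => ∃ i, p i = y j) hj₀ hj₀'
  have s2 : ∀ k, Nat.findGreatest (fun j => ∃ i, p i = y j) c < k → k ≤ c → ¬ ∃ i, p i = y k :=
    fun k h1 h2 => Nat.findGreatest_is_greatest (P := fun j => ∃ i, p i = y j) h1 h2
  have s3 : Nat.findGreatest (fun j => ∃ i, p i = y j) c ≤ c := Nat.findGreatest_le c
  set jF := Nat.findGreatest (fun j => ∃ i, p i = y j) c with hjF
  obtain ⟨iF, hiF⟩ := s1
  have s4 : jF < c := by
    rcases s3.lt_or_eq with h | h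
    · exact h
    · rw [h] at hiF
      exact absurd hiF (hc iF)
  have t1 := Nat.find_spec e2
  have t2 : ∀ m, m < Nat.find e2 → ¬ (c ≤ m ∧ m ≤ M ∧ ∃ i, p i = y m) := fun m hm =>
    Nat.find_min e2 hm
  set jW := Nat.find e2 with hjW
  obtain ⟨t3, t4, iW, hiW⟩ := t1
  have t5 : c < jW := by
    rcases t3.lt_or_eq with h | h
    · exact h
    · rw [← h] at hiW
      exact absurd hiW (hc iW)
  have hoff : ∀ i, jF < i → i < jW → ∀ j, p j ≠ y i := by
    intro i hi hi' j hj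
    rcases le_total i c with h | h
    · exact s2 i hi h ⟨j, hj⟩
    · exact t2 i hi' ⟨h, by omega, j, hj⟩
  refine ⟨jF, jW, iF.val, iW.val, s4, t5, t4, ZMod.val_lt _, ZMod.val_lt _,
    by rw [ZMod.natCast_zmod_val]; exact hiF.symm, by rw [ZMod.natCast_zmod_val]; exact hiW.symm,
    hoff, fun i hi hi' => ?_⟩
  rcases le_total i c with h | h
  · have h1 := status_walk hS (y := y) (a := i) (c - i) (fun j _ hj => hst j (by omega))
      fun j hj hj' => hoff j (by omega) (by omega)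
    rw [show i + (c - i) = c by omega] at h1
    exact h1.2 hcall
  · have h1 := status_walk hS (y := y) (a := c) (i - c) (fun j _ hj => hst j (by omega))
      fun j hj hj' => hoff j (by omega) (by omega)
    rw [show c + (i - c) = i by omega] at h1
    exact h1.1 hcall

/-- The data of the cut. -/
theorem cutDat_of {y : ℕ → ℤ × ℤ} {M jF jW iF iW : ℕ} (h0 : 0 < iF)
    (h1 : iF < iW) (h2 : iW < N) (h3 : jF + 1 < jW) (h4 : jW ≤ M) (hi : InjOn y (Iic M))
    (hst : ∀ i < M, ∃ r, y (i + 1) = y i + dir r) (hF : y jF = p iF) (hW : y jW = p iW)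
    (hoff : ∀ i, jF < i → i < jW → ∀ j, p j ≠ y i)
    (hin : ∀ i, jF < i → i < jW → ∀ r, face (y i) r ∈ S) :
    CutDat p S iF iW (jW - jF) (fun j => y (jF + j)) where
  ha := h0
  hab := h1
  hb := h2
  hM := by omega
  y0 := hF
  yM := by
    show y (jF + (jW - jF)) = _
    rw [show jF + (jW - jF) = jW by omega]
    exact hW
  inj := fun i j hi' hj' hij => by
    have := hi (show jF + i ∈ Iic M from by rw [mem_Iic]; omega)
      (show jF + j ∈ Iic M from by rw [mem_Iic]; omega) hij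
    omega
  step := fun i hi' => hst (jF + i) (by omega)
  off := fun i h h' j hj => hoff (jF + i) (by omega) (by omega) j hj.symm
  inn := fun i hi' r hr => by
    rcases Nat.eq_zero_or_pos i with rfl | hpos
    · have h5 := hin (jF + 1) (by omega) (by omega)
      have h6 : y (jF + 1) = y jF + dir r := hr
      rw [h6] at h5
      obtain ⟨f1, f2⟩ := face_dir (y jF) r
      show face (y jF) r ∈ S ∧ face (y jF) (r - 1) ∈ S
      exact ⟨f1 ▸ h5 (r + 1), f2 ▸ h5 (r + 2)⟩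
    · have h5 := hin (jF + i) (by omega) (by omega)
      exact ⟨h5 r, h5 (r - 1)⟩

end lat

variable {Φ₀ Φ' : (ℝ × ℝ) ≃ₜ (ℝ × ℝ)} {ρ : ℝ} {d : Fin 4} {g ℓ : ℝ → ℝ} {τ : ℝ}

/-- **The walk cuts the polygon.** -/
theorem find_cut (H : Cut Φ₀ Φ' ρ d g ℓ τ) {μ : ℝ} (hμ : 0 < μ) : ∃ ε₁ > 0,
    ∀ (δ : ℝ) (N k : ℕ) (p : ZMod N → ℤ × ℤ) (S : Finset (ℤ × ℤ)), Close Φ₀ ε₁ δ k p S →
    ∀ (s : ℕ → ℝ), Monotone s → s 0 = 0 → s k = Real.pi → s N = 2 * Real.pi →
      (∀ i < N, ∀ t ∈ Icc (s i) (s (i + 1)), dist ((δ : ℂ) * pt (p i)) (FC Φ₀ t) < ε₁) →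
    ∀ (M c : ℕ) (y : ℕ → ℤ × ℤ) (sy : ℕ → ℝ), 0 < c → c < M → InjOn y (Iic M) →
      (∀ i < M, ∃ r, y (i + 1) = y i + dir r) → Monotone sy → sy 0 = 0 → sy M = 1 →
      |sy c - 1 / 2| < ε₁ →
      (∀ i < M, ∀ t ∈ Icc (sy i) (sy (i + 1)), dist ((δ : ℂ) * pt (y i)) (Gam Φ₀ g τ t) < ε₁ ∧
        dist ((δ : ℂ) * pt (y (i + 1))) (Gam Φ₀ g τ t) < ε₁) →
      ∃ jF jW iF iW : ℕ, iF < k ∧ k < iW ∧ jF < c ∧ c < jW ∧ jW ≤ M ∧
        (∀ i, jF < i → i < jW → ∀ j, p j ≠ y i) ∧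
        |s iF - (Real.pi - 2 * τ)| < μ ∧ |s iW - (Real.pi + 2 * τ)| < μ ∧
        |sy jF - 1 / 4| < μ ∧ |sy jW - 3 / 4| < μ ∧
        CutDat p S iF iW (jW - jF) (fun j => y (jF + j)) := by
  have hτ := H.tau_pos
  have hτ1 := H.tau1
  have hpi := Real.pi_gt_three
  set ν : ℝ := min μ (min (1 / 16) τ) with hν
  have hν0 : 0 < ν := by positivity
  have hν1 : ν ≤ μ := min_le_left _ _
  have hν2 : ν ≤ 1 / 16 := (min_le_right _ _).trans (min_le_left _ _)
  have hν3 : ν ≤ τ := (min_le_right _ _).trans (min_le_right _ _)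
  obtain ⟨κ₁, hκ₁, hsep⟩ := H.sep hν0
  obtain ⟨κ₂, hκ₂, hflat⟩ := H.Ra_flat
  set κ : ℝ := min κ₁ (min κ₂ (1 / 4)) with hκ
  have hκ0 : 0 < κ := by positivity
  have l1 : κ ≤ κ₁ := min_le_left _ _
  have l2 : κ ≤ κ₂ := (min_le_right _ _).trans (min_le_left _ _)
  have l3 : κ ≤ 1 / 4 := (min_le_right _ _).trans (min_le_right _ _)
  obtain ⟨εa, ha, hreg⟩ := close_region Φ₀ hκ0
  obtain ⟨εb, hb, hbd⟩ := close_bd Φ₀ hκ0
  obtain ⟨εc, hc, huc⟩ := exists_uc (homC Φ₀).symm.continuous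
    ((isCompact_Icc (a := (0 : ℝ)) (b := 1)).image H.cont_Gam) hκ0
  refine ⟨min εa (min εb (min εc (1 / 16))), by positivity, ?_⟩
  set ε₁ := min εa (min εb (min εc (1 / 16))) with hε₁
  have m1 : ε₁ ≤ εa := min_le_left _ _
  have m2 : ε₁ ≤ εb := (min_le_right _ _).trans (min_le_left _ _)
  have m3 : ε₁ ≤ εc := (min_le_right _ _).trans ((min_le_right _ _).trans (min_le_left _ _))
  have m4 : ε₁ ≤ 1 / 16 := (min_le_right _ _).trans ((min_le_right _ _).trans (min_le_right _ _))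
  intro δ N k p S hC s hs hs0 hsk hsN hcl M c y sy hc0 hcM hyi hyst hsy hsy0 hsyM hsyc hycl
  obtain ⟨r1, r2⟩ := hreg δ N k p S (hC.mono m1)
  obtain ⟨⟨hδ, hk0, hkN, hp, hS⟩, -, -⟩ := hC
  have : NeZero N := ⟨by omega⟩
  have hsy1 : ∀ j ≤ M, sy j ∈ Icc (0 : ℝ) 1 := fun j hj =>
    ⟨by rw [← hsy0]; exact hsy (Nat.zero_le j), by rw [← hsyM]; exact hsy hj⟩
  -- the vertices of the walk in the coordinates of `Φ₀`
  have F1 : ∀ j ≤ M, ‖(homC Φ₀).symm ((δ : ℂ) * pt (y j)) - Gt g τ (sy j)‖ < κ := by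
    intro j hj
    have h1 : dist (Gam Φ₀ g τ (sy j)) ((δ : ℂ) * pt (y j)) < ε₁ := by
      rw [dist_comm]
      rcases hj.lt_or_eq with h | rfl
      · exact (hycl j h (sy j) ⟨le_rfl, hsy (Nat.le_succ j)⟩).1
      · obtain ⟨i, rfl⟩ : ∃ i, j = i + 1 := ⟨j - 1, by omega⟩
        exact (hycl i (by omega) (sy (i + 1)) ⟨hsy (Nat.le_succ i), le_rfl⟩).2
    have h2 := huc _ ⟨sy j, hsy1 j hj, rfl⟩ _ (h1.trans_le m3)
    rw [dist_comm, dist_eq_norm] at h2
    have e : (homC Φ₀).symm (Gam Φ₀ g τ (sy j)) = Gt g τ (sy j) :=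
      (homC Φ₀).symm_apply_apply _
    rwa [e] at h2
  -- the common vertices
  have F2 : ∀ (j i : ℕ), j ≤ M → i < N → y j = p i →
      (|sy j - 1 / 4| < ν ∧ |s i - (Real.pi - 2 * τ)| < ν) ∨
      (|sy j - 3 / 4| < ν ∧ |s i - (Real.pi + 2 * τ)| < ν) := by
    intro j i hj hi hij
    refine hsep (sy j) (hsy1 j hj) (s i) ⟨by rw [← hs0]; exact hs (Nat.zero_le i), by
      rw [← hsN]; exact hs hi.le⟩ ?_
    have h1 := F1 j hj
    have h2 := hbd _ (s i) ((hcl i hi (s i) ⟨le_rfl, hs (Nat.le_succ i)⟩).trans_le m2)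
    rw [← hij] at h2
    have h3 := norm_sub_le ((homC Φ₀).symm ((δ : ℂ) * pt (y j)) - Complex.exp (s i * Complex.I))
      ((homC Φ₀).symm ((δ : ℂ) * pt (y j)) - Gt g τ (sy j))
    rw [sub_sub_sub_cancel_left] at h3
    linarith
  have hout : ∀ j ≤ M, Ra g τ (sy j) = 2 → ∀ r, face (y j) r ∉ S := by
    intro j hj h2 r hr
    have h3 := r1 _ (pt_mem_region hδ hr)
    have h4 := F1 j hj
    have h5 : ‖Gt g τ (sy j)‖ ≤ ‖(homC Φ₀).symm ((δ : ℂ) * pt (y j))‖ +
        ‖(homC Φ₀).symm ((δ : ℂ) * pt (y j)) - Gt g τ (sy j)‖ := by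
      have h6 := norm_sub_le ((homC Φ₀).symm ((δ : ℂ) * pt (y j)))
        ((homC Φ₀).symm ((δ : ℂ) * pt (y j)) - Gt g τ (sy j))
      rwa [sub_sub_cancel] at h6
    rw [H.norm_Gt, h2] at h5
    linarith
  have hscb := abs_lt.1 hsyc
  have hyc : ∀ j, p j ≠ y c := by
    intro j hj
    rcases F2 c j.val hcM.le (ZMod.val_lt j) (by rw [ZMod.natCast_zmod_val]; exact hj.symm) with
      ⟨h1, -⟩ | ⟨h1, -⟩
    · linarith [(abs_lt.1 h1).2]
    · linarith [(abs_lt.1 h1).1]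
  have hcS : ∃ r, face (y c) r ∈ S := by
    refine region_face hδ (r2 _ ?_)
    have h1 := F1 c hcM.le
    have h2 := hflat (sy c) ⟨by linarith, by linarith⟩
    rw [← H.norm_Gt] at h2
    have h3 := norm_add_le ((homC Φ₀).symm ((δ : ℂ) * pt (y c)) - Gt g τ (sy c)) (Gt g τ (sy c))
    rw [sub_add_cancel] at h3
    linarith
  obtain ⟨jF, jW, iF, iW, g1, g2, g3, g4, g5, g6, g7, g8, g9⟩ := exists_cut_lat hS (y := y) hcM.le
    hyst (hout 0 (Nat.zero_le _) (by rw [hsy0, H.Ra_le (by norm_num)]; norm_num))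
    (hout M le_rfl (by rw [hsyM, H.Ra_ge (by norm_num)]; norm_num)) hyc hcS
  have a1 : |sy jF - 1 / 4| < ν ∧ |s iF - (Real.pi - 2 * τ)| < ν := by
    refine (F2 jF iF (by omega) g4 g6).resolve_right fun h => ?_
    have h1 := (abs_lt.1 h.1).1
    have h2 := hsy g1.le
    linarith
  have a2 : |sy jW - 3 / 4| < ν ∧ |s iW - (Real.pi + 2 * τ)| < ν := by
    refine (F2 jW iW g3 g5 g7).resolve_left fun h => ?_
    have h1 := (abs_lt.1 h.1).2
    have h2 := hsy g2.le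
    linarith
  have b1 := abs_lt.1 a1.2
  have b2 := abs_lt.1 a2.2
  have c1 : iF < k := by
    by_contra hcon
    have := hs (not_lt.1 hcon)
    rw [hsk] at this
    linarith
  have c2 : k < iW := by
    by_contra hcon
    have := hs (not_lt.1 hcon)
    rw [hsk] at this
    linarith
  have c3 : 0 < iF := by
    rcases Nat.eq_zero_or_pos iF with h | h
    · rw [h, hs0] at b1
      linarith
    · exact h
  exact ⟨jF, jW, iF, iW, c1, c2, g1, g2, g3, g8, a1.2.trans_le hν1, a2.2.trans_le hν1,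
    a1.1.trans_le hν1, a2.1.trans_le hν1,
    cutDat_of c3 (by omega) g5 (by omega) g3 hyi hyst g6 g7 g8 g9⟩

end Vale.Agent.P167.N.ST2
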