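import Vale.Agent.P167.N.ST2.Defs
import Vale.Agent.P167.N.ST2.Cut
import Vale.Agent.P167.H718.Rc

/-!
# P167, Stage II by local surgery: locality of the cut

`CutDat.agree`: the squares of the domain and the frozen squares of the wired arc do not change away
from the cut-off part of the polygon.
-/

set_option autoImplicit false

namespace Vale.Agent.P167.N.ST2

open Vale.Agent.P167.FK
open Vale.Agent.P167.E6
open Vale.Agent.P167.H192 (ro sq ed ea eb cfg cfg_true)
open Vale.Agent.P167.H718 (Dq etaQ wE mem_wE mem_Dq')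

/-! ### The position of a square -/

/-- The square is in the middle of its edge. -/
theorem sqp_mid (δ : ℝ) (v : ℤ × ℤ) :
    sqp δ v = ((δ : ℂ) * pt (ea v) + (δ : ℂ) * pt (eb v)) / 2 := by
  obtain ⟨x, y⟩ := v
  unfold sqp pt ea eb
  by_cases h : Even (x + y)
  · obtain ⟨m, hm⟩ := h
    obtain rfl : x = m + m - y := by omega
    have e1 : (m + m - y + y + 1) / 2 = m := by omega
    have e2 : (y - (m + m - y)) / 2 = y - m := by omega
    have h' : Even (m + m - y + y) := ⟨m, by ring⟩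
    simp only [h', if_true, e1, e2]
    apply Complex.ext
    · simp
      ring
    · simp
      left
      ring
  · obtain ⟨m, hm⟩ := Int.not_even_iff_odd.1 h
    obtain rfl : x = 2 * m + 1 - y := by omega
    have e1 : (2 * m + 1 - y + y + 1) / 2 = m + 1 := by omega
    have e2 : (y - (2 * m + 1 - y)) / 2 = y - m - 1 := by omega
    simp only [h, if_false, e1, e2]
    apply Complex.ext
    · simp
      left
      ring
    · simp
      ring

/-- The two ends of the edge of a square are neighbours. -/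
theorem eb_cases (v : ℤ × ℤ) : eb v = ea v + (1, 0) ∨ eb v = ea v + (0, 1) := by
  unfold eb ea
  by_cases h : Even (v.1 + v.2)
  · left
    rw [if_pos h]
    simp
  · right
    rw [if_neg h]
    simp

theorem norm_pt_sub {u w : ℤ × ℤ} (h : w = u + (1, 0) ∨ w = u + (0, 1)) : ‖pt w - pt u‖ = 1 := by
  rcases h with rfl | rfl
  · have : pt (u + (1, 0)) - pt u = 1 := by
      unfold pt
      apply Complex.ext <;> simp
    rw [this, norm_one]
  · have : pt (u + (0, 1)) - pt u = Complex.I := by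
      unfold pt
      apply Complex.ext <;> simp
    rw [this, Complex.norm_I]

theorem dist_sqp_mem {δ : ℝ} (hδ : 0 ≤ δ) {v w : ℤ × ℤ} (hw : w ∈ ed v) :
    dist (sqp δ v) ((δ : ℂ) * pt w) ≤ δ := by
  have h1 := norm_pt_sub (eb_cases v)
  unfold ed at hw
  rw [Sym2.mem_iff] at hw
  rw [sqp_mid, dist_eq_norm]
  rcases hw with rfl | rfl
  · have : ((δ : ℂ) * pt (ea v) + (δ : ℂ) * pt (eb v)) / 2 - (δ : ℂ) * pt (ea v) =
        ((δ / 2 : ℝ) : ℂ) * (pt (eb v) - pt (ea v)) := by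
      push_cast
      ring
    rw [this, norm_mul, h1, mul_one, Complex.norm_real, Real.norm_of_nonneg (by linarith)]
    linarith
  · have : ((δ : ℂ) * pt (ea v) + (δ : ℂ) * pt (eb v)) / 2 - (δ : ℂ) * pt (eb v) =
        -(((δ / 2 : ℝ) : ℂ) * (pt (eb v) - pt (ea v))) := by
      push_cast
      ring
    rw [this, norm_neg, norm_mul, h1, mul_one, Complex.norm_real,
      Real.norm_of_nonneg (by linarith)]
    linarith

/-- The ends of an edge of a face. -/
theorem mem_edges_face {S : Finset (ℤ × ℤ)} {e : Sym2 (ℤ × ℤ)} (he : e ∈ edges S) :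
    ∃ F ∈ S, ∀ w ∈ e, F.1 ≤ w.1 ∧ w.1 ≤ F.1 + 1 ∧ F.2 ≤ w.2 ∧ w.2 ≤ F.2 + 1 := by
  unfold edges at he
  rw [Finset.mem_biUnion] at he
  obtain ⟨f, hf, he⟩ := he
  refine ⟨f, hf, ?_⟩
  simp only [Finset.mem_insert, Finset.mem_singleton] at he
  rcases he with rfl | rfl | rfl | rfl <;> intro w hw <;> rw [Sym2.mem_iff] at hw <;>
    rcases hw with rfl | rfl <;> simp

/-! ### Locality -/

section cut

variable {N : ℕ} [NeZero N] {p : ZMod N → ℤ × ℤ} {S S' S'' : Finset (ℤ × ℤ)} {a b M : ℕ}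
  {y : ℕ → ℤ × ℤ} {k k' : ℕ} {δ D : ℝ} {z : ℂ}

theorem edges_union : edges (S' ∪ S'') = edges S' ∪ edges S'' := by
  unfold edges
  exact Finset.union_biUnion

/-- The squares of the edges of the cut-off domain. -/
theorem CutDat.dist_R (H : CutDat p S a b M y) (hp : IsPolygon p) (hS : Encloses p S)
    [NeZero (nR a b M)]
    (h2 : Encloses (fun i : ZMod (nR a b M) => cutR p a b M y i.val) S'') (hδ : 0 < δ)
    (hy : ∀ i ≤ M, dist ((δ : ℂ) * pt (y i)) z ≤ D)
    (hpb : ∀ j, a ≤ j → j ≤ b → dist ((δ : ℂ) * pt (p (j : ZMod N))) z ≤ D) {v : ℤ × ℤ}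
    (hv : ed v ∈ edges S'') : dist (sqp δ v) z ≤ 3 / 2 * D := by
  have hD : 0 ≤ D := dist_nonneg.trans (hy 0 (Nat.zero_le _))
  have hbox : ∀ u : ℤ × ℤ, dist ((δ : ℂ) * pt u) z ≤ D → ⌈(z.re - D) / δ⌉ ≤ u.1 ∧
      u.1 ≤ ⌊(z.re + D) / δ⌋ ∧ ⌈(z.im - D) / δ⌉ ≤ u.2 ∧ u.2 ≤ ⌊(z.im + D) / δ⌋ := by
    intro u hu
    rw [dist_eq_norm] at hu
    have h3 := abs_le.1 ((Complex.abs_re_le_norm _).trans hu)
    have h4 := abs_le.1 ((Complex.abs_im_le_norm _).trans hu)
    rw [Complex.sub_re, Complex.re_ofReal_mul] at h3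
    rw [Complex.sub_im, Complex.im_ofReal_mul] at h4
    have e1 : (pt u).re = u.1 := rfl
    have e2 : (pt u).im = u.2 := rfl
    rw [e1] at h3
    rw [e2] at h4
    refine ⟨?_, ?_, ?_, ?_⟩
    · rw [Int.ceil_le, div_le_iff₀ hδ]
      linarith
    · rw [Int.le_floor, le_div_iff₀ hδ]
      linarith
    · rw [Int.ceil_le, div_le_iff₀ hδ]
      linarith
    · rw [Int.le_floor, le_div_iff₀ hδ]
      linarith
  obtain ⟨F, hF, hw⟩ := mem_edges_face hv
  obtain ⟨b1, b2, b3, b4⟩ := H.box_R hp hS h2 (fun i hi => hbox _ (hy i hi))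
    (fun j h3 h4 => hbox _ (hpb j h3 h4)) hF
  rw [Int.ceil_le, div_le_iff₀ hδ] at b1 b3
  have b2' : F.1 + 1 ≤ ⌊(z.re + D) / δ⌋ := b2
  have b4' : F.2 + 1 ≤ ⌊(z.im + D) / δ⌋ := b4
  rw [Int.le_floor, le_div_iff₀ hδ] at b2' b4'
  push_cast at b2' b4'
  -- the ends of the edge
  have hc : ∀ w ∈ ed v, |((δ : ℂ) * pt w - z).re| ≤ D ∧ |((δ : ℂ) * pt w - z).im| ≤ D := by
    intro w hw'
    obtain ⟨h3, h4, h5, h6⟩ := hw w hw'
    have h3' : (F.1 : ℝ) ≤ w.1 := by exact_mod_cast h3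
    have h4' : (w.1 : ℝ) ≤ F.1 + 1 := by exact_mod_cast h4
    have h5' : (F.2 : ℝ) ≤ w.2 := by exact_mod_cast h5
    have h6' : (w.2 : ℝ) ≤ F.2 + 1 := by exact_mod_cast h6
    rw [Complex.sub_re, Complex.re_ofReal_mul, Complex.sub_im, Complex.im_ofReal_mul]
    have e1 : (pt w).re = w.1 := rfl
    have e2 : (pt w).im = w.2 := rfl
    rw [e1, e2]
    constructor <;> rw [abs_le] <;> constructor <;> nlinarith
  have h7 := hc (ea v) (by unfold ed; simp)
  have h8 := hc (eb v) (by unfold ed; simp)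
  rw [dist_eq_norm, sqp_mid]
  have e3 : ((δ : ℂ) * pt (ea v) + (δ : ℂ) * pt (eb v)) / 2 - z =
      (((δ : ℂ) * pt (ea v) - z) + ((δ : ℂ) * pt (eb v) - z)) / 2 := by ring
  rw [e3]
  set A := (δ : ℂ) * pt (ea v) - z
  set B := (δ : ℂ) * pt (eb v) - z
  have h9 : ‖(A + B) / 2‖ ^ 2 ≤ (3 / 2 * D) ^ 2 := by
    rw [← Complex.normSq_eq_norm_sq, Complex.normSq_apply]
    have e4 : ((A + B) / 2).re = (A.re + B.re) / 2 := by simp
    have e5 : ((A + B) / 2).im = (A.im + B.im) / 2 := by simp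
    rw [e4, e5]
    obtain ⟨⟨g1, g2⟩, g3, g4⟩ := And.imp abs_le.1 abs_le.1 h7
    obtain ⟨⟨g5, g6⟩, g7, g8⟩ := And.imp abs_le.1 abs_le.1 h8
    have k1 : ((A.re + B.re) / 2) * ((A.re + B.re) / 2) ≤ D * D := by
      have : |(A.re + B.re) / 2| ≤ D := abs_le.2 ⟨by linarith, by linarith⟩
      calc _ = |(A.re + B.re) / 2| * |(A.re + B.re) / 2| := (abs_mul_abs_self _).symm
        _ ≤ D * D := mul_le_mul this this (abs_nonneg _) hD
    have k2 : ((A.im + B.im) / 2) * ((A.im + B.im) / 2) ≤ D * D := by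
      have : |(A.im + B.im) / 2| ≤ D := abs_le.2 ⟨by linarith, by linarith⟩
      calc _ = |(A.im + B.im) / 2| * |(A.im + B.im) / 2| := (abs_mul_abs_self _).symm
        _ ≤ D * D := mul_le_mul this this (abs_nonneg _) hD
    nlinarith [mul_nonneg hD hD]
  exact (sq_le_sq₀ (norm_nonneg _) (by positivity)).1 h9

/-- **Locality of the cut.** -/
theorem CutDat.agree (H : CutDat p S a b M y) (hp : IsPolygon p) (hS : Encloses p S)
    [NeZero (nL N a b M)] [NeZero (nR a b M)]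
    (h2 : Encloses (fun i : ZMod (nR a b M) => cutR p a b M y i.val) S'') (hU : S = S' ∪ S'')
    (hk : a ≤ k) (hkb : k ≤ b) (hk' : a ≤ k') (hkb' : k' ≤ a + M) (hδ : 0 < δ)
    (hy : ∀ i ≤ M, dist ((δ : ℂ) * pt (y i)) z ≤ D)
    (hpb : ∀ j, a ≤ j → j ≤ b → dist ((δ : ℂ) * pt (p (j : ZMod N))) z ≤ D) {v : ℤ × ℤ}
    (hv : 3 / 2 * D + δ < dist (sqp δ v) z) :
    (v ∈ Dq S p k ↔ v ∈ Dq S' (fun i : ZMod (nL N a b M) => cutL p a b M y i.val) k') ∧
      etaQ p k v = etaQ (fun i : ZMod (nL N a b M) => cutL p a b M y i.val) k' v := by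
  have hD : 0 ≤ D := dist_nonneg.trans (hy 0 (Nat.zero_le _))
  have hab := H.hab
  have hb := H.hb
  have hM := H.hM
  have hnL : nL N a b M = a + M + (N - b) := rfl
  have f1 : ed v ∉ edges S'' := fun h => by
    have := H.dist_R hp hS h2 hδ hy hpb h
    linarith
  have f2 : ∀ w ∈ ed v, ¬ dist ((δ : ℂ) * pt w) z ≤ D := fun w hw h => by
    have h3 := dist_sqp_mem hδ.le hw
    have h4 := dist_triangle (sqp δ v) ((δ : ℂ) * pt w) z
    linarith
  have hval : ∀ i : ℕ, i < nL N a b M →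
      cutL p a b M y (ZMod.val ((i : ℕ) : ZMod (nL N a b M))) = cutL p a b M y i := by
    intro i hi
    rw [ZMod.val_cast_of_lt hi]
  have hw : ed v ∈ wE p k ↔ ed v ∈ wE (fun i : ZMod (nL N a b M) => cutL p a b M y i.val) k' := by
    rw [mem_wE, mem_wE]
    constructor
    · rintro ⟨i, h3, h4, h5⟩
      rcases Nat.lt_or_ge i b with h6 | h6
      · exfalso
        refine f2 (p (i : ZMod N)) ?_ (hpb i (by omega) h6.le)
        rw [h5]
        exact Sym2.mem_mk_left _ _
      · refine ⟨a + M + (i - b), by omega, by omega, ?_⟩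
        have e1 := hval (a + M + (i - b)) (by omega)
        have e2 := hval (a + M + (i - b) + 1) (by omega)
        push_cast at e1 e2 ⊢
        rw [e1, e2, H.L3, show a + M + (i - b) + 1 = a + M + (i - b + 1) by omega, H.L3,
          show b + (i - b) = i by omega, show b + (i - b + 1) = i + 1 by omega, h5]
        push_cast
        rfl
    · rintro ⟨i, h3, h4, h5⟩
      have e1 := hval i (by omega)
      have e2 := hval (i + 1) (by omega)
      push_cast at e2
      rw [e1, e2] at h5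
      rcases Nat.lt_or_ge i (a + M) with h6 | h6
      · exfalso
        obtain ⟨j, rfl⟩ : ∃ j, i = a + j := ⟨i - a, by omega⟩
        refine f2 (y j) ?_ (hy j (by omega))
        rw [h5, H.L2 (by omega)]
        exact Sym2.mem_mk_left _ _
      · obtain ⟨j, rfl⟩ : ∃ j, i = a + M + j := ⟨i - (a + M), by omega⟩
        refine ⟨b + j, by omega, by omega, ?_⟩
        rw [h5, H.L3, add_assoc (a + M), H.L3]
        push_cast
        rw [add_assoc]
  constructor
  · rw [mem_Dq', mem_Dq', hU, edges_union, Finset.mem_union, ← hw]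
    constructor
    · rintro ⟨h3 | h3, h4⟩
      · exact ⟨h3, h4⟩
      · exact absurd h3 f1
    · rintro ⟨h3, h4⟩
      exact ⟨Or.inl h3, h4⟩
  · unfold etaQ
    rw [Bool.eq_iff_iff, cfg_true, cfg_true, Finset.mem_coe, Finset.mem_coe]
    exact hw

end cut

end Vale.Agent.P167.N.ST2
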