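import Vale.Agent.P167.N.ST2.Tot
import Vale.Agent.P167.N.ST2.Defs

/-!
# P167, block ST2: simple lattice paths close to an arc, with a staircase: `S_walk`
-/

set_option autoImplicit false

namespace Vale.Agent.P167.N.ST2

open Set
open Vale.Agent.P167.E6 (dir pt)

theorem dist_dir {h : ℝ} (hh : 0 < h) {v w : ℤ × ℤ} (H : ∃ r, w = v + dir r) :
    dist ((h : ℂ) * pt w) ((h : ℂ) * pt v) = h := by
  obtain ⟨r, rfl⟩ := H
  rw [dist_eq_norm, pt_add, ← mul_sub, add_sub_cancel_left, norm_mul, norm_pt_dir, mul_one,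
    Complex.norm_real, Real.norm_of_nonneg hh.le]

theorem exists_K {σ h : ℝ} (hσ : 0 < σ) (hh : 0 < h) :
    ∃ K : ℕ, (K : ℝ) * h ≤ σ ∧ σ ≤ (K + 1) * h := by
  refine ⟨⌊σ / h⌋₊, ?_, ?_⟩
  · have h1 := Nat.floor_le (show 0 ≤ σ / h by positivity)
    rwa [le_div_iff₀ hh] at h1
  · have h1 := (Nat.lt_floor_add_one (σ / h)).le
    rwa [div_le_iff₀ hh] at h1

theorem s_walk : S_walk := by
  intro Γ t₁ tb t₂ g d hΓ hi h1 h2 h3 h4 hg hs
  set ρ := min (tb - t₁) (t₂ - tb) with hρ
  have hρ0 : 0 < ρ := lt_min (by linarith) (by linarith)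
  have hρ1 := min_le_left (tb - t₁) (t₂ - tb)
  have hρ2 := min_le_right (tb - t₁) (t₂ - tb)
  have hsub : Icc (tb - ρ) (tb + ρ) ⊆ Icc t₁ t₂ := Icc_subset_Icc (by linarith) (by linarith)
  obtain ⟨σ, G, H⟩ := str_of (Γ := Γ) (d := d) (tc := tb) (ρ := ρ) hΓ hρ0 (by linarith)
    (by linarith) (hg.mono hsub) (fun t ht => by rw [pt_add]; exact hs t (hsub ht))
  have hσ := H.pos
  refine ⟨σ / 4, by linarith, fun ε hε => ?_⟩
  obtain ⟨τ, e₀, hτ, he₀, hτ1, hτ2, hτ3, hsep, hosc⟩ := exists_mod hΓ hi H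
    (show 0 < ε / 4 by linarith)
  refine ⟨min (e₀ / 8) (min (σ / 4) (ε / 40)), lt_min (by linarith)
    (lt_min (by linarith) (by linarith)), fun δ hδ hδ₀ => ?_⟩
  have b1 : 8 * δ ≤ e₀ := by
    have := (hδ₀.trans_le (min_le_left _ _)).le
    linarith
  have b2 : 4 * δ ≤ σ := by
    have := (hδ₀.trans_le ((min_le_right _ _).trans (min_le_left _ _))).le
    linarith
  have b3 : 40 * δ ≤ ε := by
    have := (hδ₀.trans_le ((min_le_right _ _).trans (min_le_right _ _))).le
    linarith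
  obtain ⟨K, hK, hK'⟩ := exists_K hσ hδ
  obtain ⟨L₁, L, x, u, T, -, -⟩ := exists_tot hΓ H hδ hK hK' hδ.le (rd_near hδ _) (rd_near hδ _)
  have hsep' : ∀ s ∈ Icc (0 : ℝ) 1, ∀ t ∈ Icc (0 : ℝ) 1,
      dist (Γ s) (Γ t) ≤ 2 * (7 * δ + δ) → |s - t| ≤ τ := fun s hs' t ht hst =>
    hsep s hs' t ht (by linarith)
  obtain ⟨c, hc0, hc1, hc2, hc3, hc4⟩ := T.erase H hδ hK hK' b2 hτ1 hτ2 hτ3 hsep'
  have hnear := T.fo.erase hsep' hosc
  have hK1 : 1 ≤ K := by
    by_contra hc
    have : K = 0 := by omega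
    rw [this] at hK'
    push_cast at hK'
    linarith
  set M := lm x L with hM
  have hstep : ∀ i < M, ∃ r, x (li x L (i + 1)) = x (li x L i) + dir r := fun i hi => T.fo.l_adj hi
  have hlu1 : ∀ i, lu x L u i ≤ 1 := fun i => by
    have h5 := T.fo.lu_mono (show i ≤ max i (M + 1) from le_max_left _ _)
    refine h5.trans (le_of_eq ?_)
    rw [lu, show min (max i (M + 1)) (lm x L + 1) = lm x L + 1 by rw [← hM]; omega, li_end]
    exact T.fo.uL
  refine ⟨M, c, fun i => x (li x L i), fun i => if i < M then lu x L u i else 1, by omega, by omega,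
    fun i hi' j hj' hij => li_inj hi' hj' hij, hstep, ?_, ?_, ?_, ?_, fun i hiM t ht => ?_,
    fun m hm => ?_⟩
  · intro i j hij
    show (if i < M then lu x L u i else 1) ≤ (if j < M then lu x L u j else 1)
    by_cases h5 : j < M
    · rw [if_pos h5, if_pos (by omega)]
      exact T.fo.lu_mono hij
    · rw [if_neg h5]
      split_ifs
      · exact hlu1 i
      · exact le_rfl
  · show (if 0 < M then lu x L u 0 else 1) = 0
    rw [if_pos (by omega)]
    exact T.fo.lu_zero
  · show (if M < M then lu x L u M else 1) = 1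
    rw [if_neg (lt_irrefl M)]
  · show |(if c < M then lu x L u c else 1) - tb| < ε
    rw [if_pos (by omega), hc3, sub_self, abs_zero]
    exact hε
  · have ht1 : (if i < M then lu x L u i else 1) ≤ t := ht.1
    have ht2 : t ≤ (if i + 1 < M then lu x L u (i + 1) else 1) := ht.2
    rw [if_pos hiM] at ht1
    have hd := dist_dir hδ (hstep i hiM)
    have key : dist ((δ : ℂ) * pt (x (li x L i))) (Γ t) ≤ 7 * δ + δ + ε / 4 ∨
        dist ((δ : ℂ) * pt (x (li x L (i + 1)))) (Γ t) ≤ 7 * δ + δ + ε / 4 := by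
      rcases le_total t (lu x L u (i + 1)) with h5 | h5
      · exact Or.inl (hnear i hiM.le t ⟨ht1, h5⟩)
      · by_cases h6 : i + 1 < M
        · rw [if_pos h6] at ht2
          exact Or.inl (hnear i hiM.le t ⟨ht1, ht2⟩)
        · rw [if_neg h6] at ht2
          have h7 : i + 1 = M := by omega
          refine Or.inr (hnear (i + 1) (by omega) t ⟨h5, ?_⟩)
          rw [h7, T.fo.lu_end]
          exact ht2
    rcases key with h5 | h5
    · refine ⟨by show dist ((δ : ℂ) * pt (x (li x L i))) (Γ t) < ε; linarith, ?_⟩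
      show dist ((δ : ℂ) * pt (x (li x L (i + 1)))) (Γ t) < ε
      have := dist_triangle ((δ : ℂ) * pt (x (li x L (i + 1)))) ((δ : ℂ) * pt (x (li x L i))) (Γ t)
      linarith
    · refine ⟨?_, by show dist ((δ : ℂ) * pt (x (li x L (i + 1)))) (Γ t) < ε; linarith⟩
      show dist ((δ : ℂ) * pt (x (li x L i))) (Γ t) < ε
      have := dist_triangle_left ((δ : ℂ) * pt (x (li x L i))) (Γ t)
        ((δ : ℂ) * pt (x (li x L (i + 1))))
      linarith
  · have hmK : m < K := by
      have h5 : (m : ℝ) < K := by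
        by_contra hcon
        push Not at hcon
        nlinarith
      exact_mod_cast h5
    obtain ⟨h5, h6⟩ := hc4 m hmK
    exact ⟨by omega, by omega, h5, h6⟩

end Vale.Agent.P167.N.ST2
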