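import Vale.Agent.P167.N.ST2.Prm
import Vale.Agent.P167.N.ST2.Find
import Vale.Agent.P167.N.ST2.SWalk
import Vale.Agent.P167.N.ST2.GlueB

/-!
# P167, `0 < q < 1`, block ST2, GLUE: the cut polygon
-/

set_option autoImplicit false

namespace Vale.Agent.P167.N.ST2

open Set Metric Topology Filter
open Vale.Agent.P167.E6 (Approx dir pt face region Encloses IsPolygon)
open Vale.Agent.P153.R2.R1 (DC FC homC)
open Vale.Agent.P167.H199.C (Close)
open Vale.Agent.P167.H718 (Dq etaQ)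

section seq

variable {N : ℕ} [NeZero N] {p : ZMod N → ℤ × ℤ} {S : Finset (ℤ × ℤ)} {a b M : ℕ} {y : ℕ → ℤ × ℤ}

/-- The remaining polygon. -/
noncomputable def PL (p : ZMod N → ℤ × ℤ) (a b M : ℕ) (y : ℕ → ℤ × ℤ)
    (i : ZMod (nL N a b M)) : ℤ × ℤ := cutL p a b M y i.val

theorem PL_nat (K : CutDat p S a b M y) {i : ℕ} (hi : i ≤ nL N a b M) :
    PL p a b M y (i : ZMod (nL N a b M)) = cutL p a b M y i := by
  unfold PL
  have h0 : 0 < nL N a b M := by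
    have := K.hb
    unfold nL
    omega
  rcases hi.lt_or_eq with h | h
  · rw [ZMod.val_cast_of_lt h]
  · subst h
    rw [ZMod.natCast_self, ZMod.val_zero, K.closeL]

theorem PL_zero (K : CutDat p S a b M y) : PL p a b M y 0 = p 0 := by
  unfold PL
  rw [ZMod.val_zero, K.L1 (Nat.zero_le _), Nat.cast_zero]

theorem PL_neg (K : CutDat p S a b M y) : PL p a b M y (-1) = p (-1) := by
  have hb := K.hb
  have hN : 0 < nL N a b M := by unfold nL; omega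
  have hN' : 0 < N := by omega
  have e1 : (-1 : ZMod (nL N a b M)) = ((nL N a b M - 1 : ℕ) : ZMod (nL N a b M)) := by
    rw [Nat.cast_sub hN, ZMod.natCast_self, Nat.cast_one, zero_sub]
  have e2 : (-1 : ZMod N) = ((N - 1 : ℕ) : ZMod N) := by
    rw [Nat.cast_sub hN', ZMod.natCast_self, Nat.cast_one, zero_sub]
  rw [e1, PL_nat K (by omega), e2]
  have e3 : nL N a b M - 1 = a + M + (N - b - 1) := by unfold nL; omega
  rw [e3, K.L3]
  congr 2
  omega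

/-- The staircase. -/
theorem PL_stair (K : CutDat p S a b M y) {c m : ℕ} {d : Fin 4} (h1 : c + m + 1 ≤ M)
    (h2 : m + 1 ≤ c)
    (hs : y (c + m + 1) = y (c + m) + (if Even m then dir d else dir (d + 1)) ∧
      y (c - m) = y (c - m - 1) + (if Even m then dir d else dir (d + 1))) :
    PL p a b M y (((a + c : ℕ) : ZMod (nL N a b M)) + m + 1) =
      PL p a b M y (((a + c : ℕ) : ZMod (nL N a b M)) + m) + (if Even m then dir d else dir (d + 1)) ∧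
    PL p a b M y (((a + c : ℕ) : ZMod (nL N a b M)) - m) =
      PL p a b M y (((a + c : ℕ) : ZMod (nL N a b M)) - m - 1) +
        (if Even m then dir d else dir (d + 1)) := by
  have hb := K.hb
  have hn : a + M ≤ nL N a b M := by unfold nL; omega
  have e1 : ((a + c : ℕ) : ZMod (nL N a b M)) + m + 1 =
      ((a + (c + m + 1) : ℕ) : ZMod (nL N a b M)) := by push_cast; ring
  have e2 : ((a + c : ℕ) : ZMod (nL N a b M)) + m =
      ((a + (c + m) : ℕ) : ZMod (nL N a b M)) := by push_cast; ring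
  have e3 : ((a + c : ℕ) : ZMod (nL N a b M)) - m =
      ((a + (c - m) : ℕ) : ZMod (nL N a b M)) := by
    rw [show a + (c - m) = a + c - m by omega, Nat.cast_sub (by omega)]
  have e4 : ((a + c : ℕ) : ZMod (nL N a b M)) - m - 1 =
      ((a + (c - m - 1) : ℕ) : ZMod (nL N a b M)) := by
    rw [show a + (c - m - 1) = a + c - m - 1 by omega, Nat.cast_sub (by omega),
      Nat.cast_sub (by omega), Nat.cast_one]
  rw [e1, e2, e4, e3, PL_nat K (by omega), PL_nat K (by omega), PL_nat K (by omega),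
    PL_nat K (by omega), K.L2 h1, K.L2 (by omega), K.L2 (by omega), K.L2 (by omega)]
  exact hs

end seq

variable {Φ₀ Φ' : (ℝ × ℝ) ≃ₜ (ℝ × ℝ)} {ρ : ℝ} {d : Fin 4} {g ℓ : ℝ → ℝ} {τ : ℝ}

/-- The middle point of the arc is far from its outer pieces. -/
theorem Cut.far (H : Cut Φ₀ Φ' ρ d g ℓ τ) : ∃ D > 0, ∀ x ∈ Icc (7 / 16 : ℝ) (9 / 16),
    ∀ x' ∈ Icc (0 : ℝ) (3 / 8) ∪ Icc (5 / 8 : ℝ) 1,
      D ≤ dist (Gam Φ₀ g τ x) (Gam Φ₀ g τ x') := by
  have hK : IsCompact (Icc (7 / 16 : ℝ) (9 / 16) ×ˢ (Icc (0 : ℝ) (3 / 8) ∪ Icc (5 / 8 : ℝ) 1)) :=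
    isCompact_Icc.prod (isCompact_Icc.union isCompact_Icc)
  set F : ℝ × ℝ → ℝ := fun z => dist (Gam Φ₀ g τ z.1) (Gam Φ₀ g τ z.2) with hF
  have hc : Continuous F := by
    have := H.cont_Gam
    rw [hF]
    fun_prop
  have hne : (Icc (7 / 16 : ℝ) (9 / 16) ×ˢ (Icc (0 : ℝ) (3 / 8) ∪ Icc (5 / 8 : ℝ) 1)).Nonempty :=
    ⟨((1 / 2 : ℝ), (0 : ℝ)), mk_mem_prod ⟨by norm_num, by norm_num⟩
      (Or.inl ⟨by norm_num, by norm_num⟩)⟩
  obtain ⟨z, hz, hmin⟩ := hK.exists_isMinOn hne hc.continuousOn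
  rw [mem_prod] at hz
  obtain ⟨⟨h1, h2⟩, h3⟩ := hz
  have hpos : 0 < F z := by
    refine dist_pos.2 fun h => ?_
    have h4 : z.2 ∈ Icc (0 : ℝ) 1 := by
      rcases h3 with h3 | h3
      · exact ⟨h3.1, h3.2.trans (by norm_num)⟩
      · exact ⟨le_trans (by norm_num) h3.1, h3.2⟩
    have h5 := H.inj_Gam (show z.1 ∈ Icc (0 : ℝ) 1 from ⟨le_trans (by norm_num) h1,
      h2.trans (by norm_num)⟩) h4 h
    rcases h3 with h3 | h3
    · linarith [h3.2]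
    · linarith [h3.1]
  exact ⟨F z, hpos, fun x hx x' hx' => isMinOn_iff.1 hmin (x, x') (mk_mem_prod hx hx')⟩

theorem dist_steps {δ : ℝ} (hδ : 0 < δ) {y : ℕ → ℤ × ℤ} {M : ℕ}
    (hst : ∀ i < M, ∃ r, y (i + 1) = y i + dir r) (i n : ℕ) (h : i + n ≤ M) :
    dist ((δ : ℂ) * pt (y i)) ((δ : ℂ) * pt (y (i + n))) ≤ n * δ := by
  induction n with
  | zero => simp
  | succ n ih =>
    have h1 := ih (by omega)
    have h2 := dist_dir hδ (hst (i + n) (by omega))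
    have h3 := dist_triangle ((δ : ℂ) * pt (y i)) ((δ : ℂ) * pt (y (i + n)))
      ((δ : ℂ) * pt (y (i + (n + 1))))
    rw [dist_comm] at h2
    have e : i + (n + 1) = i + n + 1 := rfl
    rw [e] at h3 ⊢
    push_cast
    linarith

/-- The length of the staircase. -/
theorem stair_gap {δ D : ℝ} (hδ : 0 < δ) {y : ℕ → ℤ × ℤ} {M c jF jW : ℕ}
    (hst : ∀ i < M, ∃ r, y (i + 1) = y i + dir r) (hF : jF < c) (hW : c < jW) (hWM : jW ≤ M)
    (h1 : D + δ < dist ((δ : ℂ) * pt (y c)) ((δ : ℂ) * pt (y jW)))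
    (h2 : D + δ < dist ((δ : ℂ) * pt (y jF)) ((δ : ℂ) * pt (y c))) {m : ℕ}
    (hm : (m : ℝ) * δ ≤ D) : c + m + 1 ≤ jW ∧ jF + m + 1 ≤ c := by
  constructor
  · by_contra hcon
    push Not at hcon
    have h3 := dist_steps hδ hst c (jW - c) (by omega)
    rw [show c + (jW - c) = jW by omega] at h3
    have h4 : ((jW - c : ℕ) : ℝ) ≤ m + 1 := by
      have : jW - c ≤ m + 1 := by omega
      exact_mod_cast this
    nlinarith
  · by_contra hcon
    push Not at hcon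
    have h3 := dist_steps hδ hst jF (c - jF) (by omega)
    rw [show jF + (c - jF) = c by omega] at h3
    have h4 : ((c - jF : ℕ) : ℝ) ≤ m + 1 := by
      have : c - jF ≤ m + 1 := by omega
      exact_mod_cast this
    nlinarith

theorem Cut.near_arc (H : Cut Φ₀ Φ' ρ d g ℓ τ) {η μ ω : ℝ}
    (hoG : ∀ u ∈ Icc (0 : ℝ) 1, ∀ t ∈ Icc (0 : ℝ) 1, |u - t| ≤ η →
      dist (Gam Φ₀ g τ u) (Gam Φ₀ g τ t) ≤ ω) (hμ : 0 ≤ μ) (hμη : μ ≤ η) {x : ℝ}
    (hx : x ∈ Icc (0 : ℝ) 1) (h1 : 1 / 4 - μ ≤ x) (h2 : x ≤ 3 / 4 + μ) :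
    dist (Gam Φ₀ g τ x) (FC Φ₀ Real.pi) ≤ ρ + ω := by
  have h4 : |x - cl14 x| ≤ μ := by
    rw [abs_sub_comm]
    unfold cl14
    rw [min_comm]
    exact H634.Sch.abs_clamp (by norm_num) hμ h1 h2
  have h5 := hoG _ hx (cl14 x)
    ⟨by linarith [(cl14_mem x).1], by linarith [(cl14_mem x).2]⟩ (h4.trans hμη)
  have h6 := (H.arc (Aa τ (cl14 x)) (abs_Aa H.tau_pos _)).1
  rw [← H.Gam_mid (cl14_mem _), mem_ball] at h6
  have h7 := dist_triangle (Gam Φ₀ g τ x) (Gam Φ₀ g τ (cl14 x)) (FC Φ₀ Real.pi)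
  linarith

theorem Cut.near_bd (H : Cut Φ₀ Φ' ρ d g ℓ τ) {η μ ω : ℝ}
    (ho : ∀ u t : ℝ, |u - t| ≤ η → dist (FC Φ₀ u) (FC Φ₀ t) ≤ ω) (hμ : 0 ≤ μ) (hμη : μ ≤ η) {x : ℝ}
    (h1 : Real.pi - 2 * τ - μ ≤ x) (h2 : x ≤ Real.pi + 2 * τ + μ) :
    dist (FC Φ₀ x) (FC Φ₀ Real.pi) ≤ ρ + ω := by
  have hτ := H.tau_pos
  have h4 := H634.Sch.abs_clamp (a := Real.pi - 2 * τ) (b := Real.pi + 2 * τ) (x := x)
    (by linarith) hμ h1 h2
  rw [abs_sub_comm] at h4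
  have h5 := ho _ _ (h4.trans hμη)
  have h6 := (H.arc (max (Real.pi - 2 * τ) (min (Real.pi + 2 * τ) x)) (by
    rw [abs_le]
    constructor
    · linarith [le_max_left (Real.pi - 2 * τ) (min (Real.pi + 2 * τ) x)]
    · have := max_le (show Real.pi - 2 * τ ≤ Real.pi + 2 * τ by linarith)
        (min_le_left (Real.pi + 2 * τ) x)
      linarith)).2
  rw [mem_ball] at h6
  have h7 := dist_triangle (FC Φ₀ x) (FC Φ₀ (max (Real.pi - 2 * τ) (min (Real.pi + 2 * τ) x)))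
    (FC Φ₀ Real.pi)
  linarith

/-- The polygon `p` is cut along the path `y` from `p a` to `p b`; the new target is `y c`. -/
structure GOut (Φ₀ Φ' : (ℝ × ℝ) ≃ₜ (ℝ × ℝ)) (ρ r' : ℝ) (d : Fin 4) (ε δ : ℝ) {N : ℕ} (k : ℕ)
    (p : ZMod N → ℤ × ℤ) (S : Finset (ℤ × ℤ)) (a b M c : ℕ) (y : ℕ → ℤ × ℤ)
    (S' S'' : Finset (ℤ × ℤ)) : Prop where
  cut : CutDat p S a b M y
  ak : a < k
  kb : k < b
  c0 : 0 < c
  cM : c < M
  encL : Encloses (PL p a b M y) S'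
  encR : Encloses (fun i : ZMod (nR a b M) => cutR p a b M y i.val) S''
  disj : Disjoint S' S''
  un : S = S' ∪ S''
  close : Close Φ' ε δ (a + c) (PL p a b M y) S'
  stair : ∀ m : ℕ, (m : ℝ) * δ ≤ r' →
    PL p a b M y (((a + c : ℕ) : ZMod (nL N a b M)) + m + 1) =
      PL p a b M y (((a + c : ℕ) : ZMod (nL N a b M)) + m) + (if Even m then dir d else dir (d + 1)) ∧
    PL p a b M y (((a + c : ℕ) : ZMod (nL N a b M)) - m) =
      PL p a b M y (((a + c : ℕ) : ZMod (nL N a b M)) - m - 1) +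
        (if Even m then dir d else dir (d + 1))
  nearY : ∀ i ≤ M, dist ((δ : ℂ) * pt (y i)) (FC Φ₀ Real.pi) ≤ 5 * ρ / 4
  nearP : ∀ j : ℕ, a ≤ j → j ≤ b → dist ((δ : ℂ) * pt (p (j : ZMod N))) (FC Φ₀ Real.pi) ≤ 5 * ρ / 4

/-- **The cut polygon.** -/
theorem glue_one (H : Cut Φ₀ Φ' ρ d g ℓ τ) : ∃ r' > 0, ∀ ε > 0, ∃ ε₁ > 0,
    ∀ (δ : ℝ) (N k : ℕ) (p : ZMod N → ℤ × ℤ) (S : Finset (ℤ × ℤ)), Close Φ₀ ε₁ δ k p S →
    ∃ (a b M c : ℕ) (y : ℕ → ℤ × ℤ) (S' S'' : Finset (ℤ × ℤ)),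
      GOut Φ₀ Φ' ρ r' d ε δ k p S a b M c y S' S'' := by
  obtain ⟨rw, hrw, hwalk⟩ := s_walk (Gam Φ₀ g τ) (3 / 8) (1 / 2) (5 / 8) (fun t => ℓ (Aa τ t)) d
    H.cont_Gam.continuousOn H.inj_Gam (by norm_num) (by norm_num) (by norm_num) (by norm_num)
    H.l_Aa fun t ht => H.Gam_line ht
  obtain ⟨D, hD, hfar⟩ := H.far
  refine ⟨min rw (D / 8), by positivity, fun ε hε => ?_⟩
  have hρ : 0 < ρ := by
    have h1 := H.tau_pos
    have h2 := H.tau_lt.trans_le (min_le_left _ _)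
    linarith
  obtain ⟨η₀, hη₀, ho⟩ := exists_oscF Φ₀ (show 0 < ρ / 8 by linarith)
  obtain ⟨η₂, hη₂, hoG⟩ := H.exists_osc (show 0 < ρ / 8 by linarith)
  obtain ⟨μ₁, hμ₁, hprm⟩ := param_cut H hε
  obtain ⟨μ, hμ0, n1, n2, n3, n4⟩ : ∃ μ : ℝ, 0 < μ ∧ μ ≤ μ₁ ∧ μ ≤ 1 / 16 ∧ μ ≤ η₀ ∧ μ ≤ η₂ :=
    ⟨min μ₁ (min (1 / 16) (min η₀ η₂)), by positivity, min_le_left _ _,
      (min_le_right _ _).trans (min_le_left _ _),
      (min_le_right _ _).trans ((min_le_right _ _).trans (min_le_left _ _)),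
      (min_le_right _ _).trans ((min_le_right _ _).trans (min_le_right _ _))⟩
  obtain ⟨ε₂, hε₂, hfind⟩ := find_cut H hμ0
  obtain ⟨ε₃, hε₃0, l1, l2, l3, l4⟩ : ∃ ε₃ : ℝ, 0 < ε₃ ∧ ε₃ ≤ ε₂ ∧ ε₃ ≤ μ ∧ ε₃ ≤ ρ / 8 ∧
      ε₃ ≤ D / 16 :=
    ⟨min ε₂ (min μ (min (ρ / 8) (D / 16))), by positivity, min_le_left _ _,
      (min_le_right _ _).trans (min_le_left _ _),
      (min_le_right _ _).trans ((min_le_right _ _).trans (min_le_left _ _)),
      (min_le_right _ _).trans ((min_le_right _ _).trans (min_le_right _ _))⟩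
  obtain ⟨δ₀, hδ₀, hw⟩ := hwalk ε₃ hε₃0
  refine ⟨min δ₀ (min ε₃ ε), by positivity, fun δ N k p S hC => ?_⟩
  have hC0 := hC.mono ((min_le_right δ₀ _).trans ((min_le_left ε₃ ε).trans l1))
  obtain ⟨⟨hδ, hk0, hkN, hp, hS⟩, hδε, s, hs, hs0, hsk, hsN, hcl⟩ := hC
  have q1 : δ < δ₀ := hδε.trans_le (min_le_left _ _)
  have q2 : δ < ε₃ := hδε.trans_le ((min_le_right _ _).trans (min_le_left _ _))
  have q3 : δ < ε := hδε.trans_le ((min_le_right _ _).trans (min_le_right _ _))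
  have hcl3 : ∀ i < N, ∀ t ∈ Icc (s i) (s (i + 1)),
      dist ((δ : ℂ) * pt (p i)) (FC Φ₀ t) < ε₃ := fun i hi t ht =>
    (hcl i hi t ht).trans_le ((min_le_right _ _).trans (min_le_left _ _))
  clear hcl hδε
  obtain ⟨M, c, y, sy, w1, w2, w3, w4, w5, w6, w7, w8, w9, w10⟩ := hw δ hδ q1
  clear hw hwalk
  have : NeZero N := ⟨by omega⟩
  obtain ⟨jF, jW, iF, iW, g1, g2, g3, g4, g5, g6, g7, g8, g9, g10, K⟩ := hfind δ N k p S
    hC0 s hs hs0 hsk hsN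
    (fun i hi t ht => (hcl3 i hi t ht).trans_le l1) M c y sy w1 w2 w3 w4 w5 w6 w7
    (w8.trans_le l1) fun i hi t ht => ⟨((w9 i hi t ht).1).trans_le l1,
      ((w9 i hi t ht).2).trans_le l1⟩
  clear hfind
  have hsy1 : ∀ j ≤ M, sy j ∈ Icc (0 : ℝ) 1 := fun j hj =>
    ⟨by rw [← w6]; exact w5 (Nat.zero_le j), by rw [← w7]; exact w5 hj⟩
  have hyG : ∀ j ≤ M, dist ((δ : ℂ) * pt (y j)) (Gam Φ₀ g τ (sy j)) < ε₃ := by
    intro j hj
    rcases hj.lt_or_eq with h | rfl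
    · exact (w9 j h (sy j) ⟨le_rfl, w5 (Nat.le_succ j)⟩).1
    · obtain ⟨i, rfl⟩ : ∃ i, j = i + 1 := ⟨j - 1, by omega⟩
      exact (w9 i (by omega) (sy (i + 1)) ⟨w5 (Nat.le_succ i), le_rfl⟩).2
  obtain ⟨s', v1, v2, v3, v4, v5⟩ := hprm δ N p S iF iW jF c jW M y s sy hs hs0 hsN
    (fun i hi t ht => (hcl3 i hi t ht).trans_le (l2.trans n1)) g3 g4 g5 w5 w6.ge w7.le
    (fun i hi t ht => ((w9 i hi t ht).1).trans_le (l2.trans n1)) (g7.le.trans n1) (g8.le.trans n1)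
    (g9.le.trans n1) (g10.le.trans n1) (w8.le.trans (l2.trans n1)) K
  clear hprm w9
  have hbN := K.hb
  have haP := K.ha
  have hnL : 0 < nL N iF iW (jW - jF) := by unfold nL; omega
  have : NeZero (nL N iF iW (jW - jF)) := ⟨hnL.ne'⟩
  have : NeZero (nR iF iW (jW - jF)) := ⟨by have := K.hab; unfold nR; omega⟩
  obtain ⟨S', S'', hS', hS'', hdj, hun⟩ := K.cut_polygon hp hS
  -- the staircase is inside
  have hgap : ∀ j ≤ M, (sy j ∈ Icc (0 : ℝ) (3 / 8) ∪ Icc (5 / 8 : ℝ) 1) →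
      D / 8 + δ < dist ((δ : ℂ) * pt (y c)) ((δ : ℂ) * pt (y j)) := by
    intro j hj hsj
    have h1 := hyG j hj
    have h2 := hyG c (by omega)
    have h3 := hfar (sy c) (by
      have := abs_lt.1 w8
      exact ⟨by linarith, by linarith⟩) (sy j) hsj
    have h4 := dist_triangle4 (Gam Φ₀ g τ (sy c)) ((δ : ℂ) * pt (y c)) ((δ : ℂ) * pt (y j))
      (Gam Φ₀ g τ (sy j))
    rw [dist_comm (Gam Φ₀ g τ (sy c)) ((δ : ℂ) * pt (y c))] at h4
    linarith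
  have e9 := abs_lt.1 g9
  have e10 := abs_lt.1 g10
  have hjW := hgap jW g5 (Or.inr ⟨by linarith [e10.1], (hsy1 jW g5).2⟩)
  have hjF := hgap jF (by omega) (Or.inl ⟨(hsy1 jF (by omega)).1, by linarith [e9.2]⟩)
  rw [dist_comm] at hjF
  clear hgap hfar
  refine ⟨iF, iW, jW - jF, c - jF, fun j => y (jF + j), S', S'',
    { cut := K, ak := g1, kb := g2, c0 := by omega, cM := by omega, encL := hS', encR := hS'',
      disj := hdj, un := hun, close := ?_, stair := ?_, nearY := ?_, nearP := ?_ }⟩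
  · refine ⟨⟨hδ, by omega, by unfold nL; omega, K.polyL hp, hS'⟩, q3, s', v1, v2, v3, v4,
      fun i hi t ht => ?_⟩
    rw [PL_nat K hi.le]
    exact v5 i hi t ht
  · intro m hm
    obtain ⟨h1, h2⟩ := stair_gap hδ w4 g3 g4 g5 hjW hjF (hm.trans (min_le_right _ _))
    obtain ⟨-, -, h3, h4⟩ := w10 m (hm.trans (min_le_left _ _))
    refine PL_stair K (by omega) (by omega) ⟨?_, ?_⟩
    · show y (jF + (c - jF + m + 1)) = y (jF + (c - jF + m)) + _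
      rw [show jF + (c - jF + m + 1) = c + m + 1 by omega,
        show jF + (c - jF + m) = c + m by omega]
      exact h3
    · show y (jF + (c - jF - m)) = y (jF + (c - jF - m - 1)) + _
      rw [show jF + (c - jF - m) = c - m by omega,
        show jF + (c - jF - m - 1) = c - m - 1 by omega]
      exact h4
  · intro i hi
    have h1 := hyG (jF + i) (by omega)
    have h2 := w5 (show jF ≤ jF + i by omega)
    have h3 := w5 (show jF + i ≤ jW by omega)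
    have h4 := H.near_arc hoG hμ0.le n4 (hsy1 (jF + i) (by omega)) (by linarith) (by linarith)
    have h7 := dist_triangle ((δ : ℂ) * pt (y (jF + i))) (Gam Φ₀ g τ (sy (jF + i)))
      (FC Φ₀ Real.pi)
    show dist ((δ : ℂ) * pt (y (jF + i))) (FC Φ₀ Real.pi) ≤ 5 * ρ / 4
    linarith
  · intro j hj hj'
    have h1 := hcl3 j (by omega) (s j) ⟨le_rfl, hs (Nat.le_succ j)⟩
    have h2 := hs hj
    have h3 := hs hj'
    have h4 := H.near_bd ho hμ0.le n3 (x := s j) (by linarith [(abs_lt.1 g7).1])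
      (by linarith [(abs_lt.1 g8).2])
    have h7 := dist_triangle ((δ : ℂ) * pt (p (j : ZMod N))) (FC Φ₀ (s j)) (FC Φ₀ Real.pi)
    linarith

end Vale.Agent.P167.N.ST2
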