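import Vale.Agent.P167.N.ST2.XcEv
import Vale.Agent.P167.N.ST2.Glue
import Vale.Agent.P167.H166.Clu

/-!
# P167, `0 < q < 1`, block ST2: the statements of LAW in crosscut form

The polygon `p` (mark `k`) is cut along `V = y` (parts `S'`, `S''`, the target is in `S''`) and along `W = yw`
(parts `T'`, `T''`, the start is in `T'`). The quad between `V` and `W` has the free squares `Fq p k S S'' T'`.

* `S_bar` : the quad is not crossed from `V` to `W`, for all conditions outside of the quad;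
* `S_lawX` : the effect of the cut along `V` on the interface until its visit of `W`.
-/

set_option autoImplicit false

namespace Vale.Agent.P167.N.ST2

open Set Metric
open Vale.Agent.P167.FK
open Vale.Agent.P167.E6
open Vale.Agent.P145.FB (PStep)
open Vale.Agent.P167.H192 (ed)
open Vale.Agent.P167.H718 (Dq etaQ)

/-- The free squares of the quad between the crosscuts. -/
noncomputable def Fq {N : ℕ} (p : ZMod N → ℤ × ℤ) (k : ℕ) (S S'' T' : Finset (ℤ × ℤ)) :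
    Finset (ℤ × ℤ) :=
  (Dq S p k).filter fun v => ed v ∉ edges S'' ∧ ed v ∉ edges T'

/-- An open path of squares of `F` from the part `S''` to the part `T'`. -/
def XQ (F S'' T' : Finset (ℤ × ℤ)) : Set Cfg :=
  {ω | ∃ s t : ℤ × ℤ, Even (s.1 + s.2) ∧ (∃ v, ed v ∈ edges S'' ∧ FKA.Cor v s) ∧
    (∃ v, ed v ∈ edges T' ∧ FKA.Cor v t) ∧
    Relation.ReflTransGen (PStep {v | v ∈ F ∧ ω v = true}) s t}

/-- **(L1)** The quad is not crossed. -/
def S_bar (Q : ℝ) : Prop := ∃ α C : ℝ, 0 < α ∧ 0 < C ∧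
  ∀ (N k : ℕ) [NeZero N] (p : ZMod N → ℤ × ℤ) (S : Finset (ℤ × ℤ)) (a b M : ℕ) (y : ℕ → ℤ × ℤ)
    (S' S'' : Finset (ℤ × ℤ)) (aw bw Mw : ℕ) (yw : ℕ → ℤ × ℤ) (T' T'' : Finset (ℤ × ℤ)),
    CutP p S a b M y S' S'' → CutP p S aw bw Mw yw T' T'' → a < k → k < b →
    ∀ (x : ℤ × ℤ) (r R : ℤ), 1 ≤ r → r ≤ R → (∀ v, ed v ∈ edges S'' → nm (v - x) ≤ r) →
      (∀ v, ed v ∈ edges T' → R < nm (v - x)) →
      ∀ ζ : Cfg, Good ζ → Pr Q (Fq p k S S'' T') ζ (XQ (Fq p k S S'' T') S'' T') ≤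
        C * ((r : ℝ) / R) ^ α

/-- **(L2)** The law of the interface until its visit of `W`. -/
def S_lawX (Q : ℝ) : Prop :=
  ∀ (N k : ℕ) [NeZero N] (p : ZMod N → ℤ × ℤ) (S : Finset (ℤ × ℤ)) (a b M c : ℕ) (y : ℕ → ℤ × ℤ)
    (S' S'' : Finset (ℤ × ℤ)) (aw bw Mw : ℕ) (yw : ℕ → ℤ × ℤ) (T' T'' : Finset (ℤ × ℤ)),
    CutP p S a b M y S' S'' → CutP p S aw bw Mw yw T' T'' → a < k → k < b → 0 < c → c < M →
    Disjoint (E2.verts S'') (E2.verts T') →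
    ∀ (δ r : ℝ) (z : ℂ), 0 ≤ δ → (∀ i ≤ Mw, dist ((δ : ℂ) * pt (yw i)) z + δ ≤ r) →
    ∀ e : ℝ, (∀ ζ : Cfg, Good ζ → Pr Q (Fq p k S S'' T') ζ (XQ (Fq p k S S'' T') S'' T') ≤ e) →
    ∀ (m : ℕ) (B C : Fin m → Set ℂ),
      |Pr Q (Dq S p k) (etaQ p k) (EvB δ (H192.me (E2.cs p)) z r B C) -
        Pr Q (Dq S' (PL p a b M y) (a + c)) (etaQ (PL p a b M y) (a + c))
          (EvB δ (H192.me (E2.cs p)) z r B C)| ≤ 2 * e

end Vale.Agent.P167.N.ST2
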