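import Vale.Agent.P167.E6.Defs

/-!
# P167, block ST2: lattice walks which follow a curve, and their loop erasure

* `Fo Γ h e α β L x u`: the walk `x 0, …, x L` of the lattice of mesh `h` follows the curve `Γ` on
  `[α, β]` with the error `e` and the parameters `u 0 = α, …, u (L + 1) = β`;
* `Fo.cat`: concatenation;
* `lst`, `li`, `lm`: the last visit, the times and the length of the loop erasure;
* `Fo.erase`: the loop erasure follows the curve if the curve is injective;
* `window`: the loop erasure keeps a part which is visited once.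
-/

set_option autoImplicit false

namespace Vale.Agent.P167.N.ST2

open Set
open Vale.Agent.P167.E6 (dir pt)

/-! ### Following a curve -/

/-- The walk `x 0, …, x L` follows the curve on `[α, β]`. -/
structure Fo (Γ : ℝ → ℂ) (h e α β : ℝ) (L : ℕ) (x : ℕ → ℤ × ℤ) (u : ℕ → ℝ) : Prop where
  adj : ∀ i < L, x (i + 1) = x i ∨ ∃ r, x (i + 1) = x i + dir r
  mono : ∀ i ≤ L, u i ≤ u (i + 1)
  u0 : u 0 = α
  uL : u (L + 1) = β
  near : ∀ i ≤ L, ∀ t ∈ Icc (u i) (u (i + 1)), dist ((h : ℂ) * pt (x i)) (Γ t) ≤ e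

/-- Concatenation of two sequences. -/
def cat {A : Type*} (x : ℕ → A) (L : ℕ) (x' : ℕ → A) (i : ℕ) : A := if i ≤ L then x i else x' (i - L)

theorem cat_le {A : Type*} {x : ℕ → A} {L : ℕ} {x' : ℕ → A} {i : ℕ} (h : i ≤ L) :
    cat x L x' i = x i := if_pos h

theorem cat_gt {A : Type*} {x : ℕ → A} {L : ℕ} {x' : ℕ → A} {i : ℕ} (h : 0 < i) :
    cat x L x' (L + i) = x' i := by
  rw [cat, if_neg (by omega), Nat.add_sub_cancel_left]

theorem cat_ge {A : Type*} {x : ℕ → A} {L : ℕ} {x' : ℕ → A} (hx : x L = x' 0) (i : ℕ) :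
    cat x L x' (L + i) = x' i := by
  rcases Nat.eq_zero_or_pos i with rfl | h
  · rw [cat_le (by omega), Nat.add_zero, hx]
  · exact cat_gt h

section fo

variable {Γ : ℝ → ℂ} {h e α β γ : ℝ} {L L' : ℕ} {x x' : ℕ → ℤ × ℤ} {u u' : ℕ → ℝ}

theorem Fo.mono_e (H : Fo Γ h e α β L x u) {e' : ℝ} (he : e ≤ e') : Fo Γ h e' α β L x u :=
  ⟨H.adj, H.mono, H.u0, H.uL, fun i hi t ht => (H.near i hi t ht).trans he⟩

theorem Fo.monot (H : Fo Γ h e α β L x u) {i j : ℕ} (hij : i ≤ j) (hj : j ≤ L + 1) : u i ≤ u j := by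
  induction j, hij using Nat.le_induction with
  | base => exact le_rfl
  | succ j hij ih => exact (ih (by omega)).trans (H.mono j (by omega))

theorem Fo.low (H : Fo Γ h e α β L x u) {i : ℕ} (hi : i ≤ L + 1) : α ≤ u i := by
  rw [← H.u0]
  exact H.monot (Nat.zero_le _) hi

theorem Fo.high (H : Fo Γ h e α β L x u) {i : ℕ} (hi : i ≤ L + 1) : u i ≤ β := by
  rw [← H.uL]
  exact H.monot hi le_rfl

theorem Fo.nearu (H : Fo Γ h e α β L x u) {i : ℕ} (hi : i ≤ L) :
    dist ((h : ℂ) * pt (x i)) (Γ (u i)) ≤ e := H.near i hi _ ⟨le_rfl, H.mono i hi⟩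

theorem Fo.nearu' (H : Fo Γ h e α β L x u) {i : ℕ} (hi : i ≤ L) :
    dist ((h : ℂ) * pt (x i)) (Γ (u (i + 1))) ≤ e := H.near i hi _ ⟨H.mono i hi, le_rfl⟩

/-- **Concatenation.** -/
theorem Fo.cat (H : Fo Γ h e α β L x u) (H' : Fo Γ h e β γ L' x' u') (hx : x L = x' 0) :
    Fo Γ h e α γ (L + L') (cat x L x') (cat u L u') := by
  have hL : ∀ i, 0 < i → ST2.cat u L u' (L + i) = u' i := fun i hi => cat_gt hi
  refine ⟨fun i hi => ?_, fun i hi => ?_, ?_, ?_, fun i hi t ht => ?_⟩
  · rcases lt_or_ge i L with h1 | h1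
    · rw [cat_le h1.le, cat_le (by omega)]
      exact H.adj i h1
    · obtain ⟨j, rfl⟩ := Nat.exists_eq_add_of_le h1
      rw [cat_ge hx, add_assoc, cat_ge hx]
      exact H'.adj j (by omega)
  · rcases lt_trichotomy i L with h1 | rfl | h1
    · rw [cat_le h1.le, cat_le (by omega)]
      exact H.mono i h1.le
    · rw [cat_le le_rfl, hL 1 one_pos]
      exact (H.high (Nat.le_succ i)).trans (H'.low (by omega))
    · obtain ⟨j, rfl⟩ := Nat.exists_eq_add_of_le h1.le
      rw [hL j (by omega), add_assoc, hL (j + 1) (by omega)]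
      exact H'.mono j (by omega)
  · rw [cat_le (Nat.zero_le _)]
    exact H.u0
  · rw [add_assoc, hL _ (by omega)]
    exact H'.uL
  · rcases lt_trichotomy i L with h1 | rfl | h1
    · rw [cat_le h1.le, cat_le (by omega)] at ht
      rw [cat_le h1.le]
      exact H.near i h1.le t ht
    · rw [cat_le le_rfl, hL 1 one_pos] at ht
      rcases le_total t β with h2 | h2
      · rw [cat_le le_rfl]
        exact H.near i le_rfl t ⟨ht.1, by rw [H.uL]; exact h2⟩
      · rw [cat_le le_rfl, hx]
        exact H'.near 0 (Nat.zero_le _) t ⟨by rw [H'.u0]; exact h2, ht.2⟩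
    · obtain ⟨j, rfl⟩ := Nat.exists_eq_add_of_le h1.le
      rw [hL j (by omega), add_assoc, hL (j + 1) (by omega)] at ht
      rw [cat_ge hx]
      exact H'.near j (by omega) t ht

end fo

/-! ### The loop erasure -/

section le

variable {A : Type*} (x : ℕ → A) (L : ℕ)

open Classical in
/-- The last visit (up to the time `L`) of the point which is visited at the time `i`. -/
noncomputable def lst (i : ℕ) : ℕ := Nat.findGreatest (fun j => x j = x i) L

/-- The times of the loop erasure. -/
noncomputable def li : ℕ → ℕ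
  | 0 => 0
  | j + 1 => lst x L (li j) + 1

variable {x L}

theorem lst_le (i : ℕ) : lst x L i ≤ L := by
  classical
  exact Nat.findGreatest_le L

theorem le_lst {i : ℕ} (hi : i ≤ L) : i ≤ lst x L i := by
  classical
  exact Nat.le_findGreatest (P := fun j => x j = x i) hi rfl

theorem x_lst {i : ℕ} (hi : i ≤ L) : x (lst x L i) = x i := by
  classical
  exact Nat.findGreatest_spec (P := fun j => x j = x i) hi rfl

theorem lst_max {i j : ℕ} (hj : j ≤ L) (h : x j = x i) : j ≤ lst x L i := by
  classical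
  exact Nat.le_findGreatest (P := fun j => x j = x i) hj h

theorem exists_lm : ∃ j, lst x L (li x L j) = L := by
  by_contra hc
  push Not at hc
  have h1 : ∀ j, li x L (j + 1) ≤ L := fun j => by
    show lst x L (li x L j) + 1 ≤ L
    have := lst_le (x := x) (L := L) (li x L j)
    have := hc j
    omega
  have h2 : ∀ j, li x L j ≤ L := fun j => by
    cases j with
    | zero => exact Nat.zero_le _
    | succ j => exact h1 j
  have h3 : ∀ j, j ≤ li x L j := by
    intro j
    induction j with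
    | zero => exact Nat.zero_le _
    | succ j ih =>
      show j + 1 ≤ lst x L (li x L j) + 1
      have := le_lst (x := x) (h2 j)
      omega
  have := h3 (L + 1)
  have := h2 (L + 1)
  omega

variable (x L) in
open Classical in
/-- The length of the loop erasure. -/
noncomputable def lm : ℕ := Nat.find (exists_lm (x := x) (L := L))

theorem lst_lm : lst x L (li x L (lm x L)) = L := by
  classical
  exact Nat.find_spec (exists_lm (x := x) (L := L))

theorem lst_lt {j : ℕ} (hj : j < lm x L) : lst x L (li x L j) < L := by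
  classical
  have h1 : lst x L (li x L j) ≠ L := Nat.find_min (exists_lm (x := x) (L := L)) hj
  have := lst_le (x := x) (L := L) (li x L j)
  omega

theorem li_le {j : ℕ} (hj : j ≤ lm x L) : li x L j ≤ L := by
  cases j with
  | zero => exact Nat.zero_le _
  | succ j => exact lst_lt (by omega)

theorem li_succ (j : ℕ) : li x L (j + 1) = lst x L (li x L j) + 1 := rfl

theorem li_lt_succ {j : ℕ} (hj : j ≤ lm x L) : li x L j < li x L (j + 1) := by
  rw [li_succ]
  have := le_lst (x := x) (li_le hj)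
  omega

theorem li_mono {i j : ℕ} (hij : i ≤ j) (hj : j ≤ lm x L + 1) : li x L i ≤ li x L j := by
  induction j, hij using Nat.le_induction with
  | base => exact le_rfl
  | succ j hij ih => exact (ih (by omega)).trans (li_lt_succ (by omega)).le

theorem li_strict {i j : ℕ} (hij : i < j) (hj : j ≤ lm x L + 1) : li x L i < li x L j :=
  (li_lt_succ (by omega)).trans_le (li_mono hij hj)

theorem li_end : li x L (lm x L + 1) = L + 1 := by rw [li_succ, lst_lm]

theorem li_inj {i j : ℕ} (hi : i ≤ lm x L) (hj : j ≤ lm x L) (h : x (li x L i) = x (li x L j)) :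
    i = j := by
  rcases lt_trichotomy i j with h1 | h1 | h1
  · exfalso
    have h2 := lst_max (li_le hj) h.symm
    have h3 := li_mono (x := x) (L := L) (show i + 1 ≤ j from h1) (by omega)
    rw [li_succ] at h3
    omega
  · exact h1
  · exfalso
    have h2 := lst_max (li_le hi) h
    have h3 := li_mono (x := x) (L := L) (show j + 1 ≤ i from h1) (by omega)
    rw [li_succ] at h3
    omega

theorem li_last : x (li x L (lm x L)) = x L := by
  rw [← x_lst (x := x) (L := L) (li_le le_rfl), lst_lm]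

/-- A part of the walk which is visited once and is not passed by a loop is kept. -/
theorem window {a b : ℕ} (hab : a ≤ b) (hb : b ≤ L)
    (h1 : ∀ i, a ≤ i → i ≤ b → ∀ j ≤ L, x j = x i → j = i)
    (h2 : ∀ i < a, ∀ j ≤ L, b < j → x i ≠ x j) :
    ∃ j₀, j₀ + (b - a) ≤ lm x L ∧ ∀ m ≤ b - a, li x L (j₀ + m) = a + m := by
  classical
  set j₀ := Nat.findGreatest (fun j => li x L j ≤ a) (lm x L) with hj₀
  have e1 : li x L j₀ ≤ a :=
    Nat.findGreatest_spec (P := fun j => li x L j ≤ a) (Nat.zero_le _) (Nat.zero_le _)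
  have e2 : j₀ ≤ lm x L := Nat.findGreatest_le _
  have e3 : a ≤ lst x L (li x L j₀) := by
    by_contra hc
    push Not at hc
    have h3 : j₀ < lm x L := by
      rcases lt_or_eq_of_le e2 with h | h
      · exact h
      · rw [h, lst_lm] at hc
        omega
    have h4 : j₀ + 1 ≤ j₀ := Nat.le_findGreatest (P := fun j => li x L j ≤ a) h3 (by
      show li x L (j₀ + 1) ≤ a
      rw [li_succ]
      exact hc)
    omega
  have e4 : li x L j₀ = a := by
    rcases lt_or_eq_of_le e1 with h3 | h3
    · exfalso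
      have h4 := x_lst (x := x) (li_le e2)
      rcases le_or_gt (lst x L (li x L j₀)) b with h5 | h5
      · have := h1 _ e3 h5 _ (li_le e2) h4.symm
        omega
      · exact h2 _ h3 _ (lst_le _) h5 h4.symm
    · exact h3
  have key : ∀ m ≤ b - a, j₀ + m ≤ lm x L ∧ li x L (j₀ + m) = a + m := by
    intro m
    induction m with
    | zero => intro _; exact ⟨e2, e4⟩
    | succ m ih =>
      intro hm
      obtain ⟨h3, h4⟩ := ih (by omega)
      have h5 : lst x L (a + m) = a + m :=
        h1 _ (by omega) (by omega) _ (lst_le _) (x_lst (by omega))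
      have h6 : j₀ + m < lm x L := by
        rcases lt_or_eq_of_le h3 with h | h
        · exact h
        · exfalso
          have h7 := lst_lm (x := x) (L := L)
          rw [← h, h4, h5] at h7
          omega
      refine ⟨h6, ?_⟩
      rw [← add_assoc, li_succ, h4, h5]
      ring
  exact ⟨j₀, (key _ le_rfl).1, fun m hm => (key m hm).2⟩

end le

/-! ### The loop erasure of a walk which follows an injective curve -/

section erase

variable {Γ : ℝ → ℂ} {h e : ℝ} {L : ℕ} {x : ℕ → ℤ × ℤ} {u : ℕ → ℝ}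

/-- The parameters of the loop erasure. -/
noncomputable def lu (x : ℕ → ℤ × ℤ) (L : ℕ) (u : ℕ → ℝ) (j : ℕ) : ℝ :=
  u (li x L (min j (lm x L + 1)))

theorem lu_le {j : ℕ} (hj : j ≤ lm x L + 1) : lu x L u j = u (li x L j) := by
  rw [lu, min_eq_left hj]

theorem Fo.lu_mono {α β : ℝ} (H : Fo Γ h e α β L x u) : Monotone (lu x L u) := fun i j hij => by
  refine H.monot (li_mono (min_le_min_right _ hij) (min_le_right _ _)) ?_
  have h1 := li_mono (x := x) (L := L) (min_le_right j (lm x L + 1)) le_rfl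
  rwa [li_end] at h1

theorem Fo.lu_zero {α β : ℝ} (H : Fo Γ h e α β L x u) : lu x L u 0 = α := by
  rw [lu_le (Nat.zero_le _)]
  exact H.u0

theorem Fo.lu_end {α β : ℝ} (H : Fo Γ h e α β L x u) : lu x L u (lm x L + 1) = β := by
  rw [lu_le le_rfl, li_end]
  exact H.uL

theorem Fo.l_adj {α β : ℝ} (H : Fo Γ h e α β L x u) {i : ℕ} (hi : i < lm x L) :
    ∃ r, x (li x L (i + 1)) = x (li x L i) + dir r := by
  have h1 := lst_lt hi
  have h2 : x (li x L (i + 1)) ≠ x (li x L i) := fun hc => by
    have := li_inj (by omega) (by omega) hc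
    omega
  have h3 := H.adj _ h1
  rw [x_lst (x := x) (li_le hi.le), ← li_succ] at h3
  exact h3.resolve_left h2

/-- **The loop erasure follows the curve.** -/
theorem Fo.erase {τ η : ℝ} (H : Fo Γ h e 0 1 L x u)
    (hsep : ∀ s ∈ Icc (0 : ℝ) 1, ∀ t ∈ Icc (0 : ℝ) 1, dist (Γ s) (Γ t) ≤ 2 * e → |s - t| ≤ τ)
    (hosc : ∀ s ∈ Icc (0 : ℝ) 1, ∀ t ∈ Icc (0 : ℝ) 1, |s - t| ≤ τ → dist (Γ s) (Γ t) ≤ η) :
    ∀ i ≤ lm x L, ∀ t ∈ Icc (lu x L u i) (lu x L u (i + 1)),
      dist ((h : ℂ) * pt (x (li x L i))) (Γ t) ≤ e + η := by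
  intro i hi t ht
  rw [lu_le (by omega), lu_le (by omega), li_succ] at ht
  have h0 := li_le hi
  have h1 := lst_le (x := x) (L := L) (li x L i)
  have h2 := H.nearu h0
  have h3 := H.nearu' h1
  rw [x_lst (x := x) h0] at h3
  have h4 : u (li x L i) ∈ Icc (0 : ℝ) 1 := ⟨H.low (by omega), H.high (by omega)⟩
  have h5 : u (lst x L (li x L i) + 1) ∈ Icc (0 : ℝ) 1 := ⟨H.low (by omega), H.high (by omega)⟩
  have h6 : dist (Γ (u (li x L i))) (Γ (u (lst x L (li x L i) + 1))) ≤ 2 * e := by
    have h7 := dist_triangle_left (Γ (u (li x L i))) (Γ (u (lst x L (li x L i) + 1)))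
      ((h : ℂ) * pt (x (li x L i)))
    linarith
  have h6' := hsep _ h4 _ h5 h6
  have h6'' := (abs_nonneg _).trans h6'
  have h7 := abs_le.1 h6'
  have h8 : |u (li x L i) - t| ≤ τ := abs_le.2 ⟨by linarith [h7.1, ht.2], by linarith [ht.1]⟩
  have h9 := hosc _ h4 t ⟨h4.1.trans ht.1, ht.2.trans h5.2⟩ h8
  have h10 := dist_triangle ((h : ℂ) * pt (x (li x L i))) (Γ (u (li x L i))) (Γ t)
  linarith

end erase

end Vale.Agent.P167.N.ST2
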