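import Vale.Agent.P167.N.ST2.PhiD

/-!
# P167, general `q`, `N`, Stage II, block ST2-PHI: the theorem
-/

set_option autoImplicit false

namespace Vale.Agent.P167.N.ST2

open Set Metric Topology Filter
open Vale.Agent.P167.E6 (Approx dir pt)
open Vale.Agent.P167.H634.Apx (Pos)
open Vale.Agent.P167.H397.Q (IncOn)
open Vale.Agent.P153.R2.R1 (Conf DC FC homC FC_eq DC_eq isOpen_DC)

/-- One of the four diagonal directions has a positive component in a given direction. -/
theorem exists_dir {c : ℂ} (hc : c ≠ 0) : ∃ d, 0 < (ud d / c).im := by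
  have h0 : ud 0 = ⟨1, 1⟩ := by simp [ud, pt, dir]
  have h1 : ud 1 = ⟨-1, 1⟩ := by simp [ud, pt, dir]
  have h2 : ud 2 = ⟨-1, -1⟩ := by simp [ud, pt, dir]
  have h3 : ud 3 = ⟨1, -1⟩ := by simp [ud, pt, dir]
  have hv : c⁻¹ ≠ 0 := inv_ne_zero hc
  set v := c⁻¹ with hvd
  have hv' : v.re ≠ 0 ∨ v.im ≠ 0 := by
    by_contra hcon
    push Not at hcon
    exact hv (Complex.ext hcon.1 hcon.2)
  simp only [div_eq_mul_inv, ← hvd]
  by_contra hcon
  push Not at hcon
  have g0 := hcon 0
  have g1 := hcon 1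
  have g2 := hcon 2
  have g3 := hcon 3
  rw [h0, Complex.mul_im] at g0
  rw [h1, Complex.mul_im] at g1
  rw [h2, Complex.mul_im] at g2
  rw [h3, Complex.mul_im] at g3
  simp only at g0 g1 g2 g3
  have e1 : v.re = 0 := by linarith
  have e2 : v.im = 0 := by linarith
  rcases hv' with h | h
  · exact h e1
  · exact h e2

/-- **(ST2-PHI), second part.** -/
theorem exists_cut {Φ₀ : (ℝ × ℝ) ≃ₜ (ℝ × ℝ)} (hd : DifferentiableOn ℂ (homC Φ₀) (ball 0 1))
    {ρ : ℝ} (hρ : 0 < ρ) : ∃ (Φ' : (ℝ × ℝ) ≃ₜ (ℝ × ℝ)) (d : Fin 4) (g ℓ : ℝ → ℝ) (τ : ℝ),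
      Cut Φ₀ Φ' ρ d g ℓ τ := by
  have hpi := Real.pi_gt_three
  set f : ℂ → ℂ := ⇑(homC Φ₀) with hf
  have hfc : Continuous f := (homC Φ₀).continuous
  have hfi : Function.Injective f := (homC Φ₀).injective
  have hC : Conf f (DC Φ₀) := ⟨hd, hfi.injOn, (DC_eq Φ₀).symm⟩
  obtain ⟨δ₁, hδ₁, hu⟩ := Metric.uniformContinuousOn_iff.1
    ((isCompact_closedBall (0 : ℂ) 1).uniformContinuousOn_of_continuous hfc.continuousOn) ρ hρ
  have hη : 0 < min ρ 1 := lt_min hρ one_pos
  have hη1 : min ρ 1 ≤ 1 := min_le_right _ _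
  set s : ℝ := min (δ₁ / 8) (min ρ 1 / 4) with hs
  have hs0 : 0 < s := lt_min (by positivity) (by positivity)
  have hs1 : s ≤ δ₁ / 8 := min_le_left _ _
  have hs2 : s ≤ min ρ 1 / 4 := min_le_right _ _
  have hs3 : s ≤ 1 / 4 := by linarith
  set w₀ : ℂ := ((-(1 - s) : ℝ) : ℂ) with hw₀
  have hwb : w₀ ∈ ball (0 : ℂ) 1 := by
    rw [mem_ball_zero_iff, Complex.norm_real, Real.norm_eq_abs, abs_neg,
      abs_of_pos (by linarith)]
    linarith
  have hw0 : w₀ ≠ 0 := by
    have : -(1 - s) ≠ 0 := by linarith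
    exact Complex.ofReal_ne_zero.2 this
  obtain ⟨d, hdir⟩ := exists_dir (mul_ne_zero (hC.deriv_ne hwb) hw0)
  obtain ⟨τ₁, ℓ, R, hτ₁, hℓ, hℓm, hℓ0, hR, hst⟩ := exists_straight hC hwb hw0 hdir hs0
  set τ : ℝ := min τ₁ (s / 4) with hτ
  have hτ0 : 0 < τ := lt_min hτ₁ (by positivity)
  have hτ1 : τ ≤ τ₁ := min_le_left _ _
  have hτ2 : τ ≤ s / 4 := min_le_right _ _
  -- the function of the angle
  set cl : ℝ → ℝ := fun x => max (-τ) (min τ x) with hcl
  have hclm : ∀ x, cl x ∈ Icc (-τ) τ := fun x =>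
    ⟨le_max_left _ _, max_le (by linarith) (min_le_left _ _)⟩
  have hclm' : ∀ x, cl x ∈ Icc (-τ₁) τ₁ := fun x =>
    ⟨by linarith [(hclm x).1], by linarith [(hclm x).2]⟩
  have hclc : Continuous cl := by fun_prop
  have hcli : ∀ x, |x| ≤ τ → cl x = x := by
    intro x hx
    obtain ⟨h1, h2⟩ := abs_le.1 hx
    simp only [hcl]
    rw [min_eq_right h2, max_eq_right h1]
  set ct : ℝ → ℝ := fun x => max 0 (min 1 (2 - |x| / τ)) with hct
  have hctc : Continuous ct := by fun_prop
  have hct0 : ∀ x, 0 ≤ ct x := fun x => le_max_left _ _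
  have hct1 : ∀ x, ct x ≤ 1 := fun x => max_le zero_le_one (min_le_left _ _)
  have hct2 : ∀ x, |x| ≤ τ → ct x = 1 := by
    intro x hx
    have h1 : |x| / τ ≤ 1 := (div_le_one hτ0).2 hx
    simp only [hct]
    rw [min_eq_left (by linarith), max_eq_right zero_le_one]
  have hct3 : ∀ x, 2 * τ ≤ |x| → ct x = 0 := by
    intro x hx
    have h1 : 2 ≤ |x| / τ := (le_div_iff₀ hτ0).2 hx
    simp only [hct]
    exact max_eq_left ((min_le_right _ _).trans (by linarith))
  have hct4 : ∀ x, |x| < 2 * τ → 0 < ct x := by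
    intro x hx
    have h1 : |x| / τ < 2 := (div_lt_iff₀ hτ0).2 hx
    exact lt_max_of_lt_right (lt_min one_pos (by linarith))
  set G : ℝ → ℝ := fun x => (1 - (1 - s) * R (cl x)) * ct x with hG
  have hRb : ∀ x, 0 < 1 - (1 - s) * R (cl x) ∧ 1 - (1 - s) * R (cl x) < 2 * s := by
    intro x
    have h1 := abs_lt.1 (hst _ (hclm' x)).1
    constructor
    · nlinarith
    · nlinarith
  have hGc : Continuous G := by
    have h1 : Continuous fun x => R (cl x) := hR.comp_continuous hclc hclm'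
    exact (continuous_const.sub (continuous_const.mul h1)).mul hctc
  have hG0 : ∀ x, 0 ≤ G x := fun x => mul_nonneg (hRb x).1.le (hct0 x)
  have hG1 : ∀ x, G x < 2 * s := by
    intro x
    refine lt_of_le_of_lt ?_ (hRb x).2
    have := mul_le_mul_of_nonneg_left (hct1 x) (hRb x).1.le
    simpa [hG] using this
  have hG2 : ∀ x, |x| < 2 * τ → 0 < G x := fun x hx => mul_pos (hRb x).1 (hct4 x hx)
  have hG3 : ∀ x, 2 * τ ≤ |x| → G x = 0 := fun x hx => by
    simp only [hG]
    rw [hct3 x hx, mul_zero]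
  have hG4 : ∀ x, |x| ≤ τ → G x = 1 - (1 - s) * R x := fun x hx => by
    simp only [hG]
    rw [hct2 x hx, mul_one, hcli x hx]
  have hG5 : ∀ x, 1 ≤ |x| → G x = 0 := fun x hx => hG3 x (by linarith)
  -- the shear
  set m : ℂ → ℝ := fun z => 1 - ang G z with hm
  have hsh : Shear m (1 - 2 * s) :=
    { c0 := by linarith
      lb := fun z => by
        have := hG1 (Complex.arg (-z))
        simp only [hm, ang]
        linarith
      ub := fun z => by
        have := hG0 (Complex.arg (-z))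
        simp only [hm, ang]
        linarith
      cont := continuousOn_const.sub (continuousOn_ang hGc hG5)
      hom := fun r z hr => by
        simp only [hm]
        rw [ang_mul G hr] }
  set g : ℝ → ℝ := fun t => ang G (Complex.exp (t * Complex.I)) with hg
  have hgG : ∀ t, |t - Real.pi| ≤ Real.pi → g t = G (t - Real.pi) := fun t ht => ang_circ hG5 ht
  have hg0 : ∀ t, 0 ≤ g t := fun t => hG0 _
  have hg1 : ∀ t, g t < 2 * s := fun t => hG1 _
  set Φ' := cp Φ₀ hsh.homeo with hΦ'
  have hhom : ∀ z, homC Φ' z = f ((m z : ℂ) * z) := fun z => by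
    rw [hΦ', homC_cp, hsh.homeo_apply]
  have heq : ∀ t, FC Φ' t = f (((1 - g t : ℝ) : ℂ) * Complex.exp (t * Complex.I)) := fun t => by
    rw [FC_eq, hhom]
  have hFC0 : ∀ t, FC Φ₀ t = f (Complex.exp (t * Complex.I)) := fun t => FC_eq Φ₀ t
  have hm1 : FC Φ₀ Real.pi = f (-1) := by rw [hFC0, Complex.exp_pi_mul_I]
  have hm1' : (-1 : ℂ) ∈ closedBall (0 : ℂ) 1 := by
    rw [mem_closedBall_zero_iff, norm_neg, norm_one]
  have hec : ∀ t : ℝ, Complex.exp (t * Complex.I) ∈ closedBall (0 : ℂ) 1 := fun t =>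
    mem_closedBall_zero_iff.2 (norm_exp t).le
  have hgn : ∀ t, ‖((1 - g t : ℝ) : ℂ) * Complex.exp (t * Complex.I)‖ = 1 - g t := fun t => by
    rw [norm_mul, norm_exp, mul_one, Complex.norm_real, Real.norm_of_nonneg (by linarith [hg1 t])]
  have hgc : ∀ t, ((1 - g t : ℝ) : ℂ) * Complex.exp (t * Complex.I) ∈ closedBall (0 : ℂ) 1 :=
    fun t => by
      rw [mem_closedBall_zero_iff, hgn]
      linarith [hg0 t]
  -- points close to `-1`
  have hnear : ∀ z : ℂ, z ∈ closedBall (0 : ℂ) 1 → |1 - ‖z‖| ≤ 2 * s → |Complex.arg (-z)| ≤ 2 * τ →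
      f z ∈ ball (FC Φ₀ Real.pi) ρ := by
    intro z hz h1 h2
    rw [hm1, mem_ball]
    refine hu z hz _ hm1' ?_
    have := dist_neg_one h1
    linarith
  have harg : ∀ t, |t - Real.pi| ≤ 2 * τ → ∀ r : ℝ, 0 < r →
      |Complex.arg (-((r : ℂ) * Complex.exp (t * Complex.I)))| ≤ 2 * τ := by
    intro t ht r hr
    rw [show -((r : ℂ) * Complex.exp (t * Complex.I)) =
      (r : ℂ) * (-Complex.exp (t * Complex.I)) by ring, Complex.arg_real_mul _ hr,
      arg_circ (by linarith)]
    exact ht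
  refine ⟨Φ', d, g, fun t => ℓ (t - Real.pi), τ,
    { tau_pos := hτ0
      tau_lt := by linarith
      g_cont := ?_
      g_per := ?_
      g_nonneg := hg0
      g_lt := fun t => by linarith [hg1 t]
      g_pos := fun t ht => by
        rw [hgG t (by linarith)]
        exact hG2 _ ht
      g_zero := fun t ht ht' => by
        rw [hgG t ht']
        exact hG3 _ ht
      eq := heq
      eq' := ?_
      l_cont := hℓ.comp (by fun_prop)
      l_mono := fun x y hxy => hℓm (by linarith)
      l_pi := by rw [sub_self, hℓ0]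
      line := ?_
      near := ?_
      sub := ?_
      diff := ?_
      arc := ?_
      inner := ?_
      outer := ?_
      pos := ?_ }⟩
  · exact (continuousOn_ang hGc hG5).comp_continuous (by fun_prop) fun t => Complex.exp_ne_zero _
  · intro t
    simp only [hg]
    congr 1
    push_cast
    rw [add_mul, Complex.exp_add, Complex.exp_two_pi_mul_I, mul_one]
  · intro r t hr
    rw [hhom]
    rcases hr.eq_or_lt with h0 | h0
    · rw [← h0]
      simp [hf]
    · rw [hsh.hom r _ h0]
      congr 1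
      simp only [hm, hg]
      push_cast
      ring
  · -- the straight piece
    have key : ∀ t, |t - Real.pi| ≤ τ → FC Φ' t = f w₀ + ℓ (t - Real.pi) * ud d := by
      intro t ht
      have hx : t - Real.pi ∈ Icc (-τ₁) τ₁ := by
        obtain ⟨h1, h2⟩ := abs_le.1 ht
        exact ⟨by linarith, by linarith⟩
      rw [← (hst _ hx).2, heq, hgG t (by linarith), hG4 _ ht]
      congr 1
      have h1 : Complex.exp (((t - Real.pi : ℝ) : ℂ) * Complex.I) =
          -Complex.exp (t * Complex.I) := by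
        push_cast
        rw [sub_mul, Complex.exp_sub, Complex.exp_pi_mul_I, div_neg, div_one]
      rw [h1, hw₀]
      push_cast
      ring
    intro t ht
    rw [key t ht, key Real.pi (by rw [sub_self, abs_zero]; exact hτ0.le), sub_self, hℓ0]
    simp
  · intro t
    rw [heq, hFC0]
    refine hu _ (hgc t) _ (hec t) ?_
    have h1 : ((1 - g t : ℝ) : ℂ) * Complex.exp (t * Complex.I) - Complex.exp (t * Complex.I) =
        ((-g t : ℝ) : ℂ) * Complex.exp (t * Complex.I) := by
      push_cast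
      ring
    rw [dist_eq_norm, h1, norm_mul, norm_exp, mul_one, Complex.norm_real, norm_neg,
      Real.norm_of_nonneg (hg0 t)]
    linarith [hg1 t]
  · rw [hΦ', DC_cp, hsh.image_ball, DC_eq]
    refine image_mono fun z hz => ?_
    rw [mem_ball_zero_iff]
    exact lt_of_lt_of_le hz (hsh.ub z)
  · rintro _ ⟨hx, hx'⟩
    rw [DC_eq] at hx
    obtain ⟨z, hz, rfl⟩ := hx
    have hz1 : ‖z‖ < 1 := mem_ball_zero_iff.1 hz
    have hz2 : m z ≤ ‖z‖ := by
      by_contra hcon
      push Not at hcon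
      apply hx'
      rw [hΦ', DC_cp, hsh.image_ball]
      exact mem_image_of_mem _ hcon
    have h1 : |Complex.arg (-z)| < 2 * τ := by
      by_contra hcon
      push Not at hcon
      have h2 : m z = 1 := by
        simp only [hm, ang, hG3 _ hcon, sub_zero]
      linarith
    refine hnear z (ball_subset_closedBall hz) ?_ h1.le
    have h2 := hsh.lb z
    rw [abs_of_pos (by linarith)]
    linarith
  · intro t ht
    constructor
    · rw [heq]
      refine hnear _ (hgc t) ?_ (harg t ht _ (by linarith [hg1 t]))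
      rw [hgn, sub_sub_cancel, abs_of_nonneg (hg0 t)]
      exact (hg1 t).le
    · rw [hFC0 t]
      refine hnear _ (hec t) ?_ ?_
      · rw [norm_exp, sub_self, abs_zero]
        linarith
      · have := harg t ht 1 one_pos
        simpa using this
  · intro t ht
    rw [heq, DC_eq]
    refine mem_image_of_mem _ ?_
    rw [mem_ball_zero_iff, hgn, hgG t (by linarith)]
    linarith [hG2 _ ht]
  · intro t ht ht'
    rw [heq, hFC0, hgG t ht', hG3 _ ht]
    simp
  · have hz0 : (0 : ℂ) ∈ ball (0 : ℂ) 1 := mem_ball_self one_pos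
    refine ⟨f 0, ?_, ?_⟩
    · rw [hΦ', DC_cp, hsh.image_ball]
      refine mem_image_of_mem _ ?_
      show ‖(0 : ℂ)‖ < m 0
      rw [norm_zero]
      exact hsh.pos 0
    · have h1 := incOn_conf (f := f) hfc.continuousOn hfi.injOn hz0
        (hd.differentiableAt (isOpen_ball.mem_nhds hz0)) (hC.deriv_ne hz0)
        (r := fun t => 1 - g t)
        (continuous_const.sub ((continuousOn_ang hGc hG5).comp_continuous (by fun_prop)
          fun t => Complex.exp_ne_zero _)) (fun t => by linarith [hg0 t])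
        (fun t => by rw [norm_zero]; linarith [hg1 t]) (by
          simp only [hg, exp_two_pi]
          simp)
      exact h1.congr fun t _ => heq t

/-- **(ST2-PHI)** -/
theorem phi : PHI := by
  intro Φ hΦ
  obtain ⟨Φ₀, σ, h1, h2, h3⟩ := exists_conf hΦ
  exact ⟨Φ₀, σ, h1, h2, h3, fun ρ hρ => exists_cut h3 hρ⟩

end Vale.Agent.P167.N.ST2
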