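import Vale.Agent.P167.N.ST2.LDefs
import Vale.Agent.P167.N.ST2.Phi
import Vale.Agent.P167.H634.Apx.Sha

/-!
# P167, `0 < q < 1`, block ST2, GLUE: `S_loc` from the law of the two crosscuts
-/

set_option autoImplicit false

namespace Vale.Agent.P167.N.ST2

open Set Metric Topology Filter
open Vale.Agent.P167.FK
open Vale.Agent.P167.E6
open Vale.Agent.P153.R2.Final (dom circ toC)
open Vale.Agent.P153.R2.R1 (DC FC homC)
open Vale.Agent.P167.H199.C (Close close_of_approx close_region pt_mem_region PV)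
open Vale.Agent.P167.H192 (ed sq)
open Vale.Agent.P167.H718 (Dq etaQ)

/-- The diagonal argument. -/
theorem diag {X : Type*} {R : ℝ → ℕ → X → Prop}
    (hmono : ∀ ε ε' n x, ε ≤ ε' → R ε n x → R ε' n x)
    (h : ∀ ε > 0, ∀ᶠ n in atTop, ∃ x, R ε n x) (x₀ : ℕ → X) :
    ∃ x : ℕ → X, (∀ ε > 0, ∀ᶠ n in atTop, R ε n (x n)) ∧
      ∀ n, x n = x₀ n ∨ ∃ ε > 0, R ε n (x n) := by
  classical
  have key : ∀ n, ∃ x, (x = x₀ n ∨ ∃ ε > 0, R ε n x) ∧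
      ∀ j ≤ n, (∃ x, R (1 / ((j : ℝ) + 1)) n x) → R (1 / ((j : ℝ) + 1)) n x := by
    intro n
    by_cases hn : ∃ j, j ≤ n ∧ ∃ x, R (1 / ((j : ℝ) + 1)) n x
    · obtain ⟨j₀, hj₀, hj₀'⟩ := hn
      have h1 := Nat.findGreatest_spec (P := fun j : ℕ => ∃ x, R (1 / ((j : ℝ) + 1)) n x) hj₀ hj₀'
      set J := Nat.findGreatest (fun j : ℕ => ∃ x, R (1 / ((j : ℝ) + 1)) n x) n with hJ
      obtain ⟨x, hx⟩ := h1
      refine ⟨x, Or.inr ⟨_, by positivity, hx⟩, fun j hj hjx => ?_⟩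
      have h2 : j ≤ J := Nat.le_findGreatest hj hjx
      refine hmono _ _ n x ?_ hx
      refine one_div_le_one_div_of_le (by positivity) ?_
      have : (j : ℝ) ≤ J := by exact_mod_cast h2
      linarith
    · refine ⟨x₀ n, Or.inl rfl, fun j hj hjx => absurd ⟨j, hj, hjx⟩ hn⟩
  choose x hx1 hx2 using key
  refine ⟨x, fun ε hε => ?_, hx1⟩
  obtain ⟨j, hj⟩ := exists_nat_one_div_lt hε
  filter_upwards [h (1 / ((j : ℝ) + 1)) (by positivity), eventually_ge_atTop j] with n h1 h2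
  exact hmono _ _ n _ hj.le (hx2 n j h2 h1)

/-- The lower bound of the distance of a square from a vertex. -/
theorem sqp_low {δ : ℝ} (hδ : 0 < δ) (v u : ℤ × ℤ) :
    (nm (v - H192.ro u) : ℝ) ≤ 2 * (dist (sqp δ v) ((δ : ℂ) * pt u) / δ) + 1 := by
  obtain ⟨x, y⟩ := v
  obtain ⟨s, t⟩ := u
  have e1 : sqp δ (x, y) - (δ : ℂ) * pt (s, t) =
      (δ : ℂ) * (⟨((x + y + 1 : ℤ) : ℝ) / 2 - s, ((y - x : ℤ) : ℝ) / 2 - t⟩ : ℂ) := by
    unfold sqp pt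
    apply Complex.ext <;> simp <;> ring
  rw [dist_eq_norm, e1, norm_mul, Complex.norm_real, Real.norm_eq_abs, abs_of_pos hδ,
    mul_div_cancel_left₀ _ hδ.ne']
  set z : ℂ := ⟨((x + y + 1 : ℤ) : ℝ) / 2 - s, ((y - x : ℤ) : ℝ) / 2 - t⟩ with hz
  have h1 := abs_le.1 (Complex.abs_re_le_norm z)
  have h2 := abs_le.1 (Complex.abs_im_le_norm z)
  have e2 : z.re = ((x : ℝ) + y + 1) / 2 - s := by
    rw [hz]
    push_cast
    ring
  have e3 : z.im = ((y : ℝ) - x) / 2 - t := by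
    rw [hz]
    push_cast
    ring
  rw [e2] at h1
  rw [e3] at h2
  unfold nm H192.ro
  have e4 : ((x, y) - ((s, t).1 - (s, t).2, (s, t).1 + (s, t).2) : ℤ × ℤ).1 = x - (s - t) := rfl
  have e5 : ((x, y) - ((s, t).1 - (s, t).2, (s, t).1 + (s, t).2) : ℤ × ℤ).2 = y - (s + t) := rfl
  rw [e4, e5]
  push_cast
  refine max_le (abs_le.2 ⟨?_, ?_⟩) (abs_le.2 ⟨?_, ?_⟩) <;> linarith [h1.1, h1.2, h2.1, h2.2]

/-- A lattice point near a point. -/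
theorem exists_near {δ : ℝ} (hδ : 0 < δ) (b : ℂ) : ∃ u : ℤ × ℤ, dist ((δ : ℂ) * pt u) b ≤ δ := by
  refine ⟨(round (b.re / δ), round (b.im / δ)), ?_⟩
  have h1 := H634.Apx.round_near hδ b.re
  have h2 := H634.Apx.round_near hδ b.im
  have h3 := H634.Apx.dist_le_coord (z := (δ : ℂ) * pt (round (b.re / δ), round (b.im / δ)))
    (w := b) (a := δ / 2) (b := δ / 2) (by simpa [pt] using h1) (by simpa [pt] using h2)
  linarith

variable {Φ₀ Φ' : (ℝ × ℝ) ≃ₜ (ℝ × ℝ)} {ρ : ℝ} {d : Fin 4} {g ℓ : ℝ → ℝ} {τ : ℝ}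

/-- The target is at a positive distance from the cut domain. -/
theorem Cut.target_off (H : Cut Φ₀ Φ' ρ d g ℓ τ) : 1 < ‖(homC Φ').symm (FC Φ₀ Real.pi)‖ := by
  have h1 := H.g_lt1 Real.pi
  have h2 := H.g_pos Real.pi (by
    have := H.tau_pos
    rw [sub_self, abs_zero]
    linarith)
  have h3 : (0 : ℝ) < 1 - g Real.pi := by linarith
  have h4 := H.eq' (1 / (1 - g Real.pi)) Real.pi (by positivity)
  rw [one_div, inv_mul_cancel₀ h3.ne', Complex.ofReal_one, one_mul,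
    ← Vale.Agent.P153.R2.R1.FC_eq] at h4
  rw [← h4, Homeomorph.symm_apply_apply, norm_mul, Complex.norm_exp_ofReal_mul_I, mul_one,
    Complex.norm_real, Real.norm_of_nonneg (by positivity)]
  rw [← one_div, lt_div_iff₀ h3]
  linarith

/-- The cut domains (of the lattice) are at a positive distance from the target. -/
theorem Cut.exists_off (H : Cut Φ₀ Φ' ρ d g ℓ τ) : ∃ R₀ > 0, ∃ ε > 0,
    ∀ (δ : ℝ) (N k : ℕ) (p : ZMod N → ℤ × ℤ) (S : Finset (ℤ × ℤ)), Close Φ' ε δ k p S →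
      ∀ z ∈ region δ S, R₀ ≤ dist z (FC Φ₀ Real.pi) := by
  have h1 := H.target_off
  set w := (homC Φ').symm (FC Φ₀ Real.pi) with hw
  have hκ : 0 < (‖w‖ - 1) / 2 := by linarith
  obtain ⟨ε, hε, hreg⟩ := close_region Φ' hκ
  have hc : ContinuousAt (fun z => ‖(homC Φ').symm z‖) (FC Φ₀ Real.pi) :=
    (continuous_norm.comp (homC Φ').symm.continuous).continuousAt
  obtain ⟨R₀, hR₀, hball⟩ := Metric.continuousAt_iff.1 hc ((‖w‖ - 1) / 2) hκ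
  refine ⟨R₀, hR₀, ε, hε, fun δ N k p S hC z hz => ?_⟩
  by_contra hcon
  have h2 := hball (not_le.1 hcon)
  have h3 := (hreg δ N k p S hC).1 z hz
  rw [Real.dist_eq, abs_lt] at h2
  rw [← hw] at h2
  linarith [h2.2]

section one

set_option linter.unusedSectionVars false

variable {N k : ℕ} [NeZero N] {p : ZMod N → ℤ × ℤ} {S : Finset (ℤ × ℤ)} {r' ε δ : ℝ}
  {a b M c : ℕ} {y : ℕ → ℤ × ℤ} {S' S'' : Finset (ℤ × ℤ)}

theorem GOut.cutP (G : GOut Φ₀ Φ' ρ r' d ε δ k p S a b M c y S' S'') (hp : IsPolygon p)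
    (hS : Encloses p S) : CutP p S a b M y S' S'' where
  cut := G.cut
  poly := hp
  enc := hS
  encL := G.encL
  encR := G.encR
  disj := G.disj
  un := G.un

/-- **One lattice polygon.** -/
theorem loc_one {q : ℝ} (hq : 0 < q) {α C : ℝ} (hα : 0 < α) (hC : 0 < C)
    (hbar : ∀ (N k : ℕ) [NeZero N] (p : ZMod N → ℤ × ℤ) (S : Finset (ℤ × ℤ)) (a b M : ℕ)
      (y : ℕ → ℤ × ℤ) (S' S'' : Finset (ℤ × ℤ)) (aw bw Mw : ℕ) (yw : ℕ → ℤ × ℤ)
      (T' T'' : Finset (ℤ × ℤ)),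
      CutP p S a b M y S' S'' → CutP p S aw bw Mw yw T' T'' → a < k → k < b →
      ∀ (x : ℤ × ℤ) (r R : ℤ), 1 ≤ r → r ≤ R → (∀ v, ed v ∈ edges S'' → nm (v - x) ≤ r) →
        (∀ v, ed v ∈ edges T' → R < nm (v - x)) →
        ∀ ζ : Cfg, Good ζ → Pr (√q) (Fq p k S S'' T') ζ (XQ (Fq p k S S'' T') S'' T') ≤
          C * ((r : ℝ) / R) ^ α)
    (hlaw : S_lawX (√q)) {r R₀ e ρw rw' εw : ℝ} {Φw : (ℝ × ℝ) ≃ₜ (ℝ × ℝ)} {dw : Fin 4}
    {aw bw Mw cw : ℕ} {yw : ℕ → ℤ × ℤ} {T' T'' : Finset (ℤ × ℤ)} (hp : IsPolygon p)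
    (hS : Encloses p S) (G : GOut Φ₀ Φ' ρ r' d ε δ k p S a b M c y S' S'')
    (Gw : GOut Φ₀ Φw ρw rw' dw εw δ k p S aw bw Mw cw yw T' T'') (hr : 0 < r) (hρw : ρw ≤ r / 4)
    (hρ0 : 0 < ρ) (hρ : ρ ≤ r / 4) (hR₀ : 0 < R₀) (hT : ∀ z ∈ region δ T', R₀ ≤ dist z (FC Φ₀ Real.pi))
    (hρR : 10 * ρ ≤ R₀) (hCρ : C * (10 * ρ / R₀) ^ α ≤ e / 2) (hδ1 : δ ≤ ρ / 8) {m : ℕ}
    (A B : Fin m → Set ℂ) {cI cI' : Finset (Sym2 (ℤ × ℤ)) → C(unitInterval, ℂ)}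
    (h1 : ∀ A ⊆ edges S, IsInterface p k δ A (cI A))
    (h2 : ∀ A ⊆ edges S', IsInterface (PL p a b M y) (a + c) δ A (cI' A)) :
    |PV q p k S cI (⋂ j, H199.C.Vis (A j ∪ closedBall (FC Φ₀ Real.pi) r) (B j)) -
      PV q (PL p a b M y) (a + c) S' cI'
        (⋂ j, H199.C.Vis (A j ∪ closedBall (FC Φ₀ Real.pi) r) (B j))| ≤ e := by
  set z := FC Φ₀ Real.pi with hz
  have V := G.cutP hp hS
  have W := Gw.cutP hp hS
  obtain ⟨⟨hδ, -, hk', hpL, hSL⟩, -⟩ := G.close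
  have hpk : dist ((δ : ℂ) * pt (p k)) z ≤ 5 * ρ / 4 := G.nearP k G.ak.le G.kb.le
  have hyc : PL p a b M y ((a + c : ℕ) : ZMod (nL N a b M)) = y c := by
    rw [PL_nat G.cut hk'.le, G.cut.L2 G.cM.le]
  have hpk' : dist ((δ : ℂ) * pt (PL p a b M y ((a + c : ℕ) : ZMod (nL N a b M)))) z ≤
      5 * ρ / 4 := by
    rw [hyc]
    exact G.nearY c G.cM.le
  rw [pv_eq hq hp hS hδ.le h1 (b := z) (r := r) (by linarith) A B,
    pv_eq hq hpL hSL hδ.le h2 (b := z) (r := r) (by linarith) A B,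
    cs_eq hpL hp (PL_neg G.cut) (PL_zero G.cut)]
  -- the squares of the cut-off part
  have hnR : NeZero (nR a b M) := ⟨G.cut.nR_pos.ne'⟩
  have hV : ∀ v, ed v ∈ edges S'' → dist (sqp δ v) z ≤ 2 * ρ := fun v hv =>
    (G.cut.dist_R hp hS G.encR hδ G.nearY G.nearP hv).trans (by linarith)
  -- the squares of the part of the start
  have hTp : ∀ v, v ∈ E2.verts T' → R₀ ≤ dist ((δ : ℂ) * pt v) z := fun v hv => by
    obtain ⟨r, hr⟩ := E2.mem_verts.1 hv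
    exact hT _ (pt_mem_region hδ hr)
  have hT' : ∀ v, ed v ∈ edges T' → R₀ - δ ≤ dist (sqp δ v) z := fun v hv => by
    obtain ⟨u, r, hur⟩ := H192.isEdge_ed v
    have h3 : u ∈ E2.verts T' := by
      rw [hur, E2.mem_edges] at hv
      exact E2.mem_verts.2 (hv.elim (fun h => ⟨_, h⟩) fun h => ⟨_, h⟩)
    have h4 := hTp u h3
    have h5 := dist_sqp_mem hδ.le (v := v) (w := u) (by rw [hur]; exact Sym2.mem_mk_left _ _)
    have h6 := dist_triangle ((δ : ℂ) * pt u) (sqp δ v) z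
    rw [dist_comm ((δ : ℂ) * pt u) (sqp δ v)] at h6
    linarith
  have hdisj : Disjoint (E2.verts S'') (E2.verts T') := by
    rw [Finset.disjoint_left]
    intro v hv1 hv2
    obtain ⟨r, hr⟩ := E2.mem_verts.1 hv1
    have h3 : s(v, v + dir r) ∈ edges S'' := (E2.mem_edges r).2 (Or.inl hr)
    have e1 : ed (sq s(v, v + dir r)) = s(v, v + dir r) := H192.ed_sq ⟨v, r, rfl⟩
    have h4 := hV (sq s(v, v + dir r)) (by rw [e1]; exact h3)
    have h5 := dist_sqp_mem hδ.le (v := sq s(v, v + dir r)) (w := v)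
      (by rw [e1]; exact Sym2.mem_mk_left _ _)
    have h6 := dist_triangle ((δ : ℂ) * pt v) (sqp δ (sq s(v, v + dir r))) z
    rw [dist_comm ((δ : ℂ) * pt v) (sqp δ (sq s(v, v + dir r)))] at h6
    have h7 := hTp v hv2
    linarith
  obtain ⟨u, hu⟩ := exists_near hδ z
  have hb := hbar N k p S a b M y S' S'' aw bw Mw yw T' T'' V W G.ak G.kb (H192.ro u)
    (⌊4 * ρ / δ⌋ + 3) (⌊R₀ / δ⌋ - 4)
  have f1 := Int.floor_le (4 * ρ / δ)
  have f2 := Int.lt_floor_add_one (4 * ρ / δ)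
  have f3 := Int.floor_le (R₀ / δ)
  have f4 := Int.lt_floor_add_one (R₀ / δ)
  have g1 : (8 : ℝ) ≤ ρ / δ := by
    rw [le_div_iff₀ hδ]
    linarith
  have g2 : 10 * (ρ / δ) ≤ R₀ / δ := by
    rw [← mul_div_assoc]
    exact div_le_div_of_nonneg_right hρR hδ.le
  have g3 : 4 * ρ / δ = 4 * (ρ / δ) := mul_div_assoc _ _ _
  have hrR : (⌊4 * ρ / δ⌋ + 3 : ℤ) ≤ ⌊R₀ / δ⌋ - 4 := by
    have : ((⌊4 * ρ / δ⌋ + 3 : ℤ) : ℝ) < ((⌊R₀ / δ⌋ - 4 + 1 : ℤ) : ℝ) := by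
      push_cast
      linarith
    have := Int.cast_lt.1 this
    omega
  have h1r : (1 : ℤ) ≤ ⌊4 * ρ / δ⌋ + 3 := by
    have : (0 : ℤ) ≤ ⌊4 * ρ / δ⌋ := Int.floor_nonneg.2 (by positivity)
    omega
  have hb' := hb h1r hrR (fun v hv => by
    have h3 := sqp_low hδ v u
    have h4 := hV v hv
    have h5 := dist_triangle (sqp δ v) z ((δ : ℂ) * pt u)
    rw [dist_comm z ((δ : ℂ) * pt u)] at h5
    have h6 : dist (sqp δ v) ((δ : ℂ) * pt u) / δ ≤ 2 * (ρ / δ) + 1 := by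
      rw [div_le_iff₀ hδ, add_mul, mul_assoc, div_mul_cancel₀ _ hδ.ne']
      linarith
    have h7 : (nm (v - H192.ro u) : ℝ) < ((⌊4 * ρ / δ⌋ + 3 + 1 : ℤ) : ℝ) := by
      push_cast
      linarith
    have := Int.cast_lt.1 h7
    omega) fun v hv => by
    have h3 := dist_sqp hδ.le v u
    have h4 := hT' v hv
    have h5 := dist_triangle (sqp δ v) ((δ : ℂ) * pt u) z
    have h6 : R₀ / δ ≤ nm (v - H192.ro u) + 3 := by
      rw [div_le_iff₀ hδ]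
      nlinarith
    have h7 : ((⌊R₀ / δ⌋ - 4 : ℤ) : ℝ) < (nm (v - H192.ro u) : ℝ) := by
      push_cast
      linarith
    exact_mod_cast h7
  have hfin : C * (((⌊4 * ρ / δ⌋ + 3 : ℤ) : ℝ) / ((⌊R₀ / δ⌋ - 4 : ℤ) : ℝ)) ^ α ≤ e / 2 := by
    refine le_trans (mul_le_mul_of_nonneg_left (Real.rpow_le_rpow ?_ ?_ hα.le) hC.le) hCρ
    · refine div_nonneg ?_ ?_
      · exact_mod_cast (by omega : (0 : ℤ) ≤ ⌊4 * ρ / δ⌋ + 3)
      · exact_mod_cast (by omega : (0 : ℤ) ≤ ⌊R₀ / δ⌋ - 4)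
    · have hRpos : (0 : ℝ) < ((⌊R₀ / δ⌋ - 4 : ℤ) : ℝ) := by
        exact_mod_cast (by omega : (0 : ℤ) < ⌊R₀ / δ⌋ - 4)
      rw [div_le_div_iff₀ hRpos hR₀]
      push_cast
      have k1 : ((⌊4 * ρ / δ⌋ : ℝ) + 3) ≤ 5 * (ρ / δ) := by linarith
      have k2 : R₀ / δ / 2 ≤ (⌊R₀ / δ⌋ : ℝ) - 4 := by linarith
      have k3 : R₀ = R₀ / δ * δ := (div_mul_cancel₀ _ hδ.ne').symm
      have k4 : ρ = ρ / δ * δ := (div_mul_cancel₀ _ hδ.ne').symm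
      calc ((⌊4 * ρ / δ⌋ : ℝ) + 3) * R₀ ≤ 5 * (ρ / δ) * R₀ :=
            mul_le_mul_of_nonneg_right k1 hR₀.le
        _ = 10 * ρ * (R₀ / δ / 2) := by field_simp; ring
        _ ≤ 10 * ρ * ((⌊R₀ / δ⌋ : ℝ) - 4) := mul_le_mul_of_nonneg_left k2 (by linarith)
  have hL := hlaw N k p S a b M c y S' S'' aw bw Mw yw T' T'' V W G.ak G.kb G.c0 G.cM hdisj δ r z
    hδ.le (fun i hi => by
      have := Gw.nearY i hi
      linarith) (e / 2) (fun ζ hζ => (hb' ζ hζ).trans hfin) m A B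
  linarith

end one

theorem GOut.mono {r' ε ε' δ : ℝ} {N k : ℕ} {p : ZMod N → ℤ × ℤ} {S S' S'' : Finset (ℤ × ℤ)}
    {a b M c : ℕ} {y : ℕ → ℤ × ℤ} (G : GOut Φ₀ Φ' ρ r' d ε δ k p S a b M c y S' S'')
    (h : ε ≤ ε') : GOut Φ₀ Φ' ρ r' d ε' δ k p S a b M c y S' S'' :=
  { G with close := G.close.mono h }

theorem exists_rho {C α R₀ e r η : ℝ} (hC : 0 < C) (hα : 0 < α) (hR₀ : 0 < R₀) (he : 0 < e)
    (hr : 0 < r) (hη : 0 < η) : ∃ ρ : ℝ, 0 < ρ ∧ ρ ≤ η ∧ ρ ≤ r / 4 ∧ 10 * ρ ≤ R₀ ∧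
      C * (10 * ρ / R₀) ^ α ≤ e / 2 := by
  have h1 : (0 : ℝ) < (e / 2 / C) ^ (1 / α) := Real.rpow_pos_of_pos (by positivity) _
  set ρ : ℝ := min η (min (r / 4) (min (R₀ / 10) (R₀ / 10 * (e / 2 / C) ^ (1 / α)))) with hρ
  have hρ0 : 0 < ρ := by positivity
  have m1 : ρ ≤ η := min_le_left _ _
  have m2 : ρ ≤ r / 4 := (min_le_right _ _).trans (min_le_left _ _)
  have m3 : ρ ≤ R₀ / 10 := (min_le_right _ _).trans ((min_le_right _ _).trans (min_le_left _ _))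
  have m4 : ρ ≤ R₀ / 10 * (e / 2 / C) ^ (1 / α) :=
    (min_le_right _ _).trans ((min_le_right _ _).trans (min_le_right _ _))
  refine ⟨ρ, hρ0, m1, m2, by linarith, ?_⟩
  have h2 : 10 * ρ / R₀ ≤ (e / 2 / C) ^ (1 / α) := by
    rw [div_le_iff₀ hR₀]
    linarith
  have h3 : (10 * ρ / R₀) ^ α ≤ e / 2 / C := by
    refine (Real.rpow_le_rpow (by positivity) h2 hα.le).trans (le_of_eq ?_)
    rw [← Real.rpow_mul (by positivity), one_div_mul_cancel hα.ne', Real.rpow_one]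
  calc C * (10 * ρ / R₀) ^ α ≤ C * (e / 2 / C) := mul_le_mul_of_nonneg_left h3 hC.le
    _ = e / 2 := mul_div_cancel₀ _ hC.ne'

/-- **[LOC]** from the two inputs of the law. -/
theorem s_loc_of {q : ℝ} (hq : 0 < q) (hbar : S_bar (√q)) (hlaw : S_lawX (√q)) :
    S_loc QT.StairU q := by
  intro Φ δ N k p S hA
  obtain ⟨α, C, hα, hC, hbar⟩ := hbar
  obtain ⟨Φ₀, σ, hrep, -, -, hcut⟩ := phi Φ (H634.Apx.pos_of_approx hA)
  have hA₀ : Approx Φ₀ δ N k p S := hrep.approx.1 hA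
  have e0 : Φ₀ (circ 0) = Φ (circ 0) := by
    have h1 := hrep.eq 0
    rw [hrep.zero] at h1
    exact Vale.Agent.P153.R2.R1.toC_injective h1
  have epi : Φ₀ (circ Real.pi) = Φ (circ Real.pi) := by
    have h1 := hrep.eq Real.pi
    rw [hrep.pi] at h1
    exact Vale.Agent.P153.R2.R1.toC_injective h1
  have hb : toC (Φ (circ Real.pi)) = FC Φ₀ Real.pi := by
    rw [← epi]
    rfl
  refine ⟨Φ₀, ?_, e0, epi, fun r η e hr hη he => ?_⟩
  · have h1 : toC '' dom Φ₀ = toC '' dom Φ := hrep.dom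
    exact Set.image_injective.2 Vale.Agent.P153.R2.R1.toC_injective h1
  obtain ⟨Φw, dw, gw, ℓw, τw, Hw⟩ := hcut (r / 4) (by positivity)
  obtain ⟨rw', hrw', hgw⟩ := glue_one Hw
  obtain ⟨R₀, hR₀, εr, hεr, hreg⟩ := Hw.exists_off
  obtain ⟨ε₁w, hε₁w, hgw⟩ := hgw εr hεr
  obtain ⟨ρ, hρ0, hρη, hρr, hρR, hCρ⟩ := exists_rho hC hα hR₀ he hr hη
  obtain ⟨Φ', d, g, ℓ, τ, H⟩ := hcut ρ hρ0
  obtain ⟨r', hr', hg⟩ := glue_one H
  obtain ⟨x, hx1, hx2⟩ := diag (X := (m : ℕ) × ℕ × (ZMod m → ℤ × ℤ) × Finset (ℤ × ℤ))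
    (R := fun ε n x => ∃ (a b M c : ℕ) (y : ℕ → ℤ × ℤ) (S' S'' : Finset (ℤ × ℤ)),
      GOut Φ₀ Φ' ρ r' d ε (δ n) (k n) (p n) (S n) a b M c y S' S'' ∧
        x = ⟨nL (N n) a b M, a + c, PL (p n) a b M y, S'⟩)
    (fun ε ε' n x hε => by
      rintro ⟨a, b, M, c, y, S', S'', G, hx⟩
      exact ⟨a, b, M, c, y, S', S'', G.mono hε, hx⟩)
    (fun ε hε => by
      obtain ⟨ε₁, hε₁, hg⟩ := hg ε hε
      filter_upwards [close_of_approx hA₀ hε₁] with n hn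
      obtain ⟨a, b, M, c, y, S', S'', G⟩ := hg (δ n) (N n) (k n) (p n) (S n) hn
      exact ⟨_, a, b, M, c, y, S', S'', G, rfl⟩)
    (fun n => ⟨N n, k n, p n, S n⟩)
  refine ⟨Φ', fun n => (x n).1, fun n => (x n).2.1, fun n => (x n).2.2.1, fun n => (x n).2.2.2,
    fun t => (H.near t).trans_le hρη, ⟨fun n => ?_, hA.2.1, fun ε hε => ?_⟩, ⟨d, r', hr', ?_⟩, ?_⟩
  · rcases hx2 n with h | ⟨ε, hε, a, b, M, c, y, S', S'', G, hx⟩
    · beta_reduce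
      rw [h]
      exact hA.1 n
    · beta_reduce
      rw [hx]
      exact G.close.1
  · filter_upwards [hx1 ε hε] with n hn
    obtain ⟨a, b, M, c, y, S', S'', G, hx⟩ := hn
    beta_reduce
    rw [hx]
    exact G.close.2.2
  · filter_upwards [hx1 1 one_pos] with n hn
    obtain ⟨a, b, M, c, y, S', S'', G, hx⟩ := hn
    beta_reduce
    rw [hx]
    exact G.stair
  · filter_upwards [hx1 1 one_pos, close_of_approx hA₀ hε₁w,
      hA.2.1.eventually_le_const (show (0 : ℝ) < ρ / 8 by positivity)] with n hn hcw hδn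
    obtain ⟨a, b, M, c, y, S', S'', G, hx⟩ := hn
    obtain ⟨aw, bw, Mw, cw, yw, T', T'', Gw⟩ := hgw (δ n) (N n) (k n) (p n) (S n) hcw
    obtain ⟨-, -, hkN, hp, hS⟩ := hA.1 n
    have : NeZero (N n) := ⟨by omega⟩
    rw [hx, hb]
    intro cI cI' h1 h2 m A B
    exact loc_one hq hα hC hbar hlaw hp hS G Gw hr le_rfl hρ0 hρr hR₀
      (hreg (δ n) _ _ _ _ Gw.close) hρR hCρ hδn A B h1 h2

end Vale.Agent.P167.N.ST2
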