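import Vale.Agent.P167.N.ST2.Defs
import Vale.Agent.P167.H718.Rc2
import Vale.Agent.P167.E2.Path
import Vale.Agent.P167.E2.Intf

/-!
# P167, Stage II by local surgery: the interface as an event of the squares

* `pv_eq` : the probability `PV` of the intersection of the events `H199.C.Vis (A j ∪ closedBall b r) (B j)` is
  the probability of the event `EvB` of the squares;
* `evB_congr` : the event `EvB` depends on the squares outside of the ball only.
-/

set_option autoImplicit false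

open Set Metric

namespace Vale.Agent.P167.N.ST2

open Vale.Agent.P167.FK
open Vale.Agent.P167.E6
open Vale.Agent.P167.E2 (start_iff lin poly_eq lin_nat run cs run_zero run_succ)
open Vale.Agent.P167.H192 (ro sq cfg hdv_me sq_mk nx_cfg_iterate fin4_cases)
open Vale.Agent.P167.H718 (Dq etaQ mean_eq_Ex)
open Vale.Agent.P167.H199.C (PV)

/-! ### Positions -/

/-- The position of the square ahead is the midpoint of the edge ahead. -/
theorem sqp_me (δ : ℝ) (c : Medial) : sqp δ (hdv (H192.me c)) = mid δ c := by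
  obtain ⟨⟨x, y⟩, r⟩ := c
  rw [hdv_me]
  unfold sqp mid ahead pt
  rw [sq_mk]
  rcases fin4_cases r with rfl | rfl | rfl | rfl
  · have e1 : min (ro (x, y)).1 (ro ((x, y) + dir (0 + 1))).1 = x - y - 1 := by
      simp only [ro, dir]; simp; omega
    have e2 : min (ro (x, y)).2 (ro ((x, y) + dir (0 + 1))).2 = x + y := by
      simp only [ro, dir]; simp
    dsimp only
    rw [e1, e2]
    apply Complex.ext <;> simp [dir] <;> ring
  · have e1 : min (ro (x, y)).1 (ro ((x, y) + dir (1 + 1))).1 = x - y - 1 := by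
      simp only [ro, dir]; simp; omega
    have e2 : min (ro (x, y)).2 (ro ((x, y) + dir (1 + 1))).2 = x + y - 1 := by
      simp only [ro, dir]; simp; omega
    dsimp only
    rw [e1, e2]
    apply Complex.ext <;> simp [dir] <;> ring
  · have e1 : min (ro (x, y)).1 (ro ((x, y) + dir (2 + 1))).1 = x - y := by
      simp only [ro, dir]; simp; omega
    have e2 : min (ro (x, y)).2 (ro ((x, y) + dir (2 + 1))).2 = x + y - 1 := by
      simp only [ro, dir]; simp; omega
    dsimp only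
    rw [e1, e2]
    apply Complex.ext <;> simp [dir] <;> ring
  · have e1 : min (ro (x, y)).1 (ro ((x, y) + dir (3 + 1))).1 = x - y := by
      simp only [ro, dir]; simp
    have e2 : min (ro (x, y)).2 (ro ((x, y) + dir (3 + 1))).2 = x + y := by
      simp only [ro, dir]; simp
    dsimp only
    rw [e1, e2]
    apply Complex.ext <;> simp [dir] <;> ring

variable {n k : ℕ} {p : ZMod n → ℤ × ℤ} {S : Finset (ℤ × ℤ)} {δ r : ℝ} {b : ℂ}

/-- The vertices of the strand are the vertices of the interface. -/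
theorem strand_eq (δ : ℝ) (A : Finset (Sym2 (ℤ × ℤ))) :
    strand δ (H192.me (cs p)) (cfg (wiredOpen p k A)) = lin fun j => mid δ (run p k A j) := by
  funext x
  unfold strand
  congr 1
  funext j
  rw [nx_cfg_iterate, sqp_me]
  rfl

/-! ### Locality -/

theorem nx_congr {ω ω' : Cfg} {e : Ed} (h : ω (hdv e) = ω' (hdv e)) : nx ω e = nx ω' e := by
  rcases e with v | v
  · by_cases hv : Even (v.1 + v.2)
    · simp only [hdv, if_pos hv] at h
      simp only [nx, if_pos hv, h]
    · simp only [hdv, if_neg hv] at h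
      simp only [nx, if_neg hv, h]
  · by_cases hv : Even (v.1 + v.2)
    · simp only [hdv, if_pos hv] at h
      simp only [nx, if_pos hv, h]
    · simp only [hdv, if_neg hv] at h
      simp only [nx, if_neg hv, h]

theorem iter_congr {ω ω' : Cfg} {e : Ed} {M : ℕ}
    (h : ∀ i < M, ω (hdv ((nx ω)^[i] e)) = ω' (hdv ((nx ω)^[i] e))) :
    ∀ i ≤ M, (nx ω)^[i] e = (nx ω')^[i] e := by
  intro i
  induction i with
  | zero => exact fun _ => rfl
  | succ i ih =>
    intro hi
    rw [Function.iterate_succ_apply', Function.iterate_succ_apply', ← ih (by omega)]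
    exact nx_congr (h i (by omega))

/-- The strands agree until the first visit of the closed ball. -/
theorem strand_congr {e : Ed} {ω ω' : Cfg} (h : ∀ v, r < dist (sqp δ v) b → ω v = ω' v) {T : ℝ}
    (hT : 0 ≤ T) (hs : ∀ s, 0 ≤ s → s ≤ T → strand δ e ω s ∉ closedBall b r) :
    ∀ s, 0 ≤ s → s ≤ T → strand δ e ω s = strand δ e ω' s := by
  have key : ∀ i : ℕ, (i : ℝ) ≤ T → ω (hdv ((nx ω)^[i] e)) = ω' (hdv ((nx ω)^[i] e)) := by
    intro i hi
    refine h _ ?_
    have h1 := hs i (Nat.cast_nonneg i) hi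
    unfold strand at h1
    rw [lin_nat, mem_closedBall, not_le] at h1
    exact h1
  have h2 := iter_congr (ω := ω) (ω' := ω') (e := e) (M := ⌊T⌋₊ + 1) fun i hi => key i (by
    have h3 : i ≤ ⌊T⌋₊ := by omega
    exact le_trans (by exact_mod_cast h3) (Nat.floor_le hT))
  intro s h0 hsT
  have h3 : ⌊s⌋₊ ≤ ⌊T⌋₊ := Nat.floor_mono hsT
  unfold strand lin
  dsimp only
  rw [h2 _ (by omega), h2 _ (by omega)]

theorem evB_imp {e : Ed} {ω ω' : Cfg} (h : ∀ v, r < dist (sqp δ v) b → ω v = ω' v) {m : ℕ}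
    {A B : Fin m → Set ℂ} (hω : ω ∈ EvB δ e b r A B) : ω' ∈ EvB δ e b r A B := by
  intro j
  obtain ⟨T, h0, h1, h2⟩ := hω j
  have h3 := strand_congr (e := e) h h0 fun s hs hsT hc => h2 s hs hsT (Or.inr hc)
  refine ⟨T, h0, ?_, fun s hs hsT => ?_⟩
  · rw [← h3 T h0 le_rfl]
    exact h1
  · rw [← h3 s hs hsT]
    exact h2 s hs hsT

/-- **The event depends on the squares outside of the ball only.** -/
theorem evB_congr {e : Ed} {ω ω' : Cfg} (h : ∀ v, r < dist (sqp δ v) b → ω v = ω' v) {m : ℕ}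
    {A B : Fin m → Set ℂ} : ω ∈ EvB δ e b r A B ↔ ω' ∈ EvB δ e b r A B :=
  ⟨evB_imp h, evB_imp fun v hv => (h v hv).symm⟩

/-- The form for `S_law`. -/
theorem evB_box {e : Ed} {x : ℤ × ℤ} {R : ℤ} (hR : ∀ v ∈ H166.bxx x R, dist (sqp δ v) b ≤ r)
    {ω ω' : Cfg} (h : ∀ v, v ∉ H166.bxx x R → ω v = ω' v) {m : ℕ} {A B : Fin m → Set ℂ} :
    ω ∈ EvB δ e b r A B ↔ ω' ∈ EvB δ e b r A B :=
  evB_congr fun v hv => h v fun hvR => absurd (hR v hvR) (not_le.2 hv)

/-- The distance of a square from a vertex. -/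
theorem dist_sqp (hδ : 0 ≤ δ) (v u : ℤ × ℤ) :
    dist (sqp δ v) ((δ : ℂ) * pt u) ≤ δ * ((nm (v - ro u) : ℝ) + 1) := by
  obtain ⟨x, y⟩ := v
  obtain ⟨s, t⟩ := u
  have e1 : sqp δ (x, y) - (δ : ℂ) * pt (s, t) =
      (δ : ℂ) * (⟨((x + y + 1 : ℤ) : ℝ) / 2 - s, ((y - x : ℤ) : ℝ) / 2 - t⟩ : ℂ) := by
    unfold sqp pt
    apply Complex.ext <;> simp <;> ring
  rw [dist_eq_norm, e1, norm_mul, Complex.norm_real, Real.norm_eq_abs, abs_of_nonneg hδ]
  refine mul_le_mul_of_nonneg_left ?_ hδ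
  refine (Complex.norm_le_abs_re_add_abs_im _).trans ?_
  dsimp only
  have h1 : |x - (s - t)| ≤ nm ((x, y) - ro (s, t)) := by
    unfold nm ro
    exact le_max_left _ _
  have h2 : |y - (s + t)| ≤ nm ((x, y) - ro (s, t)) := by
    unfold nm ro
    exact le_max_right _ _
  have h3 : (|(x : ℝ) - (s - t)|) ≤ (nm ((x, y) - ro (s, t)) : ℝ) := by
    exact_mod_cast h1
  have h4 : (|(y : ℝ) - (s + t)|) ≤ (nm ((x, y) - ro (s, t)) : ℝ) := by
    exact_mod_cast h2
  rw [abs_le] at h3 h4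
  push_cast
  rcases abs_cases (((x : ℝ) + y + 1) / 2 - s) with ⟨h5, -⟩ | ⟨h5, -⟩ <;>
  rcases abs_cases (((y : ℝ) - x) / 2 - t) with ⟨h6, -⟩ | ⟨h6, -⟩ <;>
  rw [h5, h6] <;> linarith [h3.1, h3.2, h4.1, h4.2]

/-! ### The interface -/

/-- The start of the strand depends on the two vertices at the mark only. -/
theorem cs_eq {n' : ℕ} {p' : ZMod n' → ℤ × ℤ} (hp : IsPolygon p) (hp' : IsPolygon p')
    (h1 : p (-1) = p' (-1)) (h2 : p 0 = p' 0) : cs p = cs p' := by
  obtain ⟨h3, h4⟩ := (start_iff hp).2 (rfl : cs p = cs p)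
  refine (start_iff hp').1 ⟨by rw [← h1]; exact h3, ?_⟩
  rw [← h1, ← h2]
  exact h4

/-- The last vertex of the interface is in the ball. -/
theorem last_mem {c : Medial} {O : Set (Sym2 (ℤ × ℤ))} (hδ : 0 ≤ δ) {u : ℤ × ℤ}
    (h : (next O c).1 = u) (hr : dist ((δ : ℂ) * pt u) b + 2 * δ ≤ r) :
    mid δ c ∈ closedBall b r := by
  have key : ∀ (v : ℤ × ℤ) (i : Fin 4), u = v ∨ u = v + dir i →
      dist ((δ : ℂ) * (pt v + pt (v + dir i)) / 2) ((δ : ℂ) * pt u) ≤ δ := by
    intro v i hu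
    have e0 : pt (v + dir i) = pt v + pt (dir i) := by
      unfold pt
      apply Complex.ext <;> simp
    have e1 : ‖pt (dir i)‖ = 1 := by
      have : pt (dir i) = 1 ∨ pt (dir i) = Complex.I ∨ pt (dir i) = -1 ∨
          pt (dir i) = -Complex.I := by
        unfold pt
        fin_cases i <;> simp [dir, Complex.ext_iff]
      rcases this with h | h | h | h <;> rw [h] <;> simp
    rw [dist_eq_norm]
    rcases hu with rfl | rfl
    · have e2 : (δ : ℂ) * (pt u + pt (u + dir i)) / 2 - (δ : ℂ) * pt u =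
          ((δ / 2 : ℝ) : ℂ) * pt (dir i) := by
        rw [e0]
        push_cast
        ring
      rw [e2, norm_mul, e1, Complex.norm_real, Real.norm_eq_abs, abs_of_nonneg (by linarith)]
      linarith
    · have e2 : (δ : ℂ) * (pt v + pt (v + dir i)) / 2 - (δ : ℂ) * pt (v + dir i) =
          ((-(δ / 2) : ℝ) : ℂ) * pt (dir i) := by
        rw [e0]
        push_cast
        ring
      rw [e2, norm_mul, e1, Complex.norm_real, Real.norm_eq_abs, abs_neg,
        abs_of_nonneg (by linarith)]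
      linarith
  have hu : u = c.1 ∨ u = c.1 + dir (c.2 + 1) := by
    unfold next at h
    split_ifs at h
    · exact Or.inr h.symm
    · exact Or.inl h.symm
  have h1 := key c.1 (c.2 + 1) hu
  rw [mem_closedBall]
  unfold mid
  have h2 := dist_triangle ((δ : ℂ) * (pt c.1 + pt (c.1 + dir (c.2 + 1))) / 2) ((δ : ℂ) * pt u) b
  linarith

/-- One configuration. -/
theorem mem_iff (hp : IsPolygon p) (hδ : 0 ≤ δ) (hr : dist ((δ : ℂ) * pt (p k)) b + 2 * δ ≤ r)
    {X : Finset (Sym2 (ℤ × ℤ))} {γ : C(unitInterval, ℂ)} (hγ : IsInterface p k δ X γ) {m : ℕ}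
    {A B : Fin m → Set ℂ} :
    γ ∈ (⋂ j, H199.C.Vis (A j ∪ closedBall b r) (B j)) ↔
      cfg (wiredOpen p k X) ∈ EvB δ (H192.me (cs p)) b r A B := by
  obtain ⟨M, c, hM, h0, h1, h2, -, h4, -, h6⟩ := hγ
  have hM' : (0 : ℝ) < M := by exact_mod_cast hM
  have hc0 : c 0 = cs p := (start_iff hp).1 ⟨h0, h1⟩
  have hc : ∀ j, c j = run p k X j := by
    intro j
    induction j with
    | zero => rw [hc0, run_zero]
    | succ j ih => rw [h2, run_succ, ih]
  have hγ' : ∀ t : unitInterval, γ t = strand δ (H192.me (cs p)) (cfg (wiredOpen p k X)) (t * M) := by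
    intro t
    rw [h6 t, strand_eq, poly_eq]
    congr 1
    funext j
    rw [hc]
  have hlast : strand δ (H192.me (cs p)) (cfg (wiredOpen p k X)) M ∈ closedBall b r := by
    rw [strand_eq, lin_nat]
    have h7 : (next (wiredOpen p k X) (run p k X M)).1 = p k := by
      rw [← run_succ, ← hc]
      exact h4
    exact last_mem hδ h7 hr
  rw [mem_iInter]
  refine forall_congr' fun j => ?_
  constructor
  · rintro ⟨t, ht, hs⟩
    refine ⟨t * M, mul_nonneg t.2.1 hM'.le, ?_, fun s hs0 hst => ?_⟩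
    · rw [← hγ']
      exact ht
    · have h8 : s / M ∈ Icc (0 : ℝ) 1 := ⟨div_nonneg hs0 hM'.le, by
        rw [div_le_one hM']
        have := t.2.2
        nlinarith⟩
      have h9 := hs ⟨s / M, h8⟩ (by
        show s / M ≤ (t : ℝ)
        rw [div_le_iff₀ hM']
        exact hst)
      rw [hγ'] at h9
      have e1 : ((⟨s / M, h8⟩ : unitInterval) : ℝ) * M = s := div_mul_cancel₀ s hM'.ne'
      rwa [e1] at h9
  · rintro ⟨T, hT0, hT, hs⟩
    have hTM : T < M := by
      by_contra hcon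
      push Not at hcon
      exact hs M hM'.le hcon (Or.inr hlast)
    have h8 : T / M ∈ Icc (0 : ℝ) 1 := ⟨div_nonneg hT0 hM'.le, by
      rw [div_le_one hM']
      exact hTM.le⟩
    have e1 : ((⟨T / M, h8⟩ : unitInterval) : ℝ) * M = T := div_mul_cancel₀ T hM'.ne'
    refine ⟨⟨T / M, h8⟩, ?_, fun s hst => ?_⟩
    · rw [hγ', e1]
      exact hT
    · rw [hγ']
      refine hs _ (mul_nonneg s.2.1 hM'.le) ?_
      have h9 : (s : ℝ) ≤ T / M := hst
      rwa [le_div_iff₀ hM'] at h9

/-- **`PV` as a probability of an event of the squares.** -/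
theorem pv_eq {q : ℝ} (hq : 0 < q) (hp : IsPolygon p) (hE : Encloses p S) (hδ : 0 ≤ δ)
    {c : Finset (Sym2 (ℤ × ℤ)) → C(unitInterval, ℂ)}
    (hc : ∀ A ⊆ edges S, IsInterface p k δ A (c A))
    (hr : dist ((δ : ℂ) * pt (p k)) b + 2 * δ ≤ r) {m : ℕ} (A B : Fin m → Set ℂ) :
    PV q p k S c (⋂ j, H199.C.Vis (A j ∪ closedBall b r) (B j)) =
      Pr (√q) (Dq S p k) (etaQ p k) (EvB δ (H192.me (cs p)) b r A B) := by
  unfold PV Pr
  rw [← mean_eq_Ex hq hp hE]
  unfold Final.mean
  congr 1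
  refine Finset.sum_congr rfl fun X hX => ?_
  rw [Finset.mem_powerset] at hX
  congr 1
  have h1 := mem_iff (p := p) (k := k) (A := A) (B := B) hp hδ hr (hc X hX)
  dsimp only
  by_cases h2 : c X ∈ ⋂ j, H199.C.Vis (A j ∪ closedBall b r) (B j)
  · rw [Set.indicator_of_mem h2, Set.indicator_of_mem (h1.1 h2)]
    rfl
  · rw [Set.indicator_of_notMem h2, Set.indicator_of_notMem fun h => h2 (h1.2 h)]

end Vale.Agent.P167.N.ST2
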