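import Vale.Agent.P167.N.ST2.PhiDefs

/-!
# P167, general `q`, `N`, Stage II, block ST2-PHI: homeomorphisms of the disc, winding numbers of
conformal maps
-/

set_option autoImplicit false

namespace Vale.Agent.P167.N.ST2

open Set Metric Topology Filter
open Vale.Agent.P167.H397.Q (IncOn)
open Vale.Agent.P153.R2.R1 (CConf)
open P153.TOP (LogOn HasLogOn hasLogOn_of_convex)

/-! ### Homeomorphisms of the closed disc extend to the plane -/

/-- The radial extension. -/
noncomputable def rex (h : ℂ → ℂ) (z : ℂ) : ℂ := ((max 1 ‖z‖ : ℝ) : ℂ) * h (z / ((max 1 ‖z‖ : ℝ) : ℂ))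

theorem max_pos' (z : ℂ) : 0 < max 1 ‖z‖ := lt_of_lt_of_le one_pos (le_max_left _ _)

theorem div_max_mem (z : ℂ) : z / ((max 1 ‖z‖ : ℝ) : ℂ) ∈ closedBall (0 : ℂ) 1 := by
  rw [mem_closedBall_zero_iff, norm_div, Complex.norm_real, Real.norm_of_nonneg (max_pos' z).le,
    div_le_one (max_pos' z)]
  exact le_max_right _ _

theorem rex_of_le {h : ℂ → ℂ} {z : ℂ} (hz : ‖z‖ ≤ 1) : rex h z = h z := by
  simp [rex, max_eq_left hz]

theorem rex_of_ge {h : ℂ → ℂ} {z : ℂ} (hz : 1 ≤ ‖z‖) : rex h z = (‖z‖ : ℂ) * h (z / (‖z‖ : ℂ)) := by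
  simp [rex, max_eq_right hz]

theorem continuous_rex {h : ℂ → ℂ} (hc : ContinuousOn h (closedBall 0 1)) : Continuous (rex h) := by
  have h1 : Continuous fun z : ℂ => ((max 1 ‖z‖ : ℝ) : ℂ) := by fun_prop
  have h2 : Continuous fun z : ℂ => z / ((max 1 ‖z‖ : ℝ) : ℂ) :=
    continuous_id.div h1 fun z => by exact_mod_cast (max_pos' z).ne'
  exact h1.mul (hc.comp_continuous h2 div_max_mem)

/-- A homeomorphism of the closed disc and its inverse. -/
structure DH (h k : ℂ → ℂ) : Prop where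
  hc : ContinuousOn h (closedBall 0 1)
  kc : ContinuousOn k (closedBall 0 1)
  hb : ∀ z, ‖z‖ < 1 → ‖h z‖ < 1
  kb : ∀ z, ‖z‖ < 1 → ‖k z‖ < 1
  hs : ∀ z, ‖z‖ = 1 → ‖h z‖ = 1
  ks : ∀ z, ‖z‖ = 1 → ‖k z‖ = 1
  kh : ∀ z, ‖z‖ ≤ 1 → k (h z) = z
  hk : ∀ z, ‖z‖ ≤ 1 → h (k z) = z

theorem DH.symm {h k : ℂ → ℂ} (H : DH h k) : DH k h :=
  ⟨H.kc, H.hc, H.kb, H.hb, H.ks, H.hs, H.hk, H.kh⟩

theorem DH.rex_rex {h k : ℂ → ℂ} (H : DH h k) (z : ℂ) : rex k (rex h z) = z := by
  rcases lt_or_ge ‖z‖ 1 with hz | hz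
  · rw [rex_of_le hz.le, rex_of_le (H.hb z hz).le, H.kh z hz.le]
  · have h0 : (‖z‖ : ℂ) ≠ 0 := by
      have : ‖z‖ ≠ 0 := by positivity
      exact_mod_cast this
    have h1 : ‖z / (‖z‖ : ℂ)‖ = 1 := by
      rw [norm_div, Complex.norm_real, norm_norm, div_self]
      positivity
    have h2 : ‖rex h z‖ = ‖z‖ := by
      rw [rex_of_ge hz, norm_mul, H.hs _ h1, mul_one, Complex.norm_real, norm_norm]
    rw [rex_of_ge (h2 ▸ hz), h2, rex_of_ge hz, mul_div_cancel_left₀ _ h0, H.kh _ h1.le,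
      mul_div_cancel₀ _ h0]

/-- The radial extension as a homeomorphism of the plane. -/
noncomputable def DH.homeo {h k : ℂ → ℂ} (H : DH h k) : ℂ ≃ₜ ℂ where
  toFun := rex h
  invFun := rex k
  left_inv := H.rex_rex
  right_inv := H.symm.rex_rex
  continuous_toFun := continuous_rex H.hc
  continuous_invFun := continuous_rex H.kc

theorem DH.homeo_apply {h k : ℂ → ℂ} (H : DH h k) {z : ℂ} (hz : ‖z‖ ≤ 1) : H.homeo z = h z :=
  rex_of_le hz

/-! ### Winding numbers -/

/-- The winding number of the image of a curve around the origin under a conformal map. -/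
theorem incOn_conf {f : ℂ → ℂ} (hc : ContinuousOn f (closedBall 0 1))
    (hi : InjOn f (closedBall 0 1)) {w : ℂ} (hw : w ∈ ball (0 : ℂ) 1)
    (hd : DifferentiableAt ℂ f w) (hd0 : deriv f w ≠ 0) {r : ℝ → ℝ} (hr : Continuous r)
    (hr1 : ∀ t, r t ≤ 1) (hrw : ∀ t, ‖w‖ < r t) (hr2 : r (2 * Real.pi) = r 0) :
    IncOn (fun t => f (r t * Complex.exp (t * Complex.I))) 0 (2 * Real.pi) (f w)
      (2 * Real.pi * Complex.I) := by
  have hr0 : ∀ t, 0 < r t := fun t => (norm_nonneg w).trans_lt (hrw t)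
  have hw' : w ∈ closedBall (0 : ℂ) 1 := ball_subset_closedBall hw
  have hζ : ∀ t : ℝ, (r t : ℂ) * Complex.exp (t * Complex.I) ∈ closedBall (0 : ℂ) 1 := by
    intro t
    rw [mem_closedBall_zero_iff, norm_mul, Complex.norm_exp_ofReal_mul_I, mul_one,
      Complex.norm_real, Real.norm_of_nonneg (hr0 t).le]
    exact hr1 t
  -- the logarithm of the difference quotient
  have h1 : ContinuousOn (dslope f w) (closedBall 0 1) :=
    (continuousOn_dslope (mem_of_superset (isOpen_ball.mem_nhds hw) ball_subset_closedBall)).2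
      ⟨hc, hd⟩
  have h2 : ∀ z ∈ closedBall (0 : ℂ) 1, dslope f w z ≠ 0 := by
    intro z hz h0
    rcases eq_or_ne z w with rfl | hne
    · rw [dslope_same] at h0
      exact hd0 h0
    · have h3 : (z - w) • dslope f w z = f z - f w := sub_smul_dslope f w z
      rw [h0, smul_zero] at h3
      exact hne (hi hz hw' (sub_eq_zero.1 h3.symm))
  obtain ⟨L, hL, hL'⟩ := hasLogOn_of_convex (convex_closedBall (0 : ℂ) 1) _ h1 h2
  have hslit : ∀ t : ℝ, (r t : ℂ) - w * Complex.exp (-(t * Complex.I)) ∈ Complex.slitPlane := by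
    intro t
    left
    have h3 : (w * Complex.exp (-(t * Complex.I))).re ≤ ‖w‖ := by
      refine (Complex.re_le_norm _).trans ?_
      rw [norm_mul, show -((t : ℂ) * Complex.I) = ((-t : ℝ) : ℂ) * Complex.I by push_cast; ring,
        Complex.norm_exp_ofReal_mul_I, mul_one]
    rw [Complex.sub_re, Complex.ofReal_re]
    linarith [hrw t]
  refine ⟨fun t => L (r t * Complex.exp (t * Complex.I)) +
    Complex.log ((r t : ℂ) - w * Complex.exp (-(t * Complex.I))) + t * Complex.I, ?_, ?_, ?_⟩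
  · refine Continuous.continuousOn ?_
    refine ((hL.comp_continuous (by fun_prop) hζ).add ?_).add (by fun_prop)
    exact Continuous.clog (by fun_prop) hslit
  · intro t _
    rw [Complex.exp_add, Complex.exp_add, hL' _ (hζ t),
      Complex.exp_log (Complex.slitPlane_ne_zero (hslit t))]
    have h3 : ((r t : ℂ) * Complex.exp (t * Complex.I) - w) •
        dslope f w (r t * Complex.exp (t * Complex.I)) =
        f (r t * Complex.exp (t * Complex.I)) - f w := sub_smul_dslope f w _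
    rw [← h3, smul_eq_mul]
    have h4 : Complex.exp (-(t * Complex.I)) * Complex.exp (t * Complex.I) = 1 := by
      rw [← Complex.exp_add]; simp
    linear_combination (-(w * dslope f w (r t * Complex.exp (t * Complex.I)))) * h4
  · have h3 : Complex.exp (((2 * Real.pi : ℝ) : ℂ) * Complex.I) = 1 := by
      push_cast; exact Complex.exp_two_pi_mul_I
    have h4 : Complex.exp (-(((2 * Real.pi : ℝ) : ℂ) * Complex.I)) = 1 := by
      rw [Complex.exp_neg, h3, inv_one]
    simp only [h3, h4, hr2, Complex.ofReal_zero, zero_mul, neg_zero, Complex.exp_zero, add_zero]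
    push_cast
    ring

end Vale.Agent.P167.N.ST2
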