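import Vale.Agent.P167.N.ST2.PhiA

/-!
# P167, general `q`, `N`, Stage II, block ST2-PHI: the conformal parametrisation
-/

set_option autoImplicit false

namespace Vale.Agent.P167.N.ST2

open Set Metric Topology Filter
open Vale.Agent.P167.E6 (Approx dir pt)
open Vale.Agent.P167.H634.Apx (Pos)
open Vale.Agent.P167.H397.Q (IncOn)
open Vale.Agent.P153.R2.Final (circ toC dom IsUniformizer)
open Vale.Agent.P153.R2.R1 (CConf IsU DC FC homC toCH FC_eq DC_eq closure_DC frontier_DC isOpen_DC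
  jcurve_FC good_DC exists_uniformizer isUniformizer_iff toDisc toDisc_one toDisc_neg_one)
open P153.TOP (LogOn HasLogOn hasLogOn_of_convex log_diff_const)

/-- Composition with a homeomorphism of the complex plane. -/
noncomputable def cp (Φ : (ℝ × ℝ) ≃ₜ (ℝ × ℝ)) (H : ℂ ≃ₜ ℂ) : (ℝ × ℝ) ≃ₜ (ℝ × ℝ) :=
  ((toCH.trans H).trans toCH.symm).trans Φ

theorem homC_cp (Φ : (ℝ × ℝ) ≃ₜ (ℝ × ℝ)) (H : ℂ ≃ₜ ℂ) (z : ℂ) :
    homC (cp Φ H) z = homC Φ (H z) := by
  show toCH (Φ (toCH.symm (H (toCH (toCH.symm z))))) = toCH (Φ (toCH.symm (H z)))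
  rw [toCH.apply_symm_apply]

theorem DC_cp (Φ : (ℝ × ℝ) ≃ₜ (ℝ × ℝ)) (H : ℂ ≃ₜ ℂ) :
    DC (cp Φ H) = homC Φ '' (H '' ball 0 1) := by
  rw [DC_eq, image_image]
  exact image_congr fun z _ => homC_cp Φ H z

variable {Φ : (ℝ × ℝ) ≃ₜ (ℝ × ℝ)}

/-- The Riemann map of a marked domain. -/
theorem exists_disc (Φ : (ℝ × ℝ) ≃ₜ (ℝ × ℝ)) :
    ∃ f : ℂ → ℂ, CConf f (DC Φ) ∧ f 1 = FC Φ 0 ∧ f (-1) = FC Φ Real.pi := by
  obtain ⟨ψ, hψ⟩ := exists_uniformizer Φ
  have h := (isUniformizer_iff Φ ψ).1 hψ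
  refine ⟨fun z => toDisc ψ (FC Φ Real.pi) ((-1) * z), h.toDisc.comp_rot (by simp), ?_, ?_⟩
  · simp only [mul_one]
    exact toDisc_neg_one h
  · simp only [mul_neg, mul_one, neg_neg]
    exact toDisc_one

theorem frontier_DC' (Φ : (ℝ × ℝ) ≃ₜ (ℝ × ℝ)) : frontier (DC Φ) = homC Φ '' sphere 0 1 := by
  rw [DC_eq, ← (homC Φ).image_frontier, frontier_ball 0 one_ne_zero]

/-- The change of coordinates. -/
theorem dh {f : ℂ → ℂ} (hf : CConf f (DC Φ)) :
    DH (fun z => (homC Φ).symm (f z))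
      (fun z => Function.invFunOn f (closedBall 0 1) (homC Φ z)) := by
  have hi := hf.injOn (good_DC Φ).nocut
  have h1 : ∀ z, ‖z‖ ≤ 1 → homC Φ z ∈ f '' closedBall 0 1 := by
    intro z hz
    rw [hf.closure_eq, closure_DC]
    exact mem_image_of_mem _ (mem_closedBall_zero_iff.2 hz)
  have h2 : ∀ z, ‖z‖ ≤ 1 → Function.invFunOn f (closedBall 0 1) (homC Φ z) ∈
      closedBall (0 : ℂ) 1 := fun z hz => Function.invFunOn_mem (h1 z hz)
  have h3 : ∀ z, ‖z‖ ≤ 1 → f (Function.invFunOn f (closedBall 0 1) (homC Φ z)) = homC Φ z :=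
    fun z hz => Function.invFunOn_eq (h1 z hz)
  have hdis : ∀ z, z ∈ DC Φ → z ∉ frontier (DC Φ) := by
    intro z hz hz'
    rw [(isOpen_DC Φ).frontier_eq] at hz'
    exact hz'.2 hz
  constructor
  · exact (homC Φ).symm.continuous.comp_continuousOn hf.cont
  · intro z hz
    have hz' : ‖z‖ ≤ 1 := mem_closedBall_zero_iff.1 hz
    refine hf.tendsto_inv (good_DC Φ).nocut (l := 𝓝[closedBall 0 1] z) ?_ (h2 z hz') ?_
    · filter_upwards [self_mem_nhdsWithin] with w hw
      exact h2 w (mem_closedBall_zero_iff.1 hw)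
    · rw [h3 z hz']
      refine Tendsto.congr' ?_ ((homC Φ).continuous.tendsto z |>.mono_left nhdsWithin_le_nhds)
      filter_upwards [self_mem_nhdsWithin] with w hw
      exact (h3 w (mem_closedBall_zero_iff.1 hw)).symm
  · intro z hz
    have h4 : f z ∈ DC Φ := hf.mem (mem_ball_zero_iff.2 hz)
    rw [DC_eq] at h4
    obtain ⟨w, hw, hwz⟩ := h4
    show ‖(homC Φ).symm (f z)‖ < 1
    rw [← hwz, Homeomorph.symm_apply_apply]
    exact mem_ball_zero_iff.1 hw
  · intro z hz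
    refine lt_of_le_of_ne (mem_closedBall_zero_iff.1 (h2 z hz.le)) fun he => ?_
    have h4 := hf.sphere_mem (mem_sphere_zero_iff_norm.2 he)
    rw [h3 z hz.le] at h4
    refine hdis _ ?_ h4
    rw [DC_eq]
    exact mem_image_of_mem _ (mem_ball_zero_iff.2 hz)
  · intro z hz
    have h4 := hf.sphere_mem (mem_sphere_zero_iff_norm.2 hz)
    rw [frontier_DC'] at h4
    obtain ⟨w, hw, hwz⟩ := h4
    show ‖(homC Φ).symm (f z)‖ = 1
    rw [← hwz, Homeomorph.symm_apply_apply]
    exact mem_sphere_zero_iff_norm.1 hw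
  · intro z hz
    refine le_antisymm (mem_closedBall_zero_iff.1 (h2 z hz.le)) (not_lt.1 fun he => ?_)
    have h4 := hf.mem (mem_ball_zero_iff.2 he)
    rw [h3 z hz.le] at h4
    refine hdis _ h4 ?_
    rw [frontier_DC']
    exact mem_image_of_mem _ (mem_sphere_zero_iff_norm.2 hz)
  · intro z hz
    have h4 : homC Φ ((homC Φ).symm (f z)) = f z := (homC Φ).apply_symm_apply _
    have h5 : ‖(homC Φ).symm (f z)‖ ≤ 1 := by
      have h6 : f z ∈ homC Φ '' closedBall 0 1 := by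
        rw [← closure_DC, ← hf.closure_eq]
        exact mem_image_of_mem _ (mem_closedBall_zero_iff.2 hz)
      obtain ⟨w, hw, hwz⟩ := h6
      rw [← hwz, Homeomorph.symm_apply_apply]
      exact mem_closedBall_zero_iff.1 hw
    have h6 := h3 _ h5
    rw [h4] at h6
    show Function.invFunOn f (closedBall 0 1) (homC Φ ((homC Φ).symm (f z))) = z
    rw [h4]
    exact hi (h4 ▸ h2 _ h5) (mem_closedBall_zero_iff.2 hz) h6
  · intro z hz
    show (homC Φ).symm (f (Function.invFunOn f (closedBall 0 1) (homC Φ z))) = z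
    rw [h3 z hz, Homeomorph.symm_apply_apply]

/-- The conformal parametrisation of the domain. -/
noncomputable def conf {f : ℂ → ℂ} (hf : CConf f (DC Φ)) : (ℝ × ℝ) ≃ₜ (ℝ × ℝ) := cp Φ (dh hf).homeo

theorem homC_conf {f : ℂ → ℂ} (hf : CConf f (DC Φ)) {z : ℂ} (hz : ‖z‖ ≤ 1) :
    homC (conf hf) z = f z := by
  rw [conf, homC_cp, DH.homeo_apply _ hz]
  exact (homC Φ).apply_symm_apply _

theorem DC_conf {f : ℂ → ℂ} (hf : CConf f (DC Φ)) : DC (conf hf) = DC Φ := by
  rw [DC_eq, ← hf.img]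
  exact image_congr fun z hz => homC_conf hf (mem_ball_zero_iff.1 hz).le

theorem norm_exp (t : ℝ) : ‖Complex.exp (t * Complex.I)‖ = 1 := Complex.norm_exp_ofReal_mul_I t

theorem FC_conf {f : ℂ → ℂ} (hf : CConf f (DC Φ)) (t : ℝ) :
    FC (conf hf) t = f (Complex.exp (t * Complex.I)) := by
  rw [FC_eq, homC_conf hf (norm_exp t).le]

theorem exp_two_pi : Complex.exp (((2 * Real.pi : ℝ) : ℂ) * Complex.I) = 1 := by
  push_cast
  exact Complex.exp_two_pi_mul_I

/-- Points with the same angle. -/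
theorem exp_eq {s t : ℝ} (h : Complex.exp (s * Complex.I) = Complex.exp (t * Complex.I)) :
    ∃ n : ℤ, s = t + n * (2 * Real.pi) := by
  obtain ⟨n, hn⟩ := Complex.exp_eq_exp_iff_exists_int.1 h
  refine ⟨n, ?_⟩
  have h2 : ((s : ℂ) - (t + n * (2 * Real.pi))) * Complex.I = 0 := by linear_combination hn
  have h3 := (mul_eq_zero.1 h2).resolve_right Complex.I_ne_zero
  have h4 : (s : ℂ) = ((t + n * (2 * Real.pi) : ℝ) : ℂ) := by
    push_cast
    exact sub_eq_zero.1 h3
  exact_mod_cast h4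

theorem add_int {σ : ℝ → ℝ} {c : ℝ} (h : ∀ t, σ (t + 2 * Real.pi) = σ t + c) (n : ℤ) (t : ℝ) :
    σ (t + n * (2 * Real.pi)) = σ t + n * c := by
  have hp : Function.Periodic (fun t => σ t - t / (2 * Real.pi) * c) (2 * Real.pi) := by
    intro t
    have : 2 * Real.pi ≠ 0 := by positivity
    simp only [h]
    field_simp
    ring
  have h1 := hp.int_mul n t
  have : 2 * Real.pi ≠ 0 := by positivity
  have h2 : (t + n * (2 * Real.pi)) / (2 * Real.pi) = t / (2 * Real.pi) + n := by field_simp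
  rw [h2] at h1
  linear_combination h1

/-- **The conformal parametrisation is an increasing reparametrisation.** -/
theorem exists_rep (hP : Pos Φ) {f : ℂ → ℂ} (hf : CConf f (DC Φ)) (h1 : f 1 = FC Φ 0)
    (hm1 : f (-1) = FC Φ Real.pi) : ∃ σ, Rep Φ (conf hf) σ ∧ Pos (conf hf) := by
  have hpi := Real.pi_pos
  have hJ := jcurve_FC Φ
  have hi := hf.injOn (good_DC Φ).nocut
  obtain ⟨z₀, hz₀, hI⟩ := hP
  set h : ℂ → ℂ := fun z => (homC Φ).symm (f z) with hh
  have H := dh hf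
  have e0 : h 1 = 1 := by
    simp only [hh, h1, FC_eq]
    simp
  have epi : h (-1) = -1 := by
    simp only [hh, hm1, FC_eq]
    simp
  have hexp : Continuous fun t : ℝ => Complex.exp (t * Complex.I) := by fun_prop
  have hec : ∀ t : ℝ, Complex.exp (t * Complex.I) ∈ closedBall (0 : ℂ) 1 := fun t =>
    mem_closedBall_zero_iff.2 (norm_exp t).le
  have hn : ∀ t : ℝ, ‖h (Complex.exp (t * Complex.I))‖ = 1 := fun t => H.hs _ (norm_exp t)
  obtain ⟨F, hF, hF'⟩ := hasLogOn_of_convex (convex_univ (𝕜 := ℝ) (E := ℝ))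
    (fun t : ℝ => h (Complex.exp (t * Complex.I)))
    ((H.hc.comp_continuous hexp hec).continuousOn) (fun t _ h0 => by
      have := hn t
      rw [h0, norm_zero] at this
      exact zero_ne_one this)
  have hF1 : Continuous F := continuousOn_univ.1 hF
  have hF2 : ∀ t : ℝ, Complex.exp (F t) = h (Complex.exp (t * Complex.I)) := fun t =>
    hF' t (mem_univ t)
  have hre : ∀ t, (F t).re = 0 := by
    intro t
    have h2 := congrArg norm (hF2 t)
    rw [hn, Complex.norm_exp] at h2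
    exact (Real.exp_eq_one_iff _).1 h2
  have hFe : ∀ t, F t = ((F t).im : ℂ) * Complex.I := by
    intro t
    apply Complex.ext
    · simp [hre]
    · simp
  have hF0 : Complex.exp (F 0) = 1 := by
    rw [hF2]
    simp [e0]
  set σ : ℝ → ℝ := fun t => (F t).im - (F 0).im with hσ
  have hσ0 : σ 0 = 0 := by simp [hσ]
  have hσc : Continuous σ := (Complex.continuous_im.comp hF1).sub continuous_const
  have hσe : ∀ t : ℝ, Complex.exp (σ t * Complex.I) = h (Complex.exp (t * Complex.I)) := by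
    intro t
    have h2 : (σ t : ℂ) * Complex.I = F t - F 0 := by
      rw [hFe t, hFe 0]
      simp only [hσ, Complex.ofReal_sub, Complex.im_ofReal_mul, Complex.I_im, mul_one]
      ring
    rw [h2, Complex.exp_sub, hF0, div_one, hF2]
  have hFC : ∀ t, FC (conf hf) t = FC Φ (σ t) := by
    intro t
    rw [FC_conf, FC_eq, hσe]
    exact ((homC Φ).apply_symm_apply _).symm
  -- the index of the conformal curve
  obtain ⟨w, hw, rfl⟩ : z₀ ∈ f '' ball 0 1 := by rwa [hf.img]
  have hI0 : IncOn (FC (conf hf)) 0 (2 * Real.pi) (f w) (2 * Real.pi * Complex.I) := by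
    have h2 := incOn_conf hf.cont hi hw (hf.diff.differentiableAt (isOpen_ball.mem_nhds hw))
      (hf.deriv_ne hw) (r := fun _ => 1) continuous_const (fun _ => le_rfl)
      (fun _ => mem_ball_zero_iff.1 hw) rfl
    refine h2.congr fun t _ => ?_
    rw [FC_conf]
    simp
  -- a logarithm along the boundary curve
  have hne : ∀ t, FC Φ t - f w ≠ 0 := by
    intro t h0
    have h2 : FC Φ t ∈ frontier (DC Φ) := by
      rw [frontier_DC]; exact mem_range_self t
    rw [sub_eq_zero.1 h0, (isOpen_DC Φ).frontier_eq] at h2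
    exact h2.2 hz₀
  obtain ⟨Θ, hΘ, hΘ'⟩ := hasLogOn_of_convex (convex_univ (𝕜 := ℝ) (E := ℝ))
    (fun t : ℝ => FC Φ t - f w) (hJ.cont.sub continuous_const).continuousOn (fun t _ => hne t)
  have hΘ1 : Continuous Θ := continuousOn_univ.1 hΘ
  have hΘ2 : ∀ t, Complex.exp (Θ t) = FC Φ t - f w := fun t => hΘ' t (mem_univ t)
  have hΘ3 : Θ (2 * Real.pi) - Θ 0 = 2 * Real.pi * Complex.I :=
    IncOn.unique (by positivity) ⟨Θ, hΘ1.continuousOn, fun t _ => hΘ2 t, rfl⟩ hI
  have hΘ4 : ∀ t, Θ (t + 2 * Real.pi) - Θ t = 2 * Real.pi * Complex.I := by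
    intro t
    rw [← hΘ3]
    have := log_diff_const (A := (univ : Set ℝ)) isPreconnected_univ
      (F := fun t => Θ (t + 2 * Real.pi)) (G := Θ) (hΘ1.comp (by fun_prop)).continuousOn
      hΘ1.continuousOn (fun t _ => by rw [hΘ2, hΘ2, hJ.per]) (mem_univ t) (mem_univ 0)
    simpa using this
  have hΘ5 : ∀ n : ℤ, Θ (n * (2 * Real.pi)) - Θ 0 = n * (2 * Real.pi * Complex.I) := by
    intro n
    have hp : Function.Periodic (fun t : ℝ => Θ t - t * Complex.I) (2 * Real.pi) := by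
      intro t
      have h2 := hΘ4 t
      simp only
      push_cast
      linear_combination h2
    have h2 := hp.int_mul n 0
    simp only [zero_add, Complex.ofReal_zero, zero_mul, sub_zero] at h2
    push_cast at h2
    linear_combination h2
  -- the degree
  have hdeg : σ (2 * Real.pi) = 2 * Real.pi := by
    have h2 : Complex.exp (σ (2 * Real.pi) * Complex.I) = Complex.exp ((0 : ℝ) * Complex.I) := by
      rw [hσe, exp_two_pi, e0]
      simp
    obtain ⟨n, hn⟩ := exp_eq h2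
    rw [zero_add] at hn
    have h3 : Θ (σ (2 * Real.pi)) - Θ (σ 0) = 2 * Real.pi * Complex.I :=
      IncOn.unique (by positivity) ⟨fun t => Θ (σ t), (hΘ1.comp hσc).continuousOn, fun t _ => by
        rw [hΘ2, hFC], rfl⟩ hI0
    rw [hσ0, hn, hΘ5] at h3
    have h4 : (n : ℂ) = 1 := mul_right_cancel₀ Complex.two_pi_I_ne_zero (by rw [one_mul]; exact h3)
    have h5 : n = 1 := by exact_mod_cast h4
    rw [hn, h5]
    simp
  have hper : ∀ t, σ (t + 2 * Real.pi) = σ t + 2 * Real.pi := by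
    intro t
    have h2 := log_diff_const (A := (univ : Set ℝ)) isPreconnected_univ
      (F := fun t => (σ (t + 2 * Real.pi) : ℂ) * Complex.I) (G := fun t => (σ t : ℂ) * Complex.I)
      (by fun_prop) (by fun_prop) (fun t _ => by
        rw [hσe, hσe]
        congr 1
        push_cast
        rw [add_mul, Complex.exp_add, Complex.exp_two_pi_mul_I, mul_one])
      (mem_univ t) (mem_univ 0)
    simp only [zero_add, hdeg, hσ0] at h2
    have h3 := congrArg Complex.im h2
    simp at h3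
    linarith
  have hinj : Function.Injective σ := by
    intro s t hst
    have h2 : h (Complex.exp (s * Complex.I)) = h (Complex.exp (t * Complex.I)) := by
      rw [← hσe, ← hσe, hst]
    have h3 := congrArg (fun z => Function.invFunOn f (closedBall 0 1) (homC Φ z)) h2
    rw [H.kh _ (norm_exp s).le, H.kh _ (norm_exp t).le] at h3
    obtain ⟨n, hn⟩ := exp_eq h3
    have h4 := add_int hper n t
    rw [← hn, hst] at h4
    have h5 : (n : ℝ) * (2 * Real.pi) = 0 := by linarith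
    rw [hn, h5, add_zero]
  have hmono : StrictMono σ := by
    rcases hσc.strictMono_of_inj hinj with h2 | h2
    · exact h2
    · exfalso
      have h3 : σ (2 * Real.pi) < σ 0 := h2 (by positivity)
      rw [hdeg, hσ0] at h3
      linarith
  have hpi' : σ Real.pi = Real.pi := by
    have h2 : Complex.exp (σ Real.pi * Complex.I) = Complex.exp (Real.pi * Complex.I) := by
      rw [hσe, Complex.exp_pi_mul_I, epi]
    obtain ⟨n, hn⟩ := exp_eq h2
    have h3 : σ 0 < σ Real.pi := hmono hpi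
    have h4 : σ Real.pi < σ (2 * Real.pi) := hmono (by linarith)
    rw [hσ0, hn] at h3
    rw [hdeg, hn] at h4
    have h5 : (-1 : ℝ) < n := by
      by_contra hcon
      push Not at hcon
      nlinarith
    have h6 : (n : ℝ) < 1 := by
      by_contra hcon
      push Not at hcon
      nlinarith
    have h7 : (-1 : ℤ) < n := by exact_mod_cast h5
    have h8 : n < 1 := by exact_mod_cast h6
    have h9 : n = 0 := by omega
    rw [hn, h9]
    simp
  refine ⟨σ, ⟨hσc, hmono, hper, hσ0, hpi', hFC, DC_conf hf⟩, f w, ?_, hI0⟩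
  rw [DC_conf]
  exact hz₀

/-- **(ST2-PHI), first part.** -/
theorem exists_conf (hP : Pos Φ) : ∃ (Φ₀ : (ℝ × ℝ) ≃ₜ (ℝ × ℝ)) (σ : ℝ → ℝ),
    Rep Φ Φ₀ σ ∧ Pos Φ₀ ∧ DifferentiableOn ℂ (homC Φ₀) (ball 0 1) := by
  obtain ⟨f, hf, h1, h2⟩ := exists_disc Φ
  obtain ⟨σ, hσ, hp⟩ := exists_rep hP hf h1 h2
  refine ⟨conf hf, σ, hσ, hp, hf.diff.congr fun z hz => homC_conf hf (mem_ball_zero_iff.1 hz).le⟩

/-! ### Transport -/

theorem Rep.isUniformizer {Φ₀ : (ℝ × ℝ) ≃ₜ (ℝ × ℝ)} {σ : ℝ → ℝ} (h : Rep Φ Φ₀ σ) (ψ : ℂ → ℂ) :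
    IsUniformizer Φ₀ ψ ↔ IsUniformizer Φ ψ := by
  rw [isUniformizer_iff, isUniformizer_iff, h.dom, h.eq, h.eq, h.zero, h.pi]

/-- The reparametrisation as an order isomorphism. -/
theorem Rep.surj {Φ₀ : (ℝ × ℝ) ≃ₜ (ℝ × ℝ)} {σ : ℝ → ℝ} (h : Rep Φ Φ₀ σ) :
    Function.Surjective σ := by
  have hpi := Real.pi_pos
  intro y
  obtain ⟨n, hn⟩ := exists_int_gt (y / (2 * Real.pi))
  obtain ⟨m, hm⟩ := exists_int_lt (y / (2 * Real.pi))
  have h1 := add_int h.per n 0
  have h2 := add_int h.per m 0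
  rw [zero_add, h.zero, zero_add] at h1 h2
  have h3 : y < n * (2 * Real.pi) := by rwa [div_lt_iff₀ (by positivity)] at hn
  have h4 : m * (2 * Real.pi) < y := by rwa [lt_div_iff₀ (by positivity)] at hm
  have h5 := intermediate_value_Icc (a := (m : ℝ) * (2 * Real.pi)) (b := (n : ℝ) * (2 * Real.pi))
    (by linarith) h.cont.continuousOn
  obtain ⟨x, -, hx⟩ := h5 (show y ∈ Icc _ _ from ⟨by rw [h2]; exact h4.le, by rw [h1]; exact h3.le⟩)
  exact ⟨x, hx⟩

/-- The same polygons approximate the reparametrised domain. -/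
theorem Rep.approx {Φ₀ : (ℝ × ℝ) ≃ₜ (ℝ × ℝ)} {σ : ℝ → ℝ} (h : Rep Φ Φ₀ σ) {δ : ℕ → ℝ}
    {N k : ℕ → ℕ} {p : ∀ n, ZMod (N n) → ℤ × ℤ} {S : ℕ → Finset (ℤ × ℤ)} :
    Approx Φ δ N k p S ↔ Approx Φ₀ δ N k p S := by
  have hFC : ∀ t, toC (Φ₀ (circ t)) = toC (Φ (circ (σ t))) := h.eq
  have h2pi : σ (2 * Real.pi) = 2 * Real.pi := by
    have := h.per 0
    rwa [h.zero, zero_add] at this
  set E : ℝ ≃o ℝ := h.mono.orderIsoOfSurjective σ h.surj with hE
  have hEσ : ∀ t, E t = σ t := fun t => rfl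
  constructor
  · rintro ⟨h1, h2, h3⟩
    refine ⟨h1, h2, fun ε hε => ?_⟩
    filter_upwards [h3 ε hε] with n hn
    obtain ⟨s, hs, hs0, hsk, hsN, hx⟩ := hn
    refine ⟨fun i => E.symm (s i), E.symm.monotone.comp hs, ?_, ?_, ?_, ?_⟩
    · show E.symm (s 0) = 0
      rw [hs0, E.symm_apply_eq, hEσ, h.zero]
    · show E.symm (s (k n)) = Real.pi
      rw [hsk, E.symm_apply_eq, hEσ, h.pi]
    · show E.symm (s (N n)) = 2 * Real.pi
      rw [hsN, E.symm_apply_eq, hEσ, h2pi]
    · intro i hi t ht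
      rw [hFC]
      refine hx i hi (σ t) ⟨?_, ?_⟩
      · have h4 := E.monotone ht.1
        rwa [E.apply_symm_apply] at h4
      · have h4 := E.monotone ht.2
        rwa [E.apply_symm_apply] at h4
  · rintro ⟨h1, h2, h3⟩
    refine ⟨h1, h2, fun ε hε => ?_⟩
    filter_upwards [h3 ε hε] with n hn
    obtain ⟨s, hs, hs0, hsk, hsN, hx⟩ := hn
    refine ⟨fun i => E (s i), E.monotone.comp hs, ?_, ?_, ?_, ?_⟩
    · show E (s 0) = 0
      rw [hs0, hEσ, h.zero]
    · show E (s (k n)) = Real.pi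
      rw [hsk, hEσ, h.pi]
    · show E (s (N n)) = 2 * Real.pi
      rw [hsN, hEσ, h2pi]
    · intro i hi t ht
      have h5 : σ (E.symm t) = t := E.apply_symm_apply t
      have h4 := hx i hi (E.symm t) ⟨by rw [← E.symm_apply_apply (s i)]; exact E.symm.monotone ht.1,
        by rw [← E.symm_apply_apply (s (i + 1))]; exact E.symm.monotone ht.2⟩
      rw [hFC, h5] at h4
      exact h4

end Vale.Agent.P167.N.ST2
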