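import Vale.Agent.P167.N.ST2.PhiB

/-!
# P167, general `q`, `N`, Stage II, block ST2-PHI: preimages of straight segments in polar
coordinates
-/

set_option autoImplicit false

namespace Vale.Agent.P167.N.ST2

open Set Metric Topology Filter
open scoped ComplexConjugate
open Vale.Agent.P153.R2.R1 (Conf dinv)

/-! ### Inverses of functions with a positive derivative -/

/-- A strictly increasing continuous function on an interval around `0` extends to an order
isomorphism of the line. -/
theorem exists_ext {A : ℝ → ℝ} {c : ℝ} (hc : 0 < c) (hA : ContinuousOn A (Icc (-c) c))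
    (hm : StrictMonoOn A (Icc (-c) c)) : ∃ E : ℝ ≃o ℝ, ∀ x ∈ Icc (-c) c, E x = A x := by
  set pr : ℝ → ℝ := fun x => max (-c) (min c x) with hpr
  have hprm : ∀ x, pr x ∈ Icc (-c) c := fun x =>
    ⟨le_max_left _ _, max_le (by linarith) (min_le_left _ _)⟩
  have hprc : Continuous pr := by fun_prop
  have hpri : ∀ x ∈ Icc (-c) c, pr x = x := by
    intro x hx
    simp only [hpr]
    rw [min_eq_right hx.2, max_eq_right hx.1]
  have hprmono : ∀ x y, x ≤ y → pr x ≤ pr y ∧ x - pr x ≤ y - pr y := by
    intro x y hxy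
    simp only [hpr]
    constructor
    · exact max_le_max le_rfl (min_le_min le_rfl hxy)
    · rcases le_total c x with h1 | h1 <;> rcases le_total c y with h2 | h2 <;>
        rcases le_total (-c) x with h3 | h3 <;> rcases le_total (-c) y with h4 | h4 <;>
        simp only [min_eq_left h1, min_eq_right h1, min_eq_left h2, min_eq_right h2,
          max_eq_left h3, max_eq_right h3, max_eq_left h4, max_eq_right h4,
          max_eq_right (show -c ≤ c by linarith)] <;> linarith
  set E : ℝ → ℝ := fun x => A (pr x) + (x - pr x) with hE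
  have hEc : Continuous E := (hA.comp_continuous hprc hprm).add (by fun_prop)
  have hEm : StrictMono E := by
    intro x y hxy
    obtain ⟨h1, h2⟩ := hprmono x y hxy.le
    simp only [hE]
    rcases h1.lt_or_eq with h3 | h3
    · have := hm (hprm x) (hprm y) h3
      linarith
    · rw [h3]
      linarith
  have hEs : Function.Surjective E := by
    intro y
    refine mem_range_of_exists_le_of_exists_ge hEc ⟨min (-c) (y - A (-c) - c), ?_⟩
      ⟨max c (y - A c + c), ?_⟩
    · have h1 : pr (min (-c) (y - A (-c) - c)) = -c := by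
        simp only [hpr]
        have h2 := min_le_left (-c) (y - A (-c) - c)
        rw [min_eq_right (h2.trans (by linarith)), max_eq_left h2]
      simp only [hE, h1]
      have := min_le_right (-c) (y - A (-c) - c)
      linarith
    · have h1 : pr (max c (y - A c + c)) = c := by
        simp only [hpr]
        have h2 := le_max_left c (y - A c + c)
        rw [min_eq_left h2, max_eq_right (by linarith)]
      simp only [hE, h1]
      have := le_max_right c (y - A c + c)
      linarith
  refine ⟨hEm.orderIsoOfSurjective E hEs, fun x hx => ?_⟩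
  show E x = A x
  simp only [hE, hpri x hx]
  ring

/-! ### The preimage of a segment -/

/-- The preimage of a segment whose direction has a positive component along the image of the circle
is a graph over the angle. -/
theorem exists_straight {f : ℂ → ℂ} {D : Set ℂ} (hf : Conf f D) {w₀ : ℂ}
    (hw : w₀ ∈ ball (0 : ℂ) 1) (hw0 : w₀ ≠ 0) {u : ℂ}
    (hu : 0 < (u / (deriv f w₀ * w₀)).im) {e : ℝ} (he : 0 < e) :
    ∃ (τ : ℝ) (ℓ R : ℝ → ℝ), 0 < τ ∧ Continuous ℓ ∧ StrictMono ℓ ∧ ℓ 0 = 0 ∧
      ContinuousOn R (Icc (-τ) τ) ∧ ∀ x ∈ Icc (-τ) τ, |R x - 1| < e ∧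
        f (w₀ * (R x * Complex.exp (x * Complex.I))) = f w₀ + ℓ x * u := by
  have hD : f w₀ ∈ D := hf.mem hw
  have hd0 := hf.deriv_ne hw
  set q : ℂ → ℂ := fun ζ => dinv f (f w₀ + ζ * u) / w₀ with hq
  have hq0 : q 0 = 1 := by
    simp only [hq, zero_mul, add_zero, hf.dinv_apply hw]
    exact div_self hw0
  set U : Set ℂ := (fun ζ : ℂ => f w₀ + ζ * u) ⁻¹' D with hU
  have hUo : IsOpen U := hf.isOpen.preimage (by fun_prop)
  have hU0 : (0 : ℂ) ∈ U := by
    show f w₀ + 0 * u ∈ D
    rwa [zero_mul, add_zero]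
  have hqd : DifferentiableOn ℂ q U :=
    (hf.dinv_differentiableOn.comp (t := D) (f := fun ζ : ℂ => f w₀ + ζ * u) (by fun_prop)
      (fun ζ hζ => hζ)).div_const w₀
  have hqa : AnalyticAt ℂ q 0 := hqd.analyticAt (hUo.mem_nhds hU0)
  have hs0 : q 0 ∈ Complex.slitPlane := by rw [hq0]; exact Complex.one_mem_slitPlane
  set lg : ℂ → ℂ := fun ζ => Complex.log (q ζ) with hlg
  have hla : AnalyticAt ℂ lg 0 := hqa.clog hs0
  have hlg0 : lg 0 = 0 := by simp only [hlg, hq0, Complex.log_one]
  have hld : deriv lg 0 = u / (deriv f w₀ * w₀) := by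
    have h1 : HasDerivAt (fun ζ : ℂ => f w₀ + ζ * u) u 0 := by
      simpa using ((hasDerivAt_id (0 : ℂ)).mul_const u).const_add (f w₀)
    have h2 : HasDerivAt (dinv f) (deriv f w₀)⁻¹ (f w₀ + 0 * u) := by
      rw [zero_mul, add_zero]
      exact hf.dinv_hasDerivAt hw hd0
    have h3 : HasDerivAt q ((deriv f w₀)⁻¹ * u / w₀) 0 := (h2.comp 0 h1).div_const w₀
    have h4 := (h3.clog hs0).deriv
    rw [hq0, div_one] at h4
    rw [show deriv lg 0 = deriv (fun ζ => Complex.log (q ζ)) 0 from rfl, h4]
    field_simp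
  -- the good neighbourhood
  have ev : ∀ᶠ ζ : ℂ in 𝓝 0, 0 < (deriv lg ζ).im ∧ DifferentiableAt ℂ lg ζ ∧ ζ ∈ U ∧
      |‖q ζ‖ - 1| < e ∧ q ζ ∈ Complex.slitPlane := by
    have e1 : ∀ᶠ ζ : ℂ in 𝓝 0, 0 < (deriv lg ζ).im := by
      have h1 : ContinuousAt (fun ζ => (deriv lg ζ).im) 0 :=
        Complex.continuous_im.continuousAt.comp hla.deriv.continuousAt
      refine h1.eventually (lt_mem_nhds ?_)
      show 0 < (deriv lg 0).im
      rw [hld]
      exact hu
    have e2 : ∀ᶠ ζ : ℂ in 𝓝 0, DifferentiableAt ℂ lg ζ :=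
      hla.eventually_analyticAt.mono fun ζ h => h.differentiableAt
    have e3 : ∀ᶠ ζ : ℂ in 𝓝 0, |‖q ζ‖ - 1| < e := by
      have h1 : ContinuousAt (fun ζ => |‖q ζ‖ - 1|) 0 :=
        (hqa.continuousAt.norm.sub continuousAt_const).abs
      refine h1.eventually (gt_mem_nhds ?_)
      show |‖q 0‖ - 1| < e
      rw [hq0]
      simpa using he
    have e4 : ∀ᶠ ζ : ℂ in 𝓝 0, q ζ ∈ Complex.slitPlane :=
      hqa.continuousAt.eventually (Complex.isOpen_slitPlane.mem_nhds hs0)
    filter_upwards [e1, e2, hUo.mem_nhds hU0, e3, e4] with ζ h1 h2 h3 h4 h5 using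
      ⟨h1, h2, h3, h4, h5⟩
  obtain ⟨ε, hε, hball⟩ := Metric.eventually_nhds_iff_ball.1 ev
  set c : ℝ := ε / 2 with hc
  have hc0 : 0 < c := by positivity
  have hmem : ∀ x ∈ Icc (-c) c, (x : ℂ) ∈ ball (0 : ℂ) ε := by
    intro x hx
    rw [mem_ball_zero_iff, Complex.norm_real, Real.norm_eq_abs]
    have := abs_le.2 hx
    linarith
  set A : ℝ → ℝ := fun x => (lg x).im with hAd
  have hAder : ∀ x ∈ Icc (-c) c, HasDerivAt A (deriv lg x).im x := by
    intro x hx
    have h1 : HasDerivAt (fun y : ℝ => lg y) (deriv lg x) x :=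
      (hball _ (hmem x hx)).2.1.hasDerivAt.comp_ofReal
    exact Complex.imCLM.hasFDerivAt.comp_hasDerivAt x h1
  have hAc : ContinuousOn A (Icc (-c) c) := fun x hx =>
    (hAder x hx).continuousAt.continuousWithinAt
  have hAm : StrictMonoOn A (Icc (-c) c) := by
    refine strictMonoOn_of_deriv_pos (convex_Icc _ _) hAc fun x hx => ?_
    rw [interior_Icc] at hx
    have hx' := Ioo_subset_Icc_self hx
    rw [(hAder x hx').deriv]
    exact (hball _ (hmem x hx')).1
  obtain ⟨E, hE⟩ := exists_ext hc0 hAc hAm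
  have m0 : (0 : ℝ) ∈ Icc (-c) c := ⟨by linarith, hc0.le⟩
  have mc : c ∈ Icc (-c) c := ⟨by linarith, le_rfl⟩
  have mc' : -c ∈ Icc (-c) c := ⟨le_rfl, by linarith⟩
  have hE0 : E 0 = 0 := by
    rw [hE 0 m0]
    simp only [hAd, Complex.ofReal_zero, hlg0, Complex.zero_im]
  have h1 : 0 < E c := by rw [← hE0]; exact E.strictMono hc0
  have h2 : E (-c) < 0 := by
    have := E.strictMono (show -c < 0 by linarith)
    rwa [hE0] at this
  have hsym : ∀ x ∈ Icc (-(min (E c) (-E (-c)))) (min (E c) (-E (-c))),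
      E.symm x ∈ Icc (-c) c := by
    intro x hx
    constructor
    · rw [← E.symm_apply_apply (-c)]
      refine E.symm.monotone ?_
      have := min_le_right (E c) (-E (-c))
      linarith [hx.1]
    · rw [← E.symm_apply_apply c]
      exact E.symm.monotone (hx.2.trans (min_le_left _ _))
  refine ⟨min (E c) (-E (-c)), E.symm, fun x => ‖q (E.symm x)‖, lt_min h1 (by linarith),
    E.symm.continuous, E.symm.strictMono, by rw [E.symm_apply_eq, hE0], ?_, fun x hx => ?_⟩
  · have h3 : ContinuousOn (fun y : ℝ => ‖q y‖) (Icc (-c) c) := by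
      refine ContinuousOn.norm ?_
      refine hqd.continuousOn.comp (Complex.continuous_ofReal.continuousOn) ?_
      intro y hy
      exact (hball _ (hmem y hy)).2.2.1
    exact h3.comp E.symm.continuous.continuousOn hsym
  · obtain ⟨-, -, hb1, hb2, hb3⟩ := hball _ (hmem _ (hsym x hx))
    refine ⟨hb2, ?_⟩
    have h3 : A (E.symm x) = x := by
      rw [← hE _ (hsym x hx)]
      exact E.apply_symm_apply x
    have h4 : (‖q (E.symm x : ℝ)‖ : ℂ) * Complex.exp (x * Complex.I) = q (E.symm x : ℝ) := by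
      have h5 : Complex.arg (q (E.symm x : ℝ)) = x := by
        rw [← Complex.log_im]
        exact h3
      have h6 := Complex.norm_mul_exp_arg_mul_I (q (E.symm x : ℝ))
      rw [h5] at h6
      exact h6
    rw [h4]
    have h6 : w₀ * q (E.symm x : ℝ) = dinv f (f w₀ + (E.symm x : ℝ) * u) := by
      simp only [hq]
      field_simp
    rw [h6]
    exact hf.apply_dinv hb1

end Vale.Agent.P167.N.ST2
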