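import Vale.Agent.P167.N.ST2.PhiC

/-!
# P167, general `q`, `N`, Stage II, block ST2-PHI: radial shears, the cut domain
-/

set_option autoImplicit false

namespace Vale.Agent.P167.N.ST2

open Set Metric Topology Filter
open scoped ComplexConjugate
open Vale.Agent.P167.E6 (Approx dir pt)
open Vale.Agent.P167.H634.Apx (Pos)
open Vale.Agent.P167.H397.Q (IncOn)
open Vale.Agent.P153.R2.R1 (Conf DC FC homC FC_eq DC_eq isOpen_DC)

/-! ### Radial shears -/

/-- A positive function on the plane which is constant on rays. -/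
structure Shear (m : ℂ → ℝ) (c : ℝ) : Prop where
  c0 : 0 < c
  lb : ∀ z, c ≤ m z
  ub : ∀ z, m z ≤ 1
  cont : ContinuousOn m {0}ᶜ
  hom : ∀ (r : ℝ) (z : ℂ), 0 < r → m (r * z) = m z

variable {m : ℂ → ℝ} {c : ℝ}

theorem Shear.pos (h : Shear m c) (z : ℂ) : 0 < m z := h.c0.trans_le (h.lb z)

theorem continuous_mul_of_bdd {k : ℂ → ℝ} {M : ℝ} (hk : ContinuousOn k {0}ᶜ)
    (hM : ∀ z, |k z| ≤ M) : Continuous fun z : ℂ => (k z : ℂ) * z := by
  rw [continuous_iff_continuousAt]
  intro z
  rcases eq_or_ne z 0 with rfl | hz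
  · rw [ContinuousAt, mul_zero, tendsto_zero_iff_norm_tendsto_zero]
    refine squeeze_zero (g := fun z : ℂ => M * ‖z‖) (fun _ => norm_nonneg _) (fun w => ?_) ?_
    · rw [norm_mul, Complex.norm_real, Real.norm_eq_abs]
      exact mul_le_mul_of_nonneg_right (hM w) (norm_nonneg w)
    · have : Continuous fun z : ℂ => M * ‖z‖ := by fun_prop
      simpa using this.tendsto 0
  · have h1 : ContinuousAt k z := hk.continuousAt (isOpen_compl_singleton.mem_nhds hz)
    exact (Complex.continuous_ofReal.continuousAt.comp h1).mul continuousAt_id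

/-- The radial shear. -/
noncomputable def Shear.homeo (h : Shear m c) : ℂ ≃ₜ ℂ where
  toFun z := (m z : ℂ) * z
  invFun z := (((m z)⁻¹ : ℝ) : ℂ) * z
  left_inv z := by
    have h1 : ((m z : ℝ) : ℂ) ≠ 0 := by exact_mod_cast (h.pos z).ne'
    simp only [h.hom _ z (h.pos z)]
    push_cast
    rw [← mul_assoc, inv_mul_cancel₀ h1, one_mul]
  right_inv z := by
    have h1 : ((m z : ℝ) : ℂ) ≠ 0 := by exact_mod_cast (h.pos z).ne'
    simp only [h.hom _ z (inv_pos.2 (h.pos z))]
    push_cast
    rw [← mul_assoc, mul_inv_cancel₀ h1, one_mul]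
  continuous_toFun := continuous_mul_of_bdd h.cont (M := 1) fun z => by
    rw [abs_of_pos (h.pos z)]; exact h.ub z
  continuous_invFun := continuous_mul_of_bdd (k := fun z => (m z)⁻¹)
    (h.cont.inv₀ fun z _ => (h.pos z).ne') (M := c⁻¹) fun z => by
    rw [abs_of_pos (inv_pos.2 (h.pos z))]
    exact inv_anti₀ h.c0 (h.lb z)

theorem Shear.homeo_apply (h : Shear m c) (z : ℂ) : h.homeo z = (m z : ℂ) * z := rfl

theorem Shear.image_ball (h : Shear m c) : h.homeo '' ball 0 1 = {z | ‖z‖ < m z} := by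
  apply Subset.antisymm
  · rintro _ ⟨z, hz, rfl⟩
    rw [mem_ball_zero_iff] at hz
    show ‖h.homeo z‖ < m (h.homeo z)
    rw [h.homeo_apply, h.hom _ _ (h.pos z), norm_mul, Complex.norm_real,
      Real.norm_of_nonneg (h.pos z).le]
    exact mul_lt_of_lt_one_right (h.pos z) hz
  · intro z hz
    have hz' : ‖z‖ < m z := hz
    refine ⟨(((m z)⁻¹ : ℝ) : ℂ) * z, ?_, h.homeo.right_inv z⟩
    rw [mem_ball_zero_iff, norm_mul, Complex.norm_real, Real.norm_of_nonneg (inv_pos.2 (h.pos z)).le,
      inv_mul_lt_one₀ (h.pos z)]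
    exact hz'

/-! ### The function of the angle -/

/-- A function of the angle (measured from the negative half line). -/
noncomputable def ang (G : ℝ → ℝ) (z : ℂ) : ℝ := G (Complex.arg (-z))

theorem continuousOn_ang {G : ℝ → ℝ} (hG : Continuous G) (h0 : ∀ x, 1 ≤ |x| → G x = 0) :
    ContinuousOn (ang G) {0}ᶜ := by
  intro z hz
  have hz' : z ≠ 0 := hz
  refine ContinuousAt.continuousWithinAt ?_
  by_cases hs : -z ∈ Complex.slitPlane
  · exact hG.continuousAt.comp ((Complex.continuousAt_arg hs).comp continuousAt_id.neg)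
  · have h1 : (-z).re < 0 := by
      rw [Complex.mem_slitPlane_iff, not_or, not_lt, not_not] at hs
      refine lt_of_le_of_ne hs.1 fun h2 => hz' ?_
      have h3 : -z = 0 := Complex.ext h2 hs.2
      exact neg_eq_zero.1 h3
    have h2 : ∀ w : ℂ, (-w).re < 0 → ang G w = 0 := by
      intro w hw
      refine h0 _ ?_
      by_contra hcon
      push Not at hcon
      have h3 : |Complex.arg (-w)| < Real.pi / 2 := by
        have := Real.pi_gt_three
        linarith
      rcases Complex.abs_arg_lt_pi_div_two_iff.1 h3 with h4 | h4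
      · linarith
      · rw [h4] at hw
        simp at hw
    have h3 : ∀ᶠ w in 𝓝 z, ang G w = 0 := by
      have h4 : IsOpen {w : ℂ | (-w).re < 0} := isOpen_lt (by fun_prop) continuous_const
      filter_upwards [h4.mem_nhds h1] with w hw using h2 w hw
    exact (continuousAt_const (y := (0 : ℝ))).congr (h3.mono fun w hw => hw.symm)

theorem ang_mul (G : ℝ → ℝ) {r : ℝ} (hr : 0 < r) (z : ℂ) : ang G (r * z) = ang G z := by
  unfold ang
  rw [show -((r : ℂ) * z) = (r : ℂ) * (-z) by ring, Complex.arg_real_mul _ hr]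

theorem arg_circ {t : ℝ} (ht : |t - Real.pi| < Real.pi) :
    Complex.arg (-Complex.exp (t * Complex.I)) = t - Real.pi := by
  have h1 : -Complex.exp (t * Complex.I) = Complex.exp (((t - Real.pi : ℝ) : ℂ) * Complex.I) := by
    push_cast
    rw [sub_mul, Complex.exp_sub, Complex.exp_pi_mul_I, div_neg, div_one]
  rw [h1, Complex.exp_mul_I]
  have h2 := abs_lt.1 ht
  exact Complex.arg_cos_add_sin_mul_I ⟨h2.1, h2.2.le⟩

theorem ang_circ {G : ℝ → ℝ} (h0 : ∀ x, 1 ≤ |x| → G x = 0) {t : ℝ}
    (ht : |t - Real.pi| ≤ Real.pi) : ang G (Complex.exp (t * Complex.I)) = G (t - Real.pi) := by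
  have hpi := Real.pi_gt_three
  rcases ht.lt_or_eq with h1 | h1
  · rw [ang, arg_circ h1]
  · rw [h0 _ (by rw [h1]; linarith), ang]
    apply h0
    have h2 : -Complex.exp (t * Complex.I) = -1 := by
      rcases (abs_eq Real.pi_pos.le).1 h1 with h3 | h3
      · have : t = 2 * Real.pi := by linarith
        rw [this, exp_two_pi]
      · have : t = 0 := by linarith
        rw [this]
        simp
    rw [h2, Complex.arg_neg_one, abs_of_pos Real.pi_pos]
    linarith

/-- A point with a small angle from the negative half line. -/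
theorem dist_neg_one {z : ℂ} {a : ℝ} (ha : |1 - ‖z‖| ≤ a) :
    dist z (-1) ≤ a + |Complex.arg (-z)| := by
  set x := Complex.arg (-z) with hx
  have h1 : z = -((‖z‖ : ℂ) * Complex.exp (x * Complex.I)) := by
    have := Complex.norm_mul_exp_arg_mul_I (-z)
    rw [norm_neg] at this
    rw [this, neg_neg]
  have h2 : z - -1 = (1 - (‖z‖ : ℝ) : ℝ) * Complex.exp (x * Complex.I) -
      (Complex.exp (Complex.I * x) - 1) := by
    conv_lhs => rw [h1]
    rw [mul_comm Complex.I (x : ℂ)]
    push_cast
    ring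
  rw [dist_eq_norm, h2]
  refine (norm_sub_le _ _).trans (add_le_add ?_ ?_)
  · rw [norm_mul, Complex.norm_exp_ofReal_mul_I, mul_one, Complex.norm_real, Real.norm_eq_abs]
    exact ha
  · have := Real.norm_exp_I_mul_ofReal_sub_one_le (x := x)
    simpa using this

end Vale.Agent.P167.N.ST2
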