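import Vale.Agent.P167.H634.Apx.Pos
import Vale.Agent.P167.H199.C.CDefs

/-!
# P167, general `q`, `N`, Stage II, block ST2-PHI: definitions

* `Rep Φ Φ₀ σ`: the marked domain `Φ₀` is the marked domain `Φ`, its boundary curve is reparametrised
  by the increasing homeomorphism `σ` of the line which fixes the marks;
* `Cut Φ₀ Φ' ρ d g ℓ τ`: the marked domain `Φ'` is `Φ₀` without a small piece near the target
  `b = Φ₀ (-1, 0)`: it is cut off by a crosscut of `dom Φ₀` in the ball of radius `ρ` around `b`, whose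
  middle piece (near the new target) is a straight segment in the direction `dir d + dir (d + 1)`.
-/

set_option autoImplicit false

namespace Vale.Agent.P167.N.ST2

open Set Metric Topology Filter
open Vale.Agent.P167.E6 (Approx dir pt)
open Vale.Agent.P167.H634.Apx (Pos)
open Vale.Agent.P153.R2.R1 (DC FC homC)

/-- `Φ₀` is `Φ` up to an increasing reparametrisation of the circle which fixes the marks. -/
structure Rep (Φ Φ₀ : (ℝ × ℝ) ≃ₜ (ℝ × ℝ)) (σ : ℝ → ℝ) : Prop where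
  cont : Continuous σ
  mono : StrictMono σ
  per : ∀ t, σ (t + 2 * Real.pi) = σ t + 2 * Real.pi
  zero : σ 0 = 0
  pi : σ Real.pi = Real.pi
  eq : ∀ t, FC Φ₀ t = FC Φ (σ t)
  dom : DC Φ₀ = DC Φ

/-- The diagonal direction of the staircases of `Stair d`. -/
noncomputable def ud (d : Fin 4) : ℂ := pt (dir d + dir (d + 1))

/-- `Φ'` is `Φ₀` cut near the target along a crosscut `t ↦ FC Φ' t`, `|t - π| ≤ 2 τ`, with a straight
piece in the direction `ud d` for `|t - π| ≤ τ`. -/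
structure Cut (Φ₀ Φ' : (ℝ × ℝ) ≃ₜ (ℝ × ℝ)) (ρ : ℝ) (d : Fin 4) (g ℓ : ℝ → ℝ) (τ : ℝ) : Prop where
  tau_pos : 0 < τ
  tau_lt : 2 * τ < min ρ 1
  g_cont : Continuous g
  g_per : ∀ t, g (t + 2 * Real.pi) = g t
  g_nonneg : ∀ t, 0 ≤ g t
  g_lt : ∀ t, g t < min ρ 1
  g_pos : ∀ t, |t - Real.pi| < 2 * τ → 0 < g t
  g_zero : ∀ t, 2 * τ ≤ |t - Real.pi| → |t - Real.pi| ≤ Real.pi → g t = 0
  /-- the boundary curve of `Φ'` -/
  eq : ∀ t, FC Φ' t = homC Φ₀ (((1 - g t : ℝ) : ℂ) * Complex.exp (t * Complex.I))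
  /-- `Φ'` in polar coordinates -/
  eq' : ∀ r t : ℝ, 0 ≤ r → homC Φ' (r * Complex.exp (t * Complex.I)) =
    homC Φ₀ (((r * (1 - g t) : ℝ) : ℂ) * Complex.exp (t * Complex.I))
  l_cont : Continuous ℓ
  l_mono : StrictMono ℓ
  l_pi : ℓ Real.pi = 0
  /-- the straight piece -/
  line : ∀ t, |t - Real.pi| ≤ τ → FC Φ' t = FC Φ' Real.pi + (ℓ t : ℂ) * ud d
  near : ∀ t, dist (FC Φ' t) (FC Φ₀ t) < ρ
  sub : DC Φ' ⊆ DC Φ₀
  /-- only a small piece is removed -/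
  diff : DC Φ₀ \ DC Φ' ⊆ ball (FC Φ₀ Real.pi) ρ
  arc : ∀ t, |t - Real.pi| ≤ 2 * τ →
    FC Φ' t ∈ ball (FC Φ₀ Real.pi) ρ ∧ FC Φ₀ t ∈ ball (FC Φ₀ Real.pi) ρ
  /-- the interior of the crosscut is in the domain, its ends are on the boundary -/
  inner : ∀ t, |t - Real.pi| < 2 * τ → FC Φ' t ∈ DC Φ₀
  outer : ∀ t, 2 * τ ≤ |t - Real.pi| → |t - Real.pi| ≤ Real.pi → FC Φ' t = FC Φ₀ t
  pos : Pos Φ'

/-- **(ST2-PHI)** the literal statement. -/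
def PHI : Prop := ∀ Φ : (ℝ × ℝ) ≃ₜ (ℝ × ℝ), Pos Φ → ∃ (Φ₀ : (ℝ × ℝ) ≃ₜ (ℝ × ℝ)) (σ : ℝ → ℝ),
  Rep Φ Φ₀ σ ∧ Pos Φ₀ ∧ DifferentiableOn ℂ (homC Φ₀) (ball 0 1) ∧ ∀ ρ > 0,
    ∃ (Φ' : (ℝ × ℝ) ≃ₜ (ℝ × ℝ)) (d : Fin 4) (g ℓ : ℝ → ℝ) (τ : ℝ), Cut Φ₀ Φ' ρ d g ℓ τ

end Vale.Agent.P167.N.ST2
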