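import Vale.Agent.P167.N.ST2.Arc
import Vale.Agent.P167.N.ST2.Cut
import Vale.Agent.P167.H634.Sch.Par
import Vale.Agent.P167.H634.Apx.Poly

/-!
# P167, `0 < q < 1`, block ST2, GLUE: the parametrisation of the cut polygon
-/

set_option autoImplicit false

namespace Vale.Agent.P167.N.ST2

open Set Metric Topology Filter
open Vale.Agent.P167.E6 (Approx dir pt)
open Vale.Agent.P153.R2.R1 (DC FC homC)
open Vale.Agent.P167.H634.Sch (abs_clamp exists_fix)

section gen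

variable {X : Type*} [PseudoMetricSpace X]

/-- A piece with two ends. -/
theorem exists_fix2 {c : ℝ → X} {x : ℕ → X} {s : ℕ → ℝ} {N : ℕ} {a0 a2 η ε ω : ℝ}
    (hη : 0 ≤ η) (hs : Monotone s) (hN : 0 < N) (h02 : a0 ≤ a2)
    (h0 : |s 0 - a0| ≤ η) (h2 : |s N - a2| ≤ η)
    (hx : ∀ i < N, ∀ t ∈ Icc (s i) (s (i + 1)), dist (x i) (c t) < ε)
    (hω : ∀ u t, |u - t| ≤ η → dist (c u) (c t) ≤ ω) :
    ∃ s' : ℕ → ℝ, Monotone s' ∧ s' 0 = a0 ∧ s' N = a2 ∧
      ∀ i < N, ∀ t ∈ Icc (s' i) (s' (i + 1)), dist (x i) (c t) < ε + ω := by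
  set s' : ℕ → ℝ := fun i => if i = 0 then a0 else if i < N then max a0 (min a2 (s i)) else a2
    with hs'
  have e0 : s' 0 = a0 := by simp [hs']
  have e1 : ∀ i, 0 < i → i < N → s' i = max a0 (min a2 (s i)) := by
    intro i hi hik
    simp only [hs']
    rw [if_neg (by omega), if_pos hik]
  have e2 : ∀ i, N ≤ i → s' i = a2 := by
    intro i hi
    simp only [hs']
    rw [if_neg (by omega), if_neg (by omega)]
  have b1 : ∀ i, a0 ≤ s' i ∧ s' i ≤ a2 := by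
    intro i
    rcases Nat.eq_zero_or_pos i with rfl | h
    · rw [e0]
      exact ⟨le_rfl, h02⟩
    · rcases Nat.lt_or_ge i N with h3 | h3
      · rw [e1 i h h3]
        exact ⟨le_max_left _ _, max_le h02 (min_le_left _ _)⟩
      · rw [e2 i h3]
        exact ⟨h02, le_rfl⟩
  have b2 : ∀ i ≤ N, |s' i - s i| ≤ η := by
    intro i hi
    rcases Nat.eq_zero_or_pos i with rfl | h
    · rw [e0, abs_sub_comm]
      exact h0
    · rcases hi.lt_or_eq with h3 | rfl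
      · rw [e1 i h h3]
        have h4 := hs (Nat.zero_le i)
        have h5 := hs h3.le
        exact abs_clamp h02 hη (by linarith [(abs_le.1 h0).1]) (by linarith [(abs_le.1 h2).2])
      · rw [e2 _ le_rfl, abs_sub_comm]
        exact h2
  have hmono : Monotone s' := by
    refine monotone_nat_of_le_succ fun i => ?_
    rcases Nat.eq_zero_or_pos i with rfl | h
    · rw [e0]
      exact (b1 _).1
    · rcases Nat.lt_or_ge (i + 1) N with h3 | h3
      · rw [e1 i h (by omega), e1 (i + 1) (by omega) h3]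
        exact max_le_max le_rfl (min_le_min le_rfl (hs (Nat.le_succ i)))
      · rw [e2 _ h3]
        exact (b1 _).2
  refine ⟨s', hmono, e0, e2 _ le_rfl, fun i hi t ht => ?_⟩
  have h3 := abs_le.1 (b2 i hi.le)
  have h4 := abs_le.1 (b2 (i + 1) (by omega))
  have h5 : s i ≤ s (i + 1) := hs (Nat.le_succ i)
  have h6 := abs_clamp (x := t) h5 hη (by linarith [ht.1]) (by linarith [ht.2])
  have h7 := hx i hi (max (s i) (min (s (i + 1)) t))
    ⟨le_max_left _ _, max_le h5 (min_le_left _ _)⟩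
  exact (dist_triangle _ _ _).trans_lt (add_lt_add_of_lt_of_le h7 (hω _ _ h6))

/-- Three pieces. -/
theorem glue3 {c : ℝ → X} {x : ℕ → X} {a m L km : ℕ} {s1 s2 s3 : ℕ → ℝ} {T0 T1 Tm T2 T3 ε : ℝ}
    (h1 : Monotone s1) (h2 : Monotone s2) (h3 : Monotone s3) (hkm : 0 < km) (hkm' : km ≤ m)
    (e1 : s1 0 = T0) (e1' : s1 a = T1) (e2 : s2 0 = T1) (e2m : s2 km = Tm) (e2' : s2 m = T2)
    (e3 : s3 0 = T2) (e3' : s3 L = T3)
    (c1 : ∀ i < a, ∀ t ∈ Icc (s1 i) (s1 (i + 1)), dist (x i) (c t) < ε)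
    (c2 : ∀ i < m, ∀ t ∈ Icc (s2 i) (s2 (i + 1)), dist (x (a + i)) (c t) < ε)
    (c3 : ∀ i < L, ∀ t ∈ Icc (s3 i) (s3 (i + 1)), dist (x (a + m + i)) (c t) < ε) :
    ∃ s : ℕ → ℝ, Monotone s ∧ s 0 = T0 ∧ s (a + km) = Tm ∧ s (a + m + L) = T3 ∧
      ∀ i < a + m + L, ∀ t ∈ Icc (s i) (s (i + 1)), dist (x i) (c t) < ε := by
  set s : ℕ → ℝ := fun i => if i ≤ a then s1 i else if i ≤ a + m then s2 (i - a) else
    s3 (i - (a + m)) with hs
  have f1 : ∀ i, i ≤ a → s i = s1 i := fun i hi => by simp only [hs]; rw [if_pos hi]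
  have f2 : ∀ i, i ≤ m → s (a + i) = s2 i := by
    intro i hi
    rcases Nat.eq_zero_or_pos i with rfl | h
    · rw [add_zero, f1 a le_rfl, e1', e2]
    · simp only [hs]
      rw [if_neg (by omega), if_pos (by omega), Nat.add_sub_cancel_left]
  have f3 : ∀ i, s (a + m + i) = s3 i := by
    intro i
    rcases Nat.eq_zero_or_pos i with rfl | h
    · rw [add_zero, f2 m le_rfl, e2', e3]
    · simp only [hs]
      rw [if_neg (by omega), if_neg (by omega), Nat.add_sub_cancel_left]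
  refine ⟨s, monotone_nat_of_le_succ fun i => ?_, by rw [f1 0 (Nat.zero_le _), e1],
    by rw [f2 km hkm', e2m], by rw [f3, e3'], fun i hi t ht => ?_⟩
  · rcases Nat.lt_or_ge i a with g | g
    · rw [f1 i g.le, f1 (i + 1) g]
      exact h1 (Nat.le_succ i)
    · rcases Nat.lt_or_ge i (a + m) with g' | g'
      · obtain ⟨j, rfl⟩ : ∃ j, i = a + j := ⟨i - a, by omega⟩
        rw [add_assoc, f2 j (by omega), f2 (j + 1) (by omega)]
        exact h2 (Nat.le_succ j)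
      · obtain ⟨j, rfl⟩ : ∃ j, i = a + m + j := ⟨i - (a + m), by omega⟩
        rw [add_assoc (a + m), f3, f3]
        exact h3 (Nat.le_succ j)
  · rcases Nat.lt_or_ge i a with g | g
    · rw [f1 i g.le, f1 (i + 1) g] at ht
      exact c1 i g t ht
    · rcases Nat.lt_or_ge i (a + m) with g' | g'
      · obtain ⟨j, rfl⟩ : ∃ j, i = a + j := ⟨i - a, by omega⟩
        rw [add_assoc, f2 j (by omega), f2 (j + 1) (by omega)] at ht
        exact c2 j (by omega) t ht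
      · obtain ⟨j, rfl⟩ : ∃ j, i = a + m + j := ⟨i - (a + m), by omega⟩
        rw [add_assoc (a + m), f3, f3] at ht
        exact c3 j (by omega) t ht

end gen

theorem per_FC (Φ : (ℝ × ℝ) ≃ₜ (ℝ × ℝ)) : Function.Periodic (FC Φ) (2 * Real.pi) := by
  intro t
  rw [Vale.Agent.P153.R2.R1.FC_eq, Vale.Agent.P153.R2.R1.FC_eq]
  congr 1
  push_cast
  rw [add_mul, Complex.exp_add, Complex.exp_two_pi_mul_I, mul_one]

/-- The modulus of continuity of the boundary curve. -/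
theorem exists_oscF (Φ : (ℝ × ℝ) ≃ₜ (ℝ × ℝ)) {ε : ℝ} (hε : 0 < ε) :
    ∃ η > 0, ∀ u t : ℝ, |u - t| ≤ η → dist (FC Φ u) (FC Φ t) ≤ ε := by
  have hc : Continuous (FC Φ) := (Vale.Agent.P153.R2.R1.jcurve_FC Φ).cont
  have h := Vale.Agent.P167.H634.Apx.uniformContinuous_of_per hc Real.two_pi_pos (per_FC Φ)
  rw [Metric.uniformContinuous_iff] at h
  obtain ⟨η, hη, h⟩ := h ε hε
  refine ⟨η / 2, by positivity, fun u t hut => (h ?_).le⟩
  rw [Real.dist_eq]
  linarith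

variable {Φ₀ Φ' : (ℝ × ℝ) ≃ₜ (ℝ × ℝ)} {ρ : ℝ} {d : Fin 4} {g ℓ : ℝ → ℝ} {τ : ℝ}

/-- The modulus of continuity of the arc. -/
theorem Cut.exists_osc (H : Cut Φ₀ Φ' ρ d g ℓ τ) {ε : ℝ} (hε : 0 < ε) :
    ∃ η > 0, ∀ u ∈ Icc (0 : ℝ) 1, ∀ t ∈ Icc (0 : ℝ) 1, |u - t| ≤ η →
      dist (Gam Φ₀ g τ u) (Gam Φ₀ g τ t) ≤ ε := by
  have h := (isCompact_Icc (a := (0 : ℝ)) (b := 1)).uniformContinuousOn_of_continuous
    H.cont_Gam.continuousOn
  rw [Metric.uniformContinuousOn_iff] at h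
  obtain ⟨η, hη, h⟩ := h ε hε
  refine ⟨η / 2, by positivity, fun u hu t ht hut => (h _ hu _ ht ?_).le⟩
  rw [Real.dist_eq]
  linarith

theorem Aa_lip {τ : ℝ} (hτ : 0 < τ) (hτ1 : 2 * τ < 1) (x y : ℝ) :
    |Aa τ x - Aa τ y| ≤ 4 * |x - y| := by
  have h1 : |cl14 x - cl14 y| ≤ |x - y| := by
    unfold cl14
    have h3 : |max (1 / 4) (min x (3 / 4)) - max (1 / 4) (min y (3 / 4))| ≤
        |min x (3 / 4) - min y (3 / 4)| := by
      rw [max_comm, max_comm (1 / 4) (min y (3 / 4))]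
      exact abs_max_sub_max_le_abs _ _ _
    refine h3.trans ((abs_min_sub_min_le_max x (3 / 4) y (3 / 4)).trans ?_)
    rw [sub_self, abs_zero]
    exact max_le le_rfl (abs_nonneg _)
  have h2 : Aa τ x - Aa τ y = 8 * τ * (cl14 x - cl14 y) := by
    unfold Aa
    ring
  rw [h2, abs_mul, abs_of_pos (by positivity)]
  have := abs_nonneg (cl14 x - cl14 y)
  nlinarith

theorem Aa_ivt {τ : ℝ} {a b t : ℝ} (hab : a ≤ b) (ht : t ∈ Icc (Aa τ a) (Aa τ b)) :
    ∃ x ∈ Icc a b, Aa τ x = t :=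
  intermediate_value_Icc hab cont_Aa.continuousOn ht

/-- **The parametrisation of the cut polygon.** -/
theorem param_cut (H : Cut Φ₀ Φ' ρ d g ℓ τ) {ε : ℝ} (hε : 0 < ε) : ∃ μ > 0,
    ∀ (δ : ℝ) (N : ℕ) [NeZero N] (p : ZMod N → ℤ × ℤ) (S : Finset (ℤ × ℤ)) (iF iW jF jc jW M : ℕ)
      (y : ℕ → ℤ × ℤ) (s sy : ℕ → ℝ),
      Monotone s → s 0 = 0 → s N = 2 * Real.pi →
      (∀ i < N, ∀ t ∈ Icc (s i) (s (i + 1)), dist ((δ : ℂ) * pt (p i)) (FC Φ₀ t) < μ) →
      jF < jc → jc < jW → jW ≤ M → Monotone sy → 0 ≤ sy 0 → sy M ≤ 1 →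
      (∀ i < M, ∀ t ∈ Icc (sy i) (sy (i + 1)), dist ((δ : ℂ) * pt (y i)) (Gam Φ₀ g τ t) < μ) →
      |s iF - (Real.pi - 2 * τ)| ≤ μ → |s iW - (Real.pi + 2 * τ)| ≤ μ →
      |sy jF - 1 / 4| ≤ μ → |sy jW - 3 / 4| ≤ μ → |sy jc - 1 / 2| ≤ μ →
      CutDat p S iF iW (jW - jF) (fun j => y (jF + j)) →
      ∃ s' : ℕ → ℝ, Monotone s' ∧ s' 0 = 0 ∧ s' (iF + (jc - jF)) = Real.pi ∧
        s' (nL N iF iW (jW - jF)) = 2 * Real.pi ∧
        ∀ i < nL N iF iW (jW - jF), ∀ t ∈ Icc (s' i) (s' (i + 1)),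
          dist ((δ : ℂ) * pt (cutL p iF iW (jW - jF) (fun j => y (jF + j)) i)) (FC Φ' t) < ε := by
  obtain ⟨η₀, hη₀, ho⟩ := exists_oscF Φ₀ (show 0 < ε / 4 by linarith)
  obtain ⟨η₁, hη₁, ho'⟩ := exists_oscF Φ' (show 0 < ε / 4 by linarith)
  obtain ⟨η₂, hη₂, hoG⟩ := H.exists_osc (show 0 < ε / 4 by linarith)
  have hτ := H.tau_pos
  have hτ1 := H.tau1
  have hpi := Real.pi_gt_three
  refine ⟨min (ε / 4) (min (η₀ / 4) (min (η₁ / 4) η₂)), by positivity, ?_⟩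
  set μ := min (ε / 4) (min (η₀ / 4) (min (η₁ / 4) η₂)) with hμ
  have m0 : 0 < μ := by positivity
  have m1 : μ ≤ ε / 4 := min_le_left _ _
  have m2 : μ ≤ η₀ / 4 := (min_le_right _ _).trans (min_le_left _ _)
  have m3 : μ ≤ η₁ / 4 := (min_le_right _ _).trans ((min_le_right _ _).trans (min_le_left _ _))
  have m4 : μ ≤ η₂ := (min_le_right _ _).trans ((min_le_right _ _).trans (min_le_right _ _))
  intro δ N _ p S iF iW jF jc jW M y s sy hs hs0 hsN hcl hj1 hj2 hj3 hsy hy0 hy1 hcly hF hW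
    hyF hyW hyc K
  have ha := K.ha
  have hab := K.hab
  have hb := K.hb
  -- piece 1
  obtain ⟨s1, g1, g2, g3, g4⟩ := exists_fix2 (c := FC Φ₀) (x := fun i => (δ : ℂ) * pt (p i))
    (s := s) (N := iF) (a0 := 0) (a2 := Real.pi - 2 * τ) (η := η₀) (ε := μ) (ω := ε / 4) hη₀.le hs ha
    (by linarith) (by rw [hs0]; simpa using hη₀.le) (by linarith) (fun i hi t ht =>
      hcl i (by omega) t ht) ho
  have k1 : ∀ i < iF, ∀ t ∈ Icc (s1 i) (s1 (i + 1)),
      dist ((δ : ℂ) * pt (cutL p iF iW (jW - jF) (fun j => y (jF + j)) i)) (FC Φ' t) < ε := by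
    intro i hi t ht
    have h1 := g4 i hi t ht
    have h2 : 0 ≤ t := by
      have := g1 (Nat.zero_le i)
      rw [g2] at this
      exact this.trans ht.1
    have h3 : t ≤ Real.pi - 2 * τ := by
      have := g1 (show i + 1 ≤ iF by omega)
      rw [g3] at this
      exact ht.2.trans this
    rw [K.L1 hi.le, H.outer t (by rw [abs_of_nonpos (by linarith)]; linarith)
      (by rw [abs_of_nonpos (by linarith)]; linarith)]
    exact h1.trans_le (by linarith)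
  -- piece 3
  obtain ⟨s3, q1, q2, q3, q4⟩ := exists_fix2 (c := FC Φ₀)
    (x := fun i => (δ : ℂ) * pt (p ((iW + i : ℕ) : ZMod N)))
    (s := fun i => s (iW + i)) (N := N - iW) (a0 := Real.pi + 2 * τ) (a2 := 2 * Real.pi) (η := η₀)
    (ε := μ) (ω := ε / 4) hη₀.le (fun i j hij => hs (by omega)) (by omega)
    (by linarith) (by rw [add_zero]; linarith)
    (by rw [show iW + (N - iW) = N by omega, hsN]; simpa using hη₀.le) (fun i hi t ht =>
      hcl (iW + i) (by omega) t ht) ho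
  have k3 : ∀ i < N - iW, ∀ t ∈ Icc (s3 i) (s3 (i + 1)),
      dist ((δ : ℂ) * pt (cutL p iF iW (jW - jF) (fun j => y (jF + j)) (iF + (jW - jF) + i)))
        (FC Φ' t) < ε := by
    intro i hi t ht
    have h1 := q4 i hi t ht
    have h2 : Real.pi + 2 * τ ≤ t := by
      have := q1 (Nat.zero_le i)
      rw [q2] at this
      exact this.trans ht.1
    have h3 : t ≤ 2 * Real.pi := by
      have := q1 (show i + 1 ≤ N - iW by omega)
      rw [q3] at this
      exact ht.2.trans this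
    rw [K.L3, H.outer t (by rw [abs_of_nonneg (by linarith)]; linarith)
      (by rw [abs_of_nonneg (by linarith)]; linarith)]
    exact h1.trans_le (by linarith)
  -- piece 2
  have hsy1 : ∀ j ≤ M, sy j ∈ Icc (0 : ℝ) 1 := fun j hj =>
    ⟨hy0.trans (hsy (Nat.zero_le j)), (hsy hj).trans hy1⟩
  have hA : ∀ x y : ℝ, |x - y| ≤ μ → |Aa τ x - Aa τ y| ≤ η₁ := fun x y hxy =>
    (Aa_lip hτ hτ1 x y).trans (by linarith)
  have hmid : ∀ j, j < jW - jF → ∀ t ∈ Icc (Aa τ (sy (jF + j))) (Aa τ (sy (jF + (j + 1)))),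
      dist ((δ : ℂ) * pt (y (jF + j))) (FC Φ' t) < μ + ε / 4 := by
    intro j hj t ht
    obtain ⟨x, hx, rfl⟩ := Aa_ivt (hsy (by omega)) ht
    have h1 := hcly (jF + j) (by omega) x (by rw [add_assoc]; exact hx)
    have h2 : x ∈ Icc (0 : ℝ) 1 :=
      ⟨(hsy1 (jF + j) (by omega)).1.trans hx.1, hx.2.trans (hsy1 (jF + (j + 1)) (by omega)).2⟩
    have h3 : cl14 x ∈ Icc (0 : ℝ) 1 :=
      ⟨by linarith [(cl14_mem x).1], by linarith [(cl14_mem x).2]⟩
    have h4 : sy jF ≤ x := (hsy (by omega : jF ≤ jF + j)).trans hx.1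
    have h5 : x ≤ sy jW := hx.2.trans (hsy (by omega : jF + (j + 1) ≤ jW))
    have h6 : |x - cl14 x| ≤ μ := by
      rw [abs_sub_comm]
      unfold cl14
      rw [min_comm]
      exact abs_clamp (by norm_num) m0.le (by linarith [(abs_le.1 hyF).1])
        (by linarith [(abs_le.1 hyW).2])
    have h7 := hoG x h2 (cl14 x) h3 (h6.trans m4)
    have h8 : Gam Φ₀ g τ (cl14 x) = FC Φ' (Aa τ x) := by
      rw [H.Gam_mid (cl14_mem x)]
      congr 1
      unfold Aa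
      rw [cl14_of_mem (cl14_mem x)]
    rw [h8] at h7
    exact (dist_triangle _ _ _).trans_lt (add_lt_add_of_lt_of_le h1 h7)
  obtain ⟨s2, r1, r2, r3, r4, r5⟩ := exists_fix (c := FC Φ')
    (x := fun j => (δ : ℂ) * pt (y (jF + j))) (s := fun j => Aa τ (sy (jF + j))) (N := jW - jF)
    (k := jc - jF) (a0 := Real.pi - 2 * τ) (a1 := Real.pi) (a2 := Real.pi + 2 * τ) (η := η₁)
    (ε := μ + ε / 4) (ω := ε / 4) hη₁.le (fun i j hij => mono_Aa hτ (hsy (by omega)))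
    (by omega) (by omega) (by linarith) (by linarith)
    (by
      have h1 := hA (sy jF) (1 / 4) hyF
      rwa [Aa_le (x := 1 / 4) le_rfl] at h1)
    (by
      have h1 := hA (sy jc) (1 / 2) hyc
      rw [Aa_half] at h1
      rw [show jF + (jc - jF) = jc by omega]
      exact h1)
    (by
      have h1 := hA (sy jW) (3 / 4) hyW
      rw [Aa_ge (x := 3 / 4) le_rfl] at h1
      rw [show jF + (jW - jF) = jW by omega]
      exact h1) hmid ho'
  have k2 : ∀ i < jW - jF, ∀ t ∈ Icc (s2 i) (s2 (i + 1)),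
      dist ((δ : ℂ) * pt (cutL p iF iW (jW - jF) (fun j => y (jF + j)) (iF + i))) (FC Φ' t) < ε := by
    intro i hi t ht
    have h1 := r5 i hi t ht
    rw [K.L2 hi.le]
    exact h1.trans_le (by linarith)
  exact glue3 (c := FC Φ')
    (x := fun i => (δ : ℂ) * pt (cutL p iF iW (jW - jF) (fun j => y (jF + j)) i))
    g1 r1 q1 (by omega) (by omega) g2 g3 r2 r3 r4 q2 q3 k1 k2 k3

end Vale.Agent.P167.N.ST2
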