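import Vale.Agent.P167.N.ST2.Defs
import Vale.Agent.P167.H437Q.C3c
import Vale.Agent.P167.H259.C.Asm
import Vale.Agent.P167.H327.Stab

/-!
# P167, `0 < q < 1`, Stage II: `S_C3` from `S_loc`
-/

set_option autoImplicit false
set_option linter.unusedVariables false

open MeasureTheory Set Filter Topology Metric
open scoped ENNReal NNReal

namespace Vale.Agent.P167.N.ST2

open Vale.Agent.P167.H437Q.C3
open Vale.Agent.P153.R2.C1 (reparam)
open Vale.Agent.P153.R2.Final (dom circ toC IsUniformizer)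
open Vale.Agent.P167.E6 (edges IsInterface Approx pt)
open Vale.Agent.P167.QE (Cls wq lwt lawW I_finW)
open Vale.Agent.P167.H199.C (VisC PV Adm Mar fArc wArc CL S_stab S_C3 IsG)
open Vale.Agent.P167.SLE (bq Cf)

/-! ### Elementary facts on the events -/

theorem vis_mono {A A' B B' : Set ℂ} (hA : A' ⊆ A) (hB : interior B ⊆ interior B') :
    Vale.Agent.P167.H199.C.Vis A B ⊆ Vale.Agent.P167.H199.C.Vis A' B' := by
  rintro x ⟨t, h1, h2⟩
  exact ⟨t, hB h1, fun s hs h => h2 s hs (hA h)⟩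

theorem vis_sub_visC {A B A' B' : Set ℂ} (hA : interior A' ⊆ A) (hB : interior B ⊆ B') :
    Vale.Agent.P167.H199.C.Vis A B ⊆ VisC A' B' := by
  rintro x ⟨t, h1, h2⟩
  exact ⟨t, hB h1, fun s hs h => h2 s hs.le (hA h)⟩

/-- The target is not in the sets. -/
theorem target_notMem {Φ : (ℝ × ℝ) ≃ₜ (ℝ × ℝ)} {A B : Set ℂ} (h : Adm Φ A B) :
    bq Φ ∉ A ∧ bq Φ ∉ B := by
  constructor
  · intro hA
    exact Set.disjoint_left.1 h.freeA hA ⟨Real.pi, ⟨Real.pi_pos.le, le_rfl⟩, rfl⟩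
  · intro hB
    exact Set.disjoint_left.1 h.wirB hB ⟨Real.pi, ⟨le_rfl, by linarith [Real.pi_pos]⟩, rfl⟩

/-- A radius such that the balls around the target are disjoint of finitely many compact sets. -/
theorem exists_rad {m : ℕ} {B : Fin m → Set ℂ} {b : ℂ} (hB : ∀ j, IsCompact (B j))
    (hb : ∀ j, b ∉ B j) : ∃ r > 0, ∀ j, ∀ z ∈ B j, r < dist z b := by
  have h1 : ∀ j, ∃ r > 0, ∀ z ∈ B j, r < dist z b := by
    intro j
    have h2 : (B j)ᶜ ∈ 𝓝 b := (hB j).isClosed.isOpen_compl.mem_nhds (hb j)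
    obtain ⟨ε, hε, h3⟩ := Metric.mem_nhds_iff.1 h2
    refine ⟨ε / 2, by positivity, fun z hz => ?_⟩
    by_contra hcon
    push Not at hcon
    exact h3 (mem_ball.2 (by linarith)) hz
  choose f hf h2 using h1
  obtain ⟨r, hr, h3⟩ := pos_min hf
  exact ⟨r, hr, fun j z hz => (h3 j).trans_lt (h2 j z hz)⟩

/-- A curve which reaches its end point only at the end avoids a small ball before. -/
theorem avoid {x : Crv} {b : ℂ} (hx : ∀ t : unitInterval, (t : ℝ) < 1 → x t ≠ b) {t : unitInterval}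
    (ht : (t : ℝ) < 1) : ∃ r > 0, ∀ s ≤ t, x s ∉ closedBall b r := by
  have hc : IsCompact (x '' Iic t) := H259.C.isCompact_img x t
  have hb : b ∉ x '' Iic t := by
    rintro ⟨s, hs, h⟩
    exact hx s (lt_of_le_of_lt (by exact_mod_cast hs) ht) h
  obtain ⟨ε, hε, h3⟩ := Metric.mem_nhds_iff.1 (hc.isClosed.isOpen_compl.mem_nhds hb)
  refine ⟨ε / 2, by positivity, fun s hs h => ?_⟩
  have : x s ∈ ball b ε := lt_of_le_of_lt (mem_closedBall.1 h) (by linarith)
  exact h3 this ⟨s, hs, rfl⟩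

/-- **Almost surely the event happens before a small ball around the target is visited.** -/
theorem lim_ball {Ω : Type} [MeasurableSpace Ω] {P : Measure Ω} [IsProbabilityMeasure P]
    {G : Ω → Crv} (hG : Mb P G) {b : ℂ} (hb1 : ∀ᵐ ω ∂P, G ω 1 = b ∧
      ∀ t : unitInterval, (t : ℝ) < 1 → G ω t ≠ b) {m : ℕ} {A B : Fin m → Set ℂ}
    (hA : ∀ j, IsClosed (A j)) (hB : ∀ j, b ∉ B j) {e : ℝ} (he : 0 < e) :
    ∀ r₁ > 0, ∃ r > 0, r ≤ r₁ ∧
      P.real {ω | G ω ∈ ⋂ j, Vale.Agent.P167.H199.C.Vis (A j) (B j)} ≤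
      P.real {ω | G ω ∈ ⋂ j, Vale.Agent.P167.H199.C.Vis (A j ∪ closedBall b r) (B j)} + e := by
  intro r₁ hr₁
  set U : ℕ → Set Ω := fun i => {ω | G ω ∈ ⋂ j, Vale.Agent.P167.H199.C.Vis
    (A j ∪ closedBall b (r₁ * (1 / ((i : ℝ) + 1)))) (B j)} with hU
  have hinv : ∀ i, H437Q.C3.Inv (⋂ j, Vale.Agent.P167.H199.C.Vis
      (A j ∪ closedBall b (r₁ * (1 / ((i : ℝ) + 1)))) (B j)) := fun i =>
    H437Q.C3.Inv.iInter fun j => H437Q.C3.inv_vis _ _
  have hop : ∀ i, IsOpen (⋂ j, Vale.Agent.P167.H199.C.Vis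
      (A j ∪ closedBall b (r₁ * (1 / ((i : ℝ) + 1)))) (B j)) := fun i =>
    isOpen_iInter_of_finite fun j => H437Q.C3.isOpen_vis ((hA j).union isClosed_closedBall)
  have hm : ∀ i, NullMeasurableSet (U i) P := fun i => by
    have h1 := nm_closed hG (hop i).isClosed_compl (hinv i).compl
    have h2 := h1.compl
    convert h2 using 1
    ext ω
    simp [hU]
  have hmono : Monotone U := by
    intro i i' hii ω hω
    simp only [hU, mem_ofPred_eq, mem_iInter] at hω ⊢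
    intro j
    refine vis_mono (union_subset_union_right _ (closedBall_subset_closedBall ?_)) subset_rfl
      (hω j)
    refine mul_le_mul_of_nonneg_left ?_ hr₁.le
    have : (i : ℝ) ≤ i' := by exact_mod_cast hii
    exact one_div_le_one_div_of_le (by positivity) (by linarith)
  have hlim := tendsto_measure_iUnion_atTop (μ := P) hmono
  have hfin : P (⋃ i, U i) ≠ ⊤ := measure_ne_top _ _
  have hlim' : Tendsto (fun i => P.real (U i)) atTop (𝓝 (P.real (⋃ i, U i))) :=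
    (ENNReal.tendsto_toReal hfin).comp hlim
  have hle : P.real {ω | G ω ∈ ⋂ j, Vale.Agent.P167.H199.C.Vis (A j) (B j)} ≤
      P.real (⋃ i, U i) := by
    refine ENNReal.toReal_mono hfin (measure_mono_ae ?_)
    filter_upwards [hb1] with ω hω hin
    have hin' : ∀ j, G ω ∈ Vale.Agent.P167.H199.C.Vis (A j) (B j) := by
      intro j
      have h0 : ω ∈ {ω | G ω ∈ ⋂ j, Vale.Agent.P167.H199.C.Vis (A j) (B j)} := hin
      exact mem_iInter.1 h0 j
    have h1 : ∀ j, ∃ r > 0, ∃ t : unitInterval, G ω t ∈ interior (B j) ∧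
        ∀ s ≤ t, G ω s ∉ A j ∪ closedBall b r := by
      intro j
      obtain ⟨t, h2, h3⟩ := hin' j
      have ht : (t : ℝ) < 1 := by
        rcases t.2.2.lt_or_eq with h | h
        · exact h
        · exfalso
          have : t = 1 := Subtype.ext h
          rw [this, hω.1] at h2
          exact hB j (interior_subset h2)
      obtain ⟨r, hr, h4⟩ := avoid hω.2 ht
      exact ⟨r, hr, t, h2, fun s hs h => h.elim (h3 s hs) (h4 s hs)⟩
    choose f hf h2 using h1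
    obtain ⟨r, hr, h3⟩ := pos_min hf
    obtain ⟨i, hi⟩ := ((tendsto_one_div_add_atTop_nhds_zero_nat (𝕜 := ℝ)).const_mul
      r₁).eventually_lt_const (show r₁ * 0 < r by simpa using hr) |>.exists
    refine mem_iUnion.2 ⟨i, ?_⟩
    show G ω ∈ ⋂ j, Vale.Agent.P167.H199.C.Vis
      (A j ∪ closedBall b (r₁ * (1 / ((i : ℝ) + 1)))) (B j)
    rw [mem_iInter]
    intro j
    obtain ⟨t, h4, h5⟩ := h2 j
    exact ⟨t, h4, fun s hs h => h5 s hs (union_subset_union_right _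
      (closedBall_subset_closedBall (hi.le.trans (h3 j))) h)⟩
  obtain ⟨i, hi⟩ := (hlim'.eventually_const_lt
    (show P.real (⋃ i, U i) - e < P.real (⋃ i, U i) by linarith)).exists
  refine ⟨r₁ * (1 / ((i : ℝ) + 1)), by positivity, ?_, ?_⟩
  · have : (1 : ℝ) / ((i : ℝ) + 1) ≤ 1 := by
      rw [div_le_one (by positivity)]
      linarith [Nat.cast_nonneg (α := ℝ) i]
    exact mul_le_of_le_one_right hr₁.le this
  · have h1 : P.real (U i) = P.real {ω | G ω ∈ ⋂ j, Vale.Agent.P167.H199.C.Vis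
      (A j ∪ closedBall b (r₁ * (1 / ((i : ℝ) + 1)))) (B j)} := rfl
    linarith

/-! ### No return from the target -/

/-- The interfaces rarely visit a small ball around the target before one of the sets `B j`. -/
theorem no_return {q : ℝ} (hq : 0 < q) (hfin : I_finW (wq q)) {Φ : (ℝ × ℝ) ≃ₜ (ℝ × ℝ)}
    {δ : ℕ → ℝ} {N k : ℕ → ℕ} {p : ∀ n, ZMod (N n) → ℤ × ℤ} {S : ℕ → Finset (ℤ × ℤ)}
    (hAp : Approx Φ δ N k p S) {c : ∀ _ : ℕ, Finset (Sym2 (ℤ × ℤ)) → C(unitInterval, ℂ)}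
    (hc : ∀ n, ∀ A ⊆ edges (S n), IsInterface (p n) (k n) (δ n) A (c n A)) {m : ℕ}
    {A B : Fin m → Set ℂ} (hB : ∀ j, IsCompact (B j)) (hb : ∀ j, bq Φ ∉ B j) {e : ℝ}
    (he : 0 < e) : ∃ r₁ > 0, ∀ r, 0 < r → r ≤ r₁ → ∀ᶠ n in atTop,
      PV q (p n) (k n) (S n) (c n) (⋂ j, Vale.Agent.P167.H199.C.Vis (A j) (B j)) ≤
        PV q (p n) (k n) (S n) (c n) (⋂ j, Vale.Agent.P167.H199.C.Vis
          (A j ∪ closedBall (bq Φ) r) (B j)) + e := by
  obtain ⟨r₀, hr₀, hr₀B⟩ := exists_rad hB hb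
  obtain ⟨r', hr', hev⟩ := hfin Φ δ N k p S hAp (r₀ / 2) (by positivity) (ENNReal.ofReal e)
    (ENNReal.ofReal_pos.2 he)
  refine ⟨r' / 2, by positivity, fun r hr hr1 => ?_⟩
  have hδ : ∀ᶠ n in atTop, δ n < min (r' / 8) (r₀ / 8) :=
    hAp.2.1.eventually_lt_const (lt_min (by positivity) (by positivity))
  filter_upwards [hev, hδ] with n hn hδn
  obtain ⟨h1, h2, h3, h4, h5⟩ := hAp.1 n
  have hd1 := hδn.trans_le (min_le_left _ _)
  have hd2 := hδn.trans_le (min_le_right _ _)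
  have hw : ∀ A, 0 < wq q (N n) (p n) (k n) (S n) A := fun A => QE.wq_pos hq _ _ _ _ A
  have hpr : IsProbabilityMeasure (lwt (wq q) (p n) (k n) (S n)) := QE.lawW_prob _ hw
  have hm : ∀ V : Set (C(unitInterval, ℂ)), PV q (p n) (k n) (S n) (c n) V =
      (lwt (wq q) (p n) (k n) (S n)).real {a : Cf (S n) | c n a.1 ∈ V} := by
    intro V
    have h6 : PV q (p n) (k n) (S n) (c n) V =
        QE.meanW (S n) (wq q (N n) (p n) (k n) (S n)) fun X => V.indicator 1 (c n X) := rfl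
    rw [h6, QE.meanW_eq (S n) hw]
    have h7 : (fun A : Cf (S n) => V.indicator (1 : C(unitInterval, ℂ) → ℝ) (c n A.1)) =
        {a : Cf (S n) | c n a.1 ∈ V}.indicator fun _ => (1 : ℝ) := by
      funext a
      by_cases h : c n a.1 ∈ V
      · rw [indicator_of_mem h, indicator_of_mem (show a ∈ {a : Cf (S n) | c n a.1 ∈ V} from h)]
        rfl
      · rw [indicator_of_notMem h,
          indicator_of_notMem (show a ∉ {a : Cf (S n) | c n a.1 ∈ V} from h)]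
    rw [h7, integral_indicator MeasurableSet.of_discrete]
    simp
  rw [hm, hm]
  have hsub : {a : Cf (S n) | c n a.1 ∈ ⋂ j, Vale.Agent.P167.H199.C.Vis (A j) (B j)} ⊆
      {a : Cf (S n) | c n a.1 ∈ ⋂ j, Vale.Agent.P167.H199.C.Vis
          (A j ∪ closedBall (bq Φ) r) (B j)} ∪
      {a : Cf (S n) | ∃ s t : unitInterval, s ≤ t ∧
        dist (E2.Xc (p n) (k n) (δ n) a.1 s) (bq Φ) < r' ∧
        r₀ / 2 < dist (E2.Xc (p n) (k n) (δ n) a.1 t) (bq Φ)} := by
    intro a ha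
    by_cases hcase : ∃ s t : unitInterval, s ≤ t ∧
        dist (E2.Xc (p n) (k n) (δ n) a.1 s) (bq Φ) < r' ∧
        r₀ / 2 < dist (E2.Xc (p n) (k n) (δ n) a.1 t) (bq Φ)
    · exact Or.inr hcase
    left
    have haS : a.1 ⊆ edges (S n) := Finset.mem_powerset.1 a.2
    have hdist := E2.dist_crv_Xc h4 h5 h2 h3 haS h1.le
    have hce := E2.isInterface_unique h4 h5 h3 haS (hc n a.1 haS)
    simp only [mem_ofPred_eq, mem_iInter] at ha ⊢
    intro j
    obtain ⟨t, g1, g2⟩ := ha j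
    refine ⟨t, g1, fun s hs h => ?_⟩
    rcases h with h | h
    · exact g2 s hs h
    · apply hcase
      refine ⟨s, t, hs, ?_, ?_⟩
      · have d1 : dist (c n a.1 s) (E2.Xc (p n) (k n) (δ n) a.1 s) ≤ 2 * δ n := by
          rw [hce]
          exact (ContinuousMap.dist_apply_le_dist s).trans hdist
        have d2 := dist_triangle_left (E2.Xc (p n) (k n) (δ n) a.1 s) (bq Φ) (c n a.1 s)
        have d3 := mem_closedBall.1 h
        linarith
      · have d1 : dist (c n a.1 t) (E2.Xc (p n) (k n) (δ n) a.1 t) ≤ 2 * δ n := by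
          rw [hce]
          exact (ContinuousMap.dist_apply_le_dist t).trans hdist
        have d2 := dist_triangle (c n a.1 t) (E2.Xc (p n) (k n) (δ n) a.1 t) (bq Φ)
        have d3 := hr₀B j _ (interior_subset g1)
        linarith
  have h6 := measureReal_mono (μ := lwt (wq q) (p n) (k n) (S n)) hsub
  have h7 := measureReal_union_le (μ := lwt (wq q) (p n) (k n) (S n))
    {a : Cf (S n) | c n a.1 ∈ ⋂ j, Vale.Agent.P167.H199.C.Vis
          (A j ∪ closedBall (bq Φ) r) (B j)}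
    {a : Cf (S n) | ∃ s t : unitInterval, s ≤ t ∧
        dist (E2.Xc (p n) (k n) (δ n) a.1 s) (bq Φ) < r' ∧
        r₀ / 2 < dist (E2.Xc (p n) (k n) (δ n) a.1 t) (bq Φ)}
  have h8 : (lwt (wq q) (p n) (k n) (S n)).real {a : Cf (S n) | ∃ s t : unitInterval, s ≤ t ∧
        dist (E2.Xc (p n) (k n) (δ n) a.1 s) (bq Φ) < r' ∧
        r₀ / 2 < dist (E2.Xc (p n) (k n) (δ n) a.1 t) (bq Φ)} ≤ e := by
    rw [Measure.real]
    exact ENNReal.toReal_le_of_le_ofReal he.le hn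
  linarith

/-! ### The domains of `S_loc` -/

/-- The marked domains of `S_loc` with a curve close to `G`. -/
theorem side_loc {K : Cls} {q κ : ℝ} (hst : S_stab) {Ω : Type} [MeasurableSpace Ω]
    {P : Measure Ω} {γ : Ω → ℝ → ℂ} (hCL : CL K κ (wq q) P γ) {Φ : (ℝ × ℝ) ≃ₜ (ℝ × ℝ)}
    {ψ : ℂ → ℂ} (hψ : IsUniformizer Φ ψ) {G : Ω → C(unitInterval, ℂ)} (hG : IsG Φ ψ P γ G)
    (hloc : S_loc K q) {δ : ℕ → ℝ} {N k : ℕ → ℕ} {p : ∀ n, ZMod (N n) → ℤ × ℤ}
    {S : ℕ → Finset (ℤ × ℤ)} (hAp : Approx Φ δ N k p S)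
    {c : ∀ _ : ℕ, Finset (Sym2 (ℤ × ℤ)) → C(unitInterval, ℂ)}
    (hc : ∀ n, ∀ A ⊆ edges (S n), IsInterface (p n) (k n) (δ n) A (c n A)) {r ε e : ℝ}
    (hr : 0 < r) (hε : 0 < ε) (he : 0 < e) :
    ∃ (N' k' : ℕ → ℕ) (p' : ∀ n, ZMod (N' n) → ℤ × ℤ)
      (S' : ℕ → Finset (ℤ × ℤ)) (c' : ∀ _ : ℕ, Finset (Sym2 (ℤ × ℤ)) → Crv)
      (G' : Ω → Crv), Mb P G' ∧
      Lm (fun n F => Final.mean q (p' n) (k' n) (S' n) fun X => F (c' n X)) P G' ∧
      (∀ᵐ ω ∂P, dist (G' ω) (G ω) ≤ ε) ∧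
      ∀ᶠ n in atTop, ∀ (m : ℕ) (A B : Fin m → Set ℂ),
            |PV q (p n) (k n) (S n) (c n)
                (⋂ j, Vale.Agent.P167.H199.C.Vis (A j ∪ closedBall (bq Φ) r) (B j)) -
              PV q (p' n) (k' n) (S' n) (c' n)
                (⋂ j, Vale.Agent.P167.H199.C.Vis (A j ∪ closedBall (bq Φ) r) (B j))| ≤ e := by
  obtain ⟨Φ₀, e1, e2, e3, hΦ₀⟩ := hloc Φ δ N k p S hAp
  have hψ₀ : IsUniformizer Φ₀ ψ := by
    obtain ⟨a1, a2, a3, a4, a5, a6⟩ := hψ
    exact ⟨a1, a2, by rw [e1]; exact a3, a4, by rw [e2]; exact a5, by rw [e3]; exact a6⟩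
  have hG₀ : IsG Φ₀ ψ P γ G := by
    obtain ⟨a1, a2⟩ := hG
    exact ⟨by rw [e3]; exact a1, a2⟩
  choose Φ' N' k' p' S' h1 h2 h3 h4 using fun i : ℕ =>
    hΦ₀ r (1 / ((i : ℝ) + 1)) e hr (rad_pos i) he
  have hconv : ∀ η > 0, ∀ᶠ i in atTop, ∀ t,
      dist (toC (Φ' i (circ t))) (toC (Φ₀ (circ t))) < η := by
    intro η hη
    filter_upwards [(tendsto_one_div_add_atTop_nhds_zero_nat (𝕜 := ℝ)).eventually_lt_const hη]
      with i hi t
    exact (h1 i t).trans hi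
  obtain ⟨ψn, hu, ht⟩ := hst Φ₀ ψ hψ₀ Φ' hconv
  obtain ⟨i, hi⟩ := (Metric.tendstoUniformlyOn_iff.1 ht ε hε).exists
  obtain ⟨G', hG', h5⟩ := (hCL.2 (Φ' i)).2 (ψn i) (hu i)
  obtain ⟨hex, hcv⟩ := h5 δ (N' i) (k' i) (p' i) (S' i) (h2 i)
  classical
  set c' : ∀ _ : ℕ, Finset (Sym2 (ℤ × ℤ)) → Crv := fun n A =>
    if h : A ⊆ edges (S' i n) then Classical.choose (hex n A h) else ContinuousMap.const _ 0
    with hc'
  have hci : ∀ n, ∀ A ⊆ edges (S' i n), IsInterface (p' i n) (k' i n) (δ n) A (c' n A) := by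
    intro n A hA'
    simp only [hc', dif_pos hA']
    exact Classical.choose_spec (hex n A hA')
  refine ⟨N' i, k' i, p' i, S' i, c', G', mb_of_isG hG', ?_, ?_, ?_⟩
  · intro F hF
    exact hcv (h3 i) c' hci F hF.cont hF.bdd hF.inv'
  · exact curve_close hCL.1 hG₀ hG' hε.le fun z hz => (hi z hz).le
  · filter_upwards [h4 i] with n hn m A B
    exact hn (c n) (c' n) (hc n) (hci n) m A B

/-- **`S_C3` from `S_loc`.** -/
theorem s_c3 {K : Cls} {q κ : ℝ} (hq : 0 < q) (hloc : S_loc K q) (hfin : I_finW (wq q))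
    {Ω : Type} [MeasurableSpace Ω] {P : Measure Ω} [IsProbabilityMeasure P] {γ : Ω → ℝ → ℂ}
    (hCL : CL K κ (wq q) P γ) : S_C3 q P γ := by
  intro Φ ψ hψ G hG δ N k p S hAp c hc m A B hAB hM e he
  have hM0 : ∀ j, Mar (A 0 j) (B 0 j) (A 1 j) (B 1 j) := hM 0
  have hM1 : ∀ j, Mar (A 1 j) (B 1 j) (A 2 j) (B 2 j) := hM 1
  have hM2 : ∀ j, Mar (A 2 j) (B 2 j) (A 3 j) (B 3 j) := hM 2
  have hGm := mb_of_isG hG
  have hA30 : ∀ j, A 3 j ⊆ A 0 j := fun j =>
    ((hM2 j).1.trans interior_subset).trans (((hM1 j).1.trans interior_subset).trans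
      ((hM0 j).1.trans interior_subset))
  have hB03 : ∀ j, B 0 j ⊆ B 3 j := fun j =>
    ((hM0 j).2.trans interior_subset).trans (((hM1 j).2.trans interior_subset).trans
      ((hM2 j).2.trans interior_subset))
  have hmono : ∀ (N : ℕ → ℕ) (k : ℕ → ℕ) (p : ∀ n, ZMod (N n) → ℤ × ℤ)
      (S : ℕ → Finset (ℤ × ℤ)) (c : ∀ _ : ℕ, Finset (Sym2 (ℤ × ℤ)) → Crv) (n : ℕ)
      (F H : Crv → ℝ), (∀ x, F x ≤ H x) →
      Final.mean q (p n) (k n) (S n) (fun X => F (c n X)) ≤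
        Final.mean q (p n) (k n) (S n) (fun X => H (c n X)) :=
    fun N k p S c n F H h => mean_mono hq _ _ _ fun X _ => h _
  have hPVmono : ∀ (N : ℕ → ℕ) (k : ℕ → ℕ) (p : ∀ n, ZMod (N n) → ℤ × ℤ)
      (S : ℕ → Finset (ℤ × ℤ)) (c : ∀ _ : ℕ, Finset (Sym2 (ℤ × ℤ)) → Crv) (n : ℕ)
      (U V : Set Crv), U ⊆ V → PV q (p n) (k n) (S n) (c n) U ≤ PV q (p n) (k n) (S n) (c n) V :=
    fun N k p S c n U V h => hmono N k p S c n _ _ fun x =>
      indicator_le_indicator_of_subset h (fun _ => zero_le_one) x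
  have hbB : ∀ j, bq Φ ∉ B 0 j := fun j => (target_notMem (hAB 0 j)).2
  -- the upper bound
  have hup : ∀ᶠ n in atTop,
      PV q (p n) (k n) (S n) (c n) (⋂ j, Vale.Agent.P167.H199.C.Vis (A 0 j) (B 0 j)) ≤
        P.real {ω | ∀ j, G ω ∈ VisC (A 3 j) (B 3 j)} + e := by
    set V : Set Crv := ⋂ j, VisC (A 3 j) (B 3 j) with hVd
    have hV : IsClosed V := isClosed_iInter fun j => isClosed_visC (hAB 3 j).cB.isClosed
    have hVi : H437Q.C3.Inv V := H437Q.C3.Inv.iInter fun j => inv_visC _ _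
    obtain ⟨ε, hε, hpt⟩ := port_up hGm hV hVi (e := e / 3) (by positivity)
    obtain ⟨r₁, hr₁, hret⟩ := no_return hq hfin hAp hc (A := A 0) (B := B 0)
      (fun j => (hAB 0 j).cB) hbB (e := e / 3) (by positivity)
    obtain ⟨N', k', p', S', c', G', s3, s4, s5, s6⟩ := side_loc H327.s_stab hCL hψ hG hloc hAp hc
      hr₁ hε (e := e / 3) (by positivity)
    filter_upwards [hret r₁ hr₁ le_rfl, s6, hpt _ G' s4 s3 s5 (hmono N' k' p' S' c')]
      with n n1 n2 n3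
    have n2' := (abs_le.1 (n2 m (A 0) (B 0))).2
    have n4 : PV q (p' n) (k' n) (S' n) (c' n) (⋂ j, Vale.Agent.P167.H199.C.Vis
        (A 0 j ∪ closedBall (bq Φ) r₁) (B 0 j)) ≤ PV q (p' n) (k' n) (S' n) (c' n) V := by
      refine hPVmono N' k' p' S' c' n _ _ (iInter_mono fun j => ?_)
      exact vis_sub_visC ((interior_subset.trans (hA30 j)).trans subset_union_left)
        (interior_subset.trans (hB03 j))
    have n5 : PV q (p' n) (k' n) (S' n) (c' n) V ≤ P.real {ω | G ω ∈ V} + e / 3 := n3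
    have z4 : {ω | ∀ j, G ω ∈ VisC (A 3 j) (B 3 j)} = {ω | G ω ∈ V} := by
      ext ω
      simp [hVd]
    rw [z4]
    linarith
  -- the lower bound
  have hlo : ∀ᶠ n in atTop,
      P.real {ω | ∀ j, G ω ∈ Vale.Agent.P167.H199.C.Vis (A 0 j) (B 0 j)} ≤
        PV q (p n) (k n) (S n) (c n) (⋂ j, VisC (A 3 j) (B 3 j)) + e := by
    have hne : ∀ᵐ ω ∂P, G ω 1 = bq Φ ∧
        ∀ t : unitInterval, (t : ℝ) < 1 → G ω t ≠ bq Φ := by
      obtain ⟨W, -, hW⟩ := hCL.1
      have hUni := SLE.uni_of_uniformizer Vale.Agent.P153.R2.R1.i_uinj hψ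
      filter_upwards [hW, hG.1] with ω h1 h2
      refine ⟨h2.1, fun t ht => ?_⟩
      rw [h2.2 t ht]
      refine hUni.ne _ ?_
      exact h1.im_nonneg _ (div_nonneg t.2.1 (by linarith))
    obtain ⟨r, hr, -, hrU⟩ := lim_ball hGm hne (A := A 0) (B := B 0)
      (fun j => (hAB 0 j).cA.isClosed) hbB (e := e / 3) (by positivity) 1 one_pos
    set U : Set Crv := ⋂ j, Vale.Agent.P167.H199.C.Vis (A 0 j ∪ closedBall (bq Φ) r) (B 0 j)
      with hUd
    have hU : IsOpen U := isOpen_iInter_of_finite fun j =>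
      isOpen_vis ((hAB 0 j).cA.isClosed.union isClosed_closedBall)
    have hUi : H437Q.C3.Inv U := H437Q.C3.Inv.iInter fun j => inv_vis _ _
    obtain ⟨ε, hε, hpt⟩ := port_lo hGm hU hUi (e := e / 3) (by positivity)
    obtain ⟨N', k', p', S', c', G', s3, s4, s5, s6⟩ := side_loc H327.s_stab hCL hψ hG hloc hAp hc
      hr hε (e := e / 3) (by positivity)
    filter_upwards [s6, hpt _ G' s4 s3 s5 (hmono N' k' p' S' c')] with n n2 n3
    have n2' := (abs_le.1 (n2 m (A 0) (B 0))).1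
    have n4 : PV q (p n) (k n) (S n) (c n) U ≤
        PV q (p n) (k n) (S n) (c n) (⋂ j, VisC (A 3 j) (B 3 j)) := by
      refine hPVmono N k p S c n _ _ (iInter_mono fun j => ?_)
      exact vis_sub_visC ((interior_subset.trans (hA30 j)).trans subset_union_left)
        (interior_subset.trans (hB03 j))
    have n5 : P.real {ω | G ω ∈ U} ≤ PV q (p' n) (k' n) (S' n) (c' n) U + e / 3 := n3
    have z4 : {ω | ∀ j, G ω ∈ Vale.Agent.P167.H199.C.Vis (A 0 j) (B 0 j)} =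
        {ω | G ω ∈ ⋂ j, Vale.Agent.P167.H199.C.Vis (A 0 j) (B 0 j)} := by
      ext ω
      simp
    rw [z4]
    linarith
  exact hup.and hlo

/-- **Stage II**: the question from the curve theorem for the class `K`, the approximations in the class
`K` of `S_loc` and the driver tightness. -/
theorem question_loc {K : Cls} {q : ℝ} (hq : 0 < q)
    (hK : QE.CurveLimitOn K (Final.kappa q) (wq q)) (hloc : S_loc K q) (hfin : I_finW (wq q))
    (hDT : H259.C.DTOut q) : Final.Question q :=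
  H259.C.question_of_C hq hK (fun _ _ _ _ _ h => s_c3 hq hloc hfin h) hDT

end Vale.Agent.P167.N.ST2
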