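import Vale.Agent.P167.N.ST2.Walk2

/-!
# P167, block ST2: the loop erasure of the walk with the staircase

* `Tot`: a walk which follows the arc and contains the staircase; `exists_tot`;
* `Tot.cut`: restriction to an interval of times;
* `Tot.win`: the middle part of the staircase is visited once and is not passed by a loop;
* `Tot.erase`: the loop erasure is a simple path with the staircase;
* `exists_mod`: moduli of continuity and of injectivity.
-/

set_option autoImplicit false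

namespace Vale.Agent.P167.N.ST2

open Set
open Vale.Agent.P167.E6 (dir pt)

variable {Γ : ℝ → ℂ} {d : Fin 4} {tc σ h e : ℝ} {G : ℝ → ℝ} {K L₁ L : ℕ} {x : ℕ → ℤ × ℤ}
  {u : ℕ → ℝ}

/-- A walk which follows the arc and contains the staircase. -/
structure Tot (Γ : ℝ → ℂ) (d : Fin 4) (tc σ : ℝ) (G : ℝ → ℝ) (h e : ℝ) (K L₁ L : ℕ)
    (x : ℕ → ℤ × ℤ) (u : ℕ → ℝ) : Prop where
  fo : Fo Γ h e 0 1 L x u
  len : L₁ + 4 * K ≤ L
  st : ∀ i ≤ 4 * K, x (L₁ + i) = stair d (rd h (Γ tc)) K i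
  su : ∀ i, 1 ≤ i → i ≤ 4 * K → u (L₁ + i) = G (sw σ h K i)
  lo : ∀ i ≤ L₁, u i ≤ G (-σ)
  hi : ∀ i, L₁ + 4 * K < i → i ≤ L + 1 → G σ ≤ u i

theorem exists_tot (hΓ : ContinuousOn Γ (Icc 0 1)) (H : Str Γ d tc σ G) (hh : 0 < h)
    (hK : (K : ℝ) * h ≤ σ) (hK' : σ ≤ (K + 1) * h) {v₀ v₁ : ℤ × ℤ} (he : 0 ≤ e)
    (h0 : dist ((h : ℂ) * pt v₀) (Γ 0) ≤ e) (h1 : dist ((h : ℂ) * pt v₁) (Γ 1) ≤ e) :
    ∃ (L₁ L : ℕ) (x : ℕ → ℤ × ℤ) (u : ℕ → ℝ), Tot Γ d tc σ G h (7 * h + e) K L₁ L x u ∧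
      x 0 = v₀ ∧ x L = v₁ := by
  obtain ⟨L₁, L, x, u, h1, h2, h3, h4, h5, h6, h7, h8⟩ := exists_total hΓ H hh hK hK' he h0 h1
  exact ⟨L₁, L, x, u, ⟨h1, h4, h5, h6, h7, h8⟩, h2, h3⟩

/-- The parameters of the restriction to the times `A, …, B`. -/
noncomputable def cu (u : ℕ → ℝ) (A B : ℕ) (i : ℕ) : ℝ :=
  if i = 0 then 0 else if i ≤ B - A then u (A + i) else 1

theorem cu_mid {A B i : ℕ} (h1 : 0 < i) (h2 : i ≤ B - A) : cu u A B i = u (A + i) := by
  rw [cu, if_neg (by omega), if_pos h2]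

theorem cu_end {A B i : ℕ} (h1 : 0 < i) (h2 : B - A < i) : cu u A B i = 1 := by
  rw [cu, if_neg (by omega), if_neg (by omega)]

/-- **Restriction.** -/
theorem Tot.cut (H : Str Γ d tc σ G) (T : Tot Γ d tc σ G h e K L₁ L x u) {A B : ℕ} {η : ℝ}
    (hη : 0 ≤ η) (hA : A ≤ L₁) (hB : L₁ + 4 * K < B) (hBL : B ≤ L)
    (h1 : ∀ t ∈ Icc 0 (u (A + 1)), dist (Γ (u (A + 1))) (Γ t) ≤ η)
    (h2 : ∀ t ∈ Icc (u B) 1, dist (Γ (u B)) (Γ t) ≤ η) :
    Tot Γ d tc σ G h (e + η) K (L₁ - A) (B - A) (fun i => x (A + i)) (cu u A B) := by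
  have hf := T.fo
  have hσ := H.pos
  have z1 : (-σ : ℝ) ∈ Icc (-σ) σ := ⟨le_rfl, by linarith⟩
  have z2 : σ ∈ Icc (-σ) σ := ⟨by linarith, le_rfl⟩
  have hc0 : cu u A B 0 = 0 := if_pos rfl
  refine ⟨⟨fun i hi => ?_, fun i hi => ?_, hc0, cu_end (by omega) (by omega), fun i hi t ht => ?_⟩,
    by omega, fun i hi => ?_, fun i hi1 hi2 => ?_, fun i hi => ?_, fun i hi1 hi2 => ?_⟩
  · exact hf.adj (A + i) (by omega)
  · rcases Nat.eq_zero_or_pos i with rfl | h3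
    · rw [hc0, cu_mid (by omega) (by omega)]
      exact hf.low (by omega)
    · rcases lt_or_eq_of_le hi with h4 | h4
      · rw [cu_mid h3 (by omega), cu_mid (by omega) (by omega)]
        exact hf.mono _ (by omega)
      · rw [cu_mid h3 (by omega), cu_end (by omega) (by omega)]
        exact hf.high (by omega)
  · show dist ((h : ℂ) * pt (x (A + i))) (Γ t) ≤ e + η
    rcases Nat.eq_zero_or_pos i with rfl | h3
    · rw [hc0, cu_mid (by omega) (by omega)] at ht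
      have h4 := hf.nearu' (i := A + 0) (by omega)
      have h5 := h1 t ht
      exact (dist_triangle _ _ _).trans (add_le_add h4 h5)
    · rcases lt_or_eq_of_le hi with h4 | h4
      · rw [cu_mid h3 (by omega), cu_mid (by omega) (by omega)] at ht
        have := hf.near (A + i) (by omega) t ht
        linarith
      · rw [cu_mid h3 (by omega), cu_end (by omega) (by omega)] at ht
        have h6 : A + i = B := by omega
        rw [h6] at ht ⊢
        exact (dist_triangle _ _ _).trans (add_le_add (hf.nearu hBL) (h2 t ht))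
  · show x (A + (L₁ - A + i)) = _
    rw [show A + (L₁ - A + i) = L₁ + i by omega]
    exact T.st i hi
  · rw [cu_mid (by omega) (by omega), show A + (L₁ - A + i) = L₁ + i by omega]
    exact T.su i hi1 hi2
  · rcases Nat.eq_zero_or_pos i with rfl | h3
    · rw [hc0]
      exact H.low.le
    · rw [cu_mid h3 (by omega)]
      exact T.lo _ (by omega)
  · rcases Nat.lt_or_ge (B - A) i with h3 | h3
    · rw [cu_end (by omega) h3]
      exact H.high.le
    · rw [cu_mid (by omega) h3]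
      exact T.hi _ (by omega) (by omega)

/-- **The middle part of the staircase.** -/
theorem Tot.win (H : Str Γ d tc σ G) (T : Tot Γ d tc σ G h e K L₁ L x u) (hh : 0 < h)
    (hK : (K : ℝ) * h ≤ σ) (hK' : σ ≤ (K + 1) * h) (hhσ : 4 * h ≤ σ) {τ : ℝ}
    (hτ1 : τ < G (-(3 * σ / 4)) - G (-σ)) (hτ2 : τ < G σ - G (3 * σ / 4))
    (hτ3 : τ < G (σ / 4) - G (-(σ / 4)))
    (hsep : ∀ s ∈ Icc (0 : ℝ) 1, ∀ t ∈ Icc (0 : ℝ) 1, dist (Γ s) (Γ t) ≤ 2 * e → |s - t| ≤ τ) :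
    (∀ i, L₁ + K ≤ i → i ≤ L₁ + 3 * K → ∀ j ≤ L, x j = x i → j = i) ∧
      ∀ i < L₁ + K, ∀ j ≤ L, L₁ + 3 * K < j → x i ≠ x j := by
  have hσ := H.pos
  have hf := T.fo
  have hlen := T.len
  have hK1 : 1 ≤ K := by
    by_contra hc
    have : K = 0 := by omega
    rw [this] at hK'
    push_cast at hK'
    linarith
  have key : ∀ i ≤ L, ∀ j ≤ L, x i = x j → |u i - u j| ≤ τ := by
    intro i hi j hj hij
    refine hsep _ ⟨hf.low (by omega), hf.high (by omega)⟩ _ ⟨hf.low (by omega), hf.high (by omega)⟩ ?_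
    have h1 := hf.nearu hi
    have h2 := hf.nearu hj
    rw [hij] at h1
    have h3 := dist_triangle_left (Γ (u i)) (Γ (u j)) ((h : ℂ) * pt (x j))
    linarith
  have hbd := sw_bd hh hσ hK
  have m1 : (-σ : ℝ) ∈ Icc (-σ) σ := ⟨le_rfl, by linarith⟩
  have m2 : σ ∈ Icc (-σ) σ := ⟨by linarith, le_rfl⟩
  have m3 : -(3 * σ / 4) ∈ Icc (-σ) σ := ⟨by linarith, by linarith⟩
  have m4 : 3 * σ / 4 ∈ Icc (-σ) σ := ⟨by linarith, by linarith⟩
  have m5 : σ / 4 ∈ Icc (-σ) σ := ⟨by linarith, by linarith⟩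
  have m6 : -(σ / 4) ∈ Icc (-σ) σ := ⟨by linarith, by linarith⟩
  have hKc : (1 : ℝ) ≤ K := by exact_mod_cast hK1
  -- the parameters of the middle part
  have hmid : ∀ i, L₁ + K ≤ i → i ≤ L₁ + 3 * K → G (-(3 * σ / 4)) ≤ u i ∧ u i ≤ G (3 * σ / 4) := by
    intro i hi1 hi2
    obtain ⟨j, rfl⟩ := Nat.exists_eq_add_of_le (show L₁ ≤ i by omega)
    rw [T.su j (by omega) (by omega)]
    have h1 : sw σ h K j = h * ((j / 2 : ℕ) - K) := sw_pos (by omega) (by omega)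
    have h2 : (K : ℝ) ≤ 2 * ((j / 2 : ℕ) : ℝ) + 1 := by
      have : K ≤ 2 * (j / 2) + 1 := by omega
      exact_mod_cast this
    have h3 : 2 * ((j / 2 : ℕ) : ℝ) ≤ 3 * K := by
      have : 2 * (j / 2) ≤ 3 * K := by omega
      exact_mod_cast this
    constructor
    · refine H.mono.monotoneOn m3 (hbd _) ?_
      rw [h1]
      nlinarith
    · refine H.mono.monotoneOn (hbd _) m4 ?_
      rw [h1]
      nlinarith
  constructor
  · intro i hi1 hi2 j hj hij
    have h1 := hmid i hi1 hi2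
    have h2 := abs_le.1 (key i (by omega) j hj hij.symm)
    rcases Nat.lt_or_ge L₁ j with h3 | h3
    · rcases Nat.lt_or_ge (L₁ + 4 * K) j with h4 | h4
      · exfalso
        have := T.hi j h4 (by omega)
        linarith
      · obtain ⟨i', rfl⟩ := Nat.exists_eq_add_of_le (show L₁ ≤ i by omega)
        obtain ⟨j', rfl⟩ := Nat.exists_eq_add_of_le h3.le
        rw [T.st j' (by omega), T.st i' (by omega)] at hij
        rw [stair_inj hij]
    · exfalso
      have := T.lo j h3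
      linarith
  · intro i hi j hj hj1 hij
    have h2 := abs_le.1 (key i (by omega) j hj hij)
    have h3 : u i ≤ G (-(σ / 4)) := by
      refine (hf.monot hi.le (by omega)).trans ?_
      rw [T.su K (by omega) (by omega), sw_pos (by omega) (by omega)]
      refine H.mono.monotoneOn ?_ m6 ?_
      · have := hbd K
        rwa [sw_pos (by omega) (by omega)] at this
      · have h4 : 2 * ((K / 2 : ℕ) : ℝ) ≤ K := by
          have : 2 * (K / 2) ≤ K := by omega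
          exact_mod_cast this
        nlinarith
    have h4 : G (σ / 4) ≤ u j := by
      refine le_trans ?_ (hf.monot hj1.le (by omega))
      rw [T.su (3 * K) (by omega) (by omega), sw_pos (by omega) (by omega)]
      refine H.mono.monotoneOn m5 ?_ ?_
      · have := hbd (3 * K)
        rwa [sw_pos (by omega) (by omega)] at this
      · have h5 : 3 * (K : ℝ) ≤ 2 * ((3 * K / 2 : ℕ) : ℝ) + 1 := by
          have : 3 * K ≤ 2 * (3 * K / 2) + 1 := by omega
          exact_mod_cast this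
        nlinarith
    linarith

/-- **The loop erasure is a simple path with the staircase.** -/
theorem Tot.erase (H : Str Γ d tc σ G) (T : Tot Γ d tc σ G h e K L₁ L x u) (hh : 0 < h)
    (hK : (K : ℝ) * h ≤ σ) (hK' : σ ≤ (K + 1) * h) (hhσ : 4 * h ≤ σ) {τ : ℝ}
    (hτ1 : τ < G (-(3 * σ / 4)) - G (-σ)) (hτ2 : τ < G σ - G (3 * σ / 4))
    (hτ3 : τ < G (σ / 4) - G (-(σ / 4)))
    (hsep : ∀ s ∈ Icc (0 : ℝ) 1, ∀ t ∈ Icc (0 : ℝ) 1, dist (Γ s) (Γ t) ≤ 2 * e → |s - t| ≤ τ) :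
    ∃ c, li x L c = L₁ + 2 * K ∧ K ≤ c ∧ c + K ≤ lm x L ∧ lu x L u c = tc ∧
      ∀ m < K, x (li x L (c + m + 1)) =
          x (li x L (c + m)) + (if Even m then dir d else dir (d + 1)) ∧
        x (li x L (c - m)) =
          x (li x L (c - m - 1)) + (if Even m then dir d else dir (d + 1)) := by
  obtain ⟨w1, w2⟩ := T.win H hh hK hK' hhσ hτ1 hτ2 hτ3 hsep
  have hlen := T.len
  have hK1 : 1 ≤ K := by
    by_contra hc
    have : K = 0 := by omega
    rw [this] at hK'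
    push_cast at hK'
    linarith [H.pos]
  obtain ⟨j₀, hj₀, hj⟩ := window (show L₁ + K ≤ L₁ + 3 * K by omega) (by omega) w1 w2
  rw [show L₁ + 3 * K - (L₁ + K) = 2 * K by omega] at hj₀ hj
  have e0 : li x L (j₀ + K) = L₁ + 2 * K := by
    rw [hj K (by omega)]
    ring
  refine ⟨j₀ + K, e0, by omega, by omega, ?_, fun m hm => ⟨?_, ?_⟩⟩
  · rw [lu_le (by omega), e0, T.su _ (by omega) (by omega), sw_pos (by omega) (by omega),
      Nat.mul_div_cancel_left K two_pos, sub_self, mul_zero, H.G0]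
  · rw [show j₀ + K + m + 1 = j₀ + (K + m + 1) by ring, show j₀ + K + m = j₀ + (K + m) by ring,
      hj _ (by omega), hj _ (by omega), show L₁ + K + (K + m + 1) = L₁ + (2 * K + m + 1) by ring,
      show L₁ + K + (K + m) = L₁ + (2 * K + m) by ring, T.st _ (by omega), T.st _ (by omega)]
    exact stair_up m
  · rw [show j₀ + K - m = j₀ + (K - m) by omega, show j₀ + (K - m) - 1 = j₀ + (K - m - 1) by omega,
      hj _ (by omega), hj _ (by omega), show L₁ + K + (K - m) = L₁ + (2 * K - m) by omega,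
      show L₁ + K + (K - m - 1) = L₁ + (2 * K - m - 1) by omega, T.st _ (by omega),
      T.st _ (by omega)]
    exact stair_down (by omega)

/-- **Moduli of continuity and injectivity of the arc.** -/
theorem exists_osc (hΓ : ContinuousOn Γ (Icc 0 1)) {η : ℝ} (hη : 0 < η) :
    ∃ τ > 0, ∀ s ∈ Icc (0 : ℝ) 1, ∀ t ∈ Icc (0 : ℝ) 1, |s - t| ≤ τ → dist (Γ s) (Γ t) ≤ η := by
  have huc : UniformContinuousOn Γ (Icc (0 : ℝ) 1) :=
    isCompact_Icc.uniformContinuousOn_of_continuous hΓ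
  rw [Metric.uniformContinuousOn_iff] at huc
  obtain ⟨τ, hτ, hu⟩ := huc η hη
  refine ⟨τ / 2, by linarith, fun s hs t ht hst => (hu s hs t ht ?_).le⟩
  rw [Real.dist_eq]
  linarith

theorem exists_sep (hΓ : ContinuousOn Γ (Icc 0 1)) (hi : InjOn Γ (Icc 0 1)) {τ : ℝ} (hτ : 0 < τ) :
    ∃ μ > 0, ∀ s ∈ Icc (0 : ℝ) 1, ∀ t ∈ Icc (0 : ℝ) 1, dist (Γ s) (Γ t) ≤ μ → |s - t| ≤ τ := by
  set K : Set (ℝ × ℝ) := (Icc (0 : ℝ) 1 ×ˢ Icc (0 : ℝ) 1) ∩ {z | τ ≤ |z.1 - z.2|} with hK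
  have hKc : IsCompact K := (isCompact_Icc.prod isCompact_Icc).inter_right
    (isClosed_le continuous_const (by fun_prop))
  have hc : ContinuousOn (fun z : ℝ × ℝ => dist (Γ z.1) (Γ z.2)) K := by
    have h1 : ContinuousOn (fun z : ℝ × ℝ => Γ z.1) K :=
      hΓ.comp continuousOn_fst fun z hz => hz.1.1
    have h2 : ContinuousOn (fun z : ℝ × ℝ => Γ z.2) K :=
      hΓ.comp continuousOn_snd fun z hz => hz.1.2
    exact continuous_dist.comp_continuousOn (h1.prodMk h2)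
  rcases K.eq_empty_or_nonempty with h0 | h0
  · refine ⟨1, one_pos, fun s hs t ht _ => ?_⟩
    by_contra hcon
    push Not at hcon
    have : (s, t) ∈ K := ⟨⟨hs, ht⟩, hcon.le⟩
    rw [h0] at this
    exact this
  · obtain ⟨z, hz, hmin⟩ := hKc.exists_isMinOn h0 hc
    have hpos : 0 < dist (Γ z.1) (Γ z.2) := by
      refine dist_pos.2 fun h1 => ?_
      have h2 := hi hz.1.1 hz.1.2 h1
      have h3 : τ ≤ |z.1 - z.2| := hz.2
      rw [h2, sub_self, abs_zero] at h3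
      linarith
    refine ⟨dist (Γ z.1) (Γ z.2) / 2, by linarith, fun s hs t ht hst => ?_⟩
    by_contra hcon
    push Not at hcon
    have h1 : (s, t) ∈ K := ⟨⟨hs, ht⟩, hcon.le⟩
    have h2 : dist (Γ z.1) (Γ z.2) ≤ dist (Γ s) (Γ t) := hmin h1
    linarith

/-- **All the constants.** -/
theorem exists_mod (hΓ : ContinuousOn Γ (Icc 0 1)) (hi : InjOn Γ (Icc 0 1)) (H : Str Γ d tc σ G)
    {η : ℝ} (hη : 0 < η) : ∃ (τ e₀ : ℝ), 0 < τ ∧ 0 < e₀ ∧ τ < G (-(3 * σ / 4)) - G (-σ) ∧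
      τ < G σ - G (3 * σ / 4) ∧ τ < G (σ / 4) - G (-(σ / 4)) ∧
      (∀ s ∈ Icc (0 : ℝ) 1, ∀ t ∈ Icc (0 : ℝ) 1, dist (Γ s) (Γ t) ≤ 2 * e₀ → |s - t| ≤ τ) ∧
      ∀ s ∈ Icc (0 : ℝ) 1, ∀ t ∈ Icc (0 : ℝ) 1, |s - t| ≤ τ → dist (Γ s) (Γ t) ≤ η := by
  have hσ := H.pos
  have m1 : (-σ : ℝ) ∈ Icc (-σ) σ := ⟨le_rfl, by linarith⟩
  have m2 : σ ∈ Icc (-σ) σ := ⟨by linarith, le_rfl⟩
  have m3 : -(3 * σ / 4) ∈ Icc (-σ) σ := ⟨by linarith, by linarith⟩
  have m4 : 3 * σ / 4 ∈ Icc (-σ) σ := ⟨by linarith, by linarith⟩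
  have m5 : σ / 4 ∈ Icc (-σ) σ := ⟨by linarith, by linarith⟩
  have m6 : -(σ / 4) ∈ Icc (-σ) σ := ⟨by linarith, by linarith⟩
  have p1 := H.mono m1 m3 (by linarith)
  have p2 := H.mono m4 m2 (by linarith)
  have p3 := H.mono m6 m5 (by linarith)
  obtain ⟨τ₀, hτ₀, ho⟩ := exists_osc hΓ hη
  set τ := min (min τ₀ ((G (-(3 * σ / 4)) - G (-σ)) / 2))
    (min ((G σ - G (3 * σ / 4)) / 2) ((G (σ / 4) - G (-(σ / 4))) / 2)) with hτ
  have a1 : τ ≤ τ₀ := (min_le_left _ _).trans (min_le_left _ _)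
  have a2 : τ ≤ (G (-(3 * σ / 4)) - G (-σ)) / 2 := (min_le_left _ _).trans (min_le_right _ _)
  have a3 : τ ≤ (G σ - G (3 * σ / 4)) / 2 := (min_le_right _ _).trans (min_le_left _ _)
  have a4 : τ ≤ (G (σ / 4) - G (-(σ / 4))) / 2 := (min_le_right _ _).trans (min_le_right _ _)
  have hτ0 : 0 < τ := lt_min (lt_min hτ₀ (by linarith)) (lt_min (by linarith) (by linarith))
  obtain ⟨μ, hμ, hs⟩ := exists_sep hΓ hi hτ0
  exact ⟨τ, μ / 2, hτ0, by linarith, by linarith, by linarith, by linarith,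
    fun s h1 t h2 h3 => hs s h1 t h2 (by linarith), fun s h1 t h2 h3 => ho s h1 t h2 (h3.trans a1)⟩

end Vale.Agent.P167.N.ST2
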