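import Vale.Agent.P167.N.ST2.Le
import Vale.Agent.P167.H634.Apx.Chain2

/-!
# P167, block ST2: walks of the square lattice which follow an arc, with an exact staircase

* `exists_follow`: for every mesh there is a walk which follows the curve with error `3 h`;
* `exists_join`: a walk between two lattice points near a given point;
* `stair`: the staircase; `stair_fo`: it follows a straight part of the curve;
* `exists_total`: the three parts together.
-/

set_option autoImplicit false

namespace Vale.Agent.P167.N.ST2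

open Set
open Vale.Agent.P167.E6 (dir pt)
open Vale.Agent.P167.H634.Apx (dist_le_coord round_near round_step)

/-! ### Walks along a curve -/

/-- The lattice point near a point of the plane. -/
noncomputable def rd (h : ℝ) (z : ℂ) : ℤ × ℤ := (round (z.re / h), round (z.im / h))

theorem pt_re (h : ℝ) (w : ℤ × ℤ) : ((h : ℂ) * pt w).re = h * w.1 := by
  rw [Complex.re_ofReal_mul]
  rfl

theorem pt_im (h : ℝ) (w : ℤ × ℤ) : ((h : ℂ) * pt w).im = h * w.2 := by
  rw [Complex.im_ofReal_mul]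
  rfl

theorem rd_near {h : ℝ} (hh : 0 < h) (z : ℂ) : dist ((h : ℂ) * pt (rd h z)) z ≤ h := by
  refine (dist_le_coord (a := h / 2) (b := h / 2) ?_ ?_).trans (by linarith)
  · rw [pt_re]
    exact round_near hh _
  · rw [pt_im]
    exact round_near hh _

theorem rd_pt {h : ℝ} (hh : 0 < h) (w : ℤ × ℤ) : rd h ((h : ℂ) * pt w) = w := by
  rw [rd, pt_re, pt_im, mul_div_cancel_left₀ _ hh.ne', mul_div_cancel_left₀ _ hh.ne', round_intCast,
    round_intCast]

/-- **A walk which follows the curve.** -/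
theorem exists_follow {Γ : ℝ → ℂ} {h α β : ℝ} (hh : 0 < h) (hαβ : α ≤ β)
    (hΓ : ContinuousOn Γ (Icc α β)) :
    ∃ (L : ℕ) (x : ℕ → ℤ × ℤ) (u : ℕ → ℝ), Fo Γ h (3 * h) α β L x u ∧ x 0 = rd h (Γ α) ∧
      x L = rd h (Γ β) := by
  have huc : UniformContinuousOn Γ (Icc α β) := isCompact_Icc.uniformContinuousOn_of_continuous hΓ
  rw [Metric.uniformContinuousOn_iff] at huc
  obtain ⟨τ, hτ, hu⟩ := huc (h / 2) (by linarith)
  obtain ⟨M, hM⟩ := exists_nat_gt ((β - α) / τ)
  have hM0' : (0 : ℝ) < (M : ℝ) := lt_of_le_of_lt (div_nonneg (by linarith) hτ.le) hM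
  have hMn : 0 < M := by exact_mod_cast hM0'
  have hst0 : 0 ≤ (β - α) / M := div_nonneg (by linarith) hM0'.le
  have hstep : (β - α) / M < τ := by
    rw [div_lt_iff₀ hτ] at hM
    rw [div_lt_iff₀ hM0']
    linarith
  set X : ℕ → ℝ := fun i => α + i * ((β - α) / M) with hX
  have hXs : ∀ i, X (i + 1) = X i + (β - α) / M := by
    intro i
    simp only [hX]
    push_cast
    ring
  have hX0 : X 0 = α := by simp [hX]
  have hXM : X M = β := by
    simp only [hX]
    field_simp
    ring
  have hXmem : ∀ i ≤ M, X i ∈ Icc α β := by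
    intro i hi
    have h1 : (i : ℝ) ≤ M := by exact_mod_cast hi
    have h2 : (0 : ℝ) ≤ i := Nat.cast_nonneg i
    refine ⟨by simp only [hX]; nlinarith, ?_⟩
    rw [← hXM]
    simp only [hX]
    nlinarith
  have hcl : ∀ i < M, ∀ t ∈ Icc (X i) (X (i + 1)), dist (Γ t) (Γ (X i)) ≤ h / 2 := by
    intro i hi t ht
    have h1 := hXmem i hi.le
    have h2 := hXmem (i + 1) hi
    rw [hXs] at ht
    refine (hu t ⟨h1.1.trans ht.1, ?_⟩ _ h1 ?_).le
    · rw [hXs] at h2
      exact ht.2.trans h2.2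
    · rw [Real.dist_eq, abs_lt]
      constructor <;> linarith [ht.1, ht.2]
  have hXle : ∀ i, X i ≤ X (i + 1) := fun i => by rw [hXs]; linarith
  have hcl1 : ∀ i < M, |(Γ (X (i + 1))).re - (Γ (X i)).re| ≤ h / 2 := by
    intro i hi
    have h1 := Complex.abs_re_le_norm (Γ (X (i + 1)) - Γ (X i))
    rw [← dist_eq_norm, Complex.sub_re] at h1
    exact h1.trans (hcl i hi _ ⟨hXle i, le_rfl⟩)
  have hcl2 : ∀ i < M, |(Γ (X (i + 1))).im - (Γ (X i)).im| ≤ h / 2 := by
    intro i hi
    have h1 := Complex.abs_im_le_norm (Γ (X (i + 1)) - Γ (X i))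
    rw [← dist_eq_norm, Complex.sub_im] at h1
    exact h1.trans (hcl i hi _ ⟨hXle i, le_rfl⟩)
  set V : ℕ → ℤ × ℤ := fun i => rd h (Γ (X i)) with hV
  set w : ℕ → ℤ × ℤ := fun m => if Even m then V (m / 2) else ((V (m / 2 + 1)).1, (V (m / 2)).2)
    with hw
  have w0 : ∀ i, w (2 * i) = V i := by
    intro i
    simp only [hw]
    rw [if_pos (even_two_mul i), Nat.mul_div_cancel_left i two_pos]
  have w1 : ∀ i, w (2 * i + 1) = ((V (i + 1)).1, (V i).2) := by
    intro i
    have h2 : (2 * i + 1) / 2 = i := by omega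
    simp only [hw]
    rw [if_neg (by rw [Nat.not_even_iff_odd]; exact ⟨i, rfl⟩), h2]
  have t0 : ∀ i, X ((2 * i) / 2) = X i := fun i => by rw [Nat.mul_div_cancel_left i two_pos]
  have t1 : ∀ i, X ((2 * i + 1) / 2) = X i := fun i => by rw [show (2 * i + 1) / 2 = i by omega]
  refine ⟨2 * M, w, fun m => X (m / 2), ⟨?_, ?_, ?_, ?_, ?_⟩, ?_, ?_⟩
  · intro m hm
    obtain ⟨i, rfl | rfl⟩ : ∃ i, m = 2 * i ∨ m = 2 * i + 1 := ⟨m / 2, by omega⟩
    · rw [w0, w1]
      rcases round_step hh (hcl1 i (by omega)) with h1 | h1 | h1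
      · left
        simp only [hV, rd]
        rw [h1]
      · right
        refine ⟨0, ?_⟩
        simp only [hV, rd]
        rw [h1]
        ext <;> simp [dir]
      · right
        refine ⟨2, ?_⟩
        simp only [hV, rd]
        rw [h1]
        ext <;> simp [dir, sub_eq_add_neg]
    · rw [w1, show 2 * i + 1 + 1 = 2 * (i + 1) by ring, w0]
      rcases round_step hh (hcl2 i (by omega)) with h1 | h1 | h1
      · left
        simp only [hV, rd]
        rw [h1]
      · right
        refine ⟨1, ?_⟩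
        simp only [hV, rd]
        rw [h1]
        ext <;> simp [dir]
      · right
        refine ⟨3, ?_⟩
        simp only [hV, rd]
        rw [h1]
        ext <;> simp [dir, sub_eq_add_neg]
  · intro m _
    obtain ⟨i, rfl | rfl⟩ : ∃ i, m = 2 * i ∨ m = 2 * i + 1 := ⟨m / 2, by omega⟩
    · rw [t0, t1]
    · rw [t1, show (2 * i + 1 + 1) / 2 = i + 1 by omega]
      exact hXle i
  · rw [Nat.zero_div, hX0]
  · rw [t1, hXM]
  · intro m hm t ht
    obtain ⟨i, rfl | rfl⟩ : ∃ i, m = 2 * i ∨ m = 2 * i + 1 := ⟨m / 2, by omega⟩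
    · rw [t0, t1] at ht
      have h1 : t = X i := le_antisymm ht.2 ht.1
      rw [w0, h1]
      exact (rd_near hh _).trans (by linarith)
    · rw [t1, show (2 * i + 1 + 1) / 2 = i + 1 by omega] at ht
      have hi : i < M := by omega
      have h1 : dist ((h : ℂ) * pt (w (2 * i + 1))) (Γ (X i)) ≤ h + h / 2 := by
        rw [w1]
        refine dist_le_coord ?_ ?_
        · rw [pt_re]
          have h1 := round_near hh (Γ (X (i + 1))).re
          have h2 := hcl1 i hi
          have h3 : h * ((((V (i + 1)).1, (V i).2) : ℤ × ℤ).1 : ℝ) - (Γ (X i)).re =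
              (h * (round ((Γ (X (i + 1))).re / h) : ℤ) - (Γ (X (i + 1))).re) +
                ((Γ (X (i + 1))).re - (Γ (X i)).re) := by
            simp only [hV, rd]
            ring
          rw [h3]
          exact (abs_add_le _ _).trans (by linarith)
        · rw [pt_im]
          exact round_near hh _
      have h2 := hcl i hi t ht
      have h3 := dist_triangle_right ((h : ℂ) * pt (w (2 * i + 1))) (Γ t) (Γ (X i))
      linarith
  · have h2 := w0 0
    rw [mul_zero] at h2
    rw [h2]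
    simp only [hV]
    rw [hX0]
  · rw [w0]
    simp only [hV]
    rw [hXM]

/-- **A walk between two lattice points near a given point.** -/
theorem exists_join {Γ : ℝ → ℂ} {h e α : ℝ} (hh : 0 < h) {v w : ℤ × ℤ}
    (hv : dist ((h : ℂ) * pt v) (Γ α) ≤ e) (hw : dist ((h : ℂ) * pt w) (Γ α) ≤ e) :
    ∃ (L : ℕ) (x : ℕ → ℤ × ℤ) (u : ℕ → ℝ), Fo Γ h (3 * h + e) α α L x u ∧ x 0 = v ∧ x L = w := by
  obtain ⟨L, x, u, H, h0, h1⟩ := exists_follow (Γ := AffineMap.lineMap ((h : ℂ) * pt v)
    ((h : ℂ) * pt w)) (α := 0) (β := 1) hh zero_le_one (by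
      exact (AffineMap.lineMap_continuous).continuousOn)
  rw [AffineMap.lineMap_apply_zero, rd_pt hh] at h0
  rw [AffineMap.lineMap_apply_one, rd_pt hh] at h1
  refine ⟨L, x, fun _ => α, ⟨H.adj, fun i _ => le_rfl, rfl, rfl, fun i hi t ht => ?_⟩, h0, h1⟩
  have h2 : t = α := le_antisymm ht.2 ht.1
  rw [h2]
  have h3 := H.nearu hi
  have h4 : AffineMap.lineMap ((h : ℂ) * pt v) ((h : ℂ) * pt w) (u i) ∈
      Metric.closedBall (Γ α) e := by
    have h5 := (convex_closedBall (Γ α) e).lineMap_mem (Metric.mem_closedBall.2 hv)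
      (Metric.mem_closedBall.2 hw) (t := u i) ⟨H.low (by omega), H.high (by omega)⟩
    exact h5
  rw [Metric.mem_closedBall] at h4
  exact (dist_triangle _ _ _).trans (add_le_add h3 h4)

/-! ### The staircase -/

/-- The staircase with the middle `v` at the time `2 K`. -/
def stair (d : Fin 4) (v : ℤ × ℤ) (K i : ℕ) : ℤ × ℤ :=
  v + ((i / 2 : ℕ) - K : ℤ) • (dir d + dir (d + 1)) +
    (if Even i then 0 else if i < 2 * K then dir (d + 1) else dir d)

variable {d : Fin 4} {v : ℤ × ℤ} {K : ℕ}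

theorem stair_mid : stair d v K (2 * K) = v := by
  rw [stair, if_pos (even_two_mul K), Nat.mul_div_cancel_left K two_pos]
  simp

theorem stair_even (i : ℕ) : stair d v K (2 * i) = v + ((i : ℤ) - K) • (dir d + dir (d + 1)) := by
  rw [stair, if_pos (even_two_mul i), Nat.mul_div_cancel_left i two_pos, add_zero]

theorem stair_odd (i : ℕ) : stair d v K (2 * i + 1) =
    v + ((i : ℤ) - K) • (dir d + dir (d + 1)) + (if i < K then dir (d + 1) else dir d) := by
  have h1 : ¬ Even (2 * i + 1) := by rw [Nat.not_even_iff_odd]; exact ⟨i, rfl⟩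
  rw [stair, if_neg h1, show (2 * i + 1) / 2 = i by omega]
  congr 1
  by_cases h : i < K
  · rw [if_pos h, if_pos (by omega)]
  · rw [if_neg h, if_neg (by omega)]

theorem stair_up (m : ℕ) : stair d v K (2 * K + m + 1) =
    stair d v K (2 * K + m) + (if Even m then dir d else dir (d + 1)) := by
  obtain ⟨i, rfl | rfl⟩ : ∃ i, m = 2 * i ∨ m = 2 * i + 1 := ⟨m / 2, by omega⟩
  · rw [show 2 * K + 2 * i + 1 = 2 * (K + i) + 1 by ring, show 2 * K + 2 * i = 2 * (K + i) by ring,
      stair_odd, stair_even, if_neg (by omega), if_pos (even_two_mul i)]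
  · rw [show 2 * K + (2 * i + 1) + 1 = 2 * (K + i + 1) by ring,
      show 2 * K + (2 * i + 1) = 2 * (K + i) + 1 by ring,
      stair_odd, stair_even, if_neg (by omega), if_neg (by
        rw [Nat.not_even_iff_odd]; exact ⟨i, rfl⟩)]
    push_cast
    rw [show (K : ℤ) + i + 1 - K = (K : ℤ) + i - K + 1 by ring, add_smul, one_smul]
    abel

theorem stair_down {m : ℕ} (hm : m < 2 * K) : stair d v K (2 * K - m) =
    stair d v K (2 * K - m - 1) + (if Even m then dir d else dir (d + 1)) := by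
  obtain ⟨i, rfl | rfl⟩ : ∃ i, m = 2 * i ∨ m = 2 * i + 1 := ⟨m / 2, by omega⟩
  · obtain ⟨j, hj⟩ : ∃ j, K = i + j + 1 := ⟨K - i - 1, by omega⟩
    rw [show 2 * K - 2 * i = 2 * (j + 1) by omega, show 2 * (j + 1) - 1 = 2 * j + 1 by omega,
      stair_odd, stair_even, if_pos (by omega), if_pos (even_two_mul i)]
    push_cast
    rw [show (j : ℤ) + 1 - K = (j : ℤ) - K + 1 by ring, add_smul, one_smul]
    abel
  · obtain ⟨j, hj⟩ : ∃ j, K = i + j + 1 := ⟨K - i - 1, by omega⟩
    rw [show 2 * K - (2 * i + 1) = 2 * j + 1 by omega, show 2 * j + 1 - 1 = 2 * j by omega,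
      stair_odd, stair_even, if_pos (by omega), if_neg (by
        rw [Nat.not_even_iff_odd]; exact ⟨i, rfl⟩)]

/-- The coordinate along the staircase. -/
def sc (d : Fin 4) (w : ℤ × ℤ) : ℤ :=
  w.1 * (dir d + dir (d + 1)).1 + w.2 * (dir d + dir (d + 1)).2

theorem sc_add (a b : ℤ × ℤ) : sc d (a + b) = sc d a + sc d b := by
  simp only [sc, Prod.fst_add, Prod.snd_add]
  ring

theorem sc_smul (k : ℤ) (a : ℤ × ℤ) : sc d (k • a) = k * sc d a := by
  simp only [sc, Prod.smul_fst, Prod.smul_snd, smul_eq_mul]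
  ring

theorem sc_dir : sc d (dir d) = 1 ∧ sc d (dir (d + 1)) = 1 := by
  fin_cases d <;> decide

theorem sc_stair (i : ℕ) : sc d (stair d v K i) = sc d v + i - 2 * K := by
  obtain ⟨j, rfl | rfl⟩ : ∃ j, i = 2 * j ∨ i = 2 * j + 1 := ⟨i / 2, by omega⟩
  · rw [stair_even, sc_add, sc_smul, sc_add, sc_dir.1, sc_dir.2]
    push_cast
    ring
  · rw [stair_odd, sc_add, sc_add, sc_smul, sc_add, sc_dir.1, sc_dir.2]
    have h1 : sc d (if j < K then dir (d + 1) else dir d) = 1 := by
      split_ifs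
      · exact sc_dir.2
      · exact sc_dir.1
    rw [h1]
    push_cast
    ring

theorem stair_inj {i j : ℕ} (h : stair d v K i = stair d v K j) : i = j := by
  have h1 := congrArg (sc d) h
  rw [sc_stair, sc_stair] at h1
  omega

theorem stair_adj (i : ℕ) : ∃ r, stair d v K (i + 1) = stair d v K i + dir r := by
  rcases Nat.lt_or_ge i (2 * K) with h | h
  · have h1 := stair_down (d := d) (v := v) (K := K) (m := 2 * K - i - 1) (by omega)
    rw [show 2 * K - (2 * K - i - 1) = i + 1 by omega, show i + 1 - 1 = i by omega] at h1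
    rw [h1]
    split_ifs
    · exact ⟨_, rfl⟩
    · exact ⟨_, rfl⟩
  · obtain ⟨m, rfl⟩ := Nat.exists_eq_add_of_le h
    rw [stair_up]
    split_ifs
    · exact ⟨_, rfl⟩
    · exact ⟨_, rfl⟩

end Vale.Agent.P167.N.ST2
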