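import Vale.Agent.P167.N.ST2.Walk

/-!
# P167, block ST2: walks which follow an arc with an exact staircase, part 2

* `Str`: a straight diagonal part of the curve; `str_of`: from the equation of the segment;
* `stair_fo`: the staircase follows it;
* `exists_total`: for all small meshes there is a walk between two given lattice points near the
  end points which follows the arc and contains the staircase.
-/

set_option autoImplicit false

namespace Vale.Agent.P167.N.ST2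

open Set
open Vale.Agent.P167.E6 (dir pt)

theorem pt_add (a b : ℤ × ℤ) : pt (a + b) = pt a + pt b := by
  apply Complex.ext <;> simp [pt]

theorem pt_smul (k : ℤ) (a : ℤ × ℤ) : pt (k • a) = (k : ℂ) * pt a := by
  apply Complex.ext <;> simp [pt]

theorem norm_pt_dir (d : Fin 4) : ‖pt (dir d)‖ = 1 := by
  fin_cases d
  · have : pt (dir 0) = 1 := by apply Complex.ext <;> simp [pt, dir]
    simpa using congrArg norm this
  · have : pt (dir 1) = Complex.I := by apply Complex.ext <;> simp [pt, dir]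
    simpa using congrArg norm this
  · have : pt (dir 2) = -1 := by apply Complex.ext <;> simp [pt, dir]
    simpa using congrArg norm this
  · have : pt (dir 3) = -Complex.I := by apply Complex.ext <;> simp [pt, dir]
    simpa using congrArg norm this

theorem pt_diag_ne (d : Fin 4) : pt (dir d + dir (d + 1)) ≠ 0 := by
  intro h
  have h1 := congrArg Complex.re h
  have e : (pt (dir d + dir (d + 1))).re = ((dir d + dir (d + 1)).1 : ℝ) := rfl
  rw [e, Complex.zero_re] at h1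
  have h2 : (dir d + dir (d + 1)).1 = 0 := by exact_mod_cast h1
  revert h2
  fin_cases d <;> decide

theorem norm_diag_le (d : Fin 4) : ‖pt (dir d + dir (d + 1))‖ ≤ 2 := by
  rw [pt_add]
  refine (norm_add_le _ _).trans ?_
  rw [norm_pt_dir, norm_pt_dir]
  norm_num

/-- A straight diagonal part of the curve around the parameter `tc`, with the parametrisation `G` by
the length. -/
structure Str (Γ : ℝ → ℂ) (d : Fin 4) (tc σ : ℝ) (G : ℝ → ℝ) : Prop where
  pos : 0 < σ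
  G0 : G 0 = tc
  mono : StrictMonoOn G (Icc (-σ) σ)
  low : 0 < G (-σ)
  high : G σ < 1
  str : ∀ y₁ ∈ Icc (-σ) σ, ∀ y₂ ∈ Icc (-σ) σ, ∀ t ∈ Icc (G y₁) (G y₂), ∃ y ∈ Icc y₁ y₂,
    Γ t = Γ tc + (y : ℂ) * pt (dir d + dir (d + 1))

theorem str_of {Γ : ℝ → ℂ} (hΓ : ContinuousOn Γ (Icc 0 1)) {d : Fin 4} {tc ρ : ℝ} (hρ : 0 < ρ)
    (h2 : ρ < tc) (h3 : tc + ρ < 1) {g : ℝ → ℝ} (hg : StrictMonoOn g (Icc (tc - ρ) (tc + ρ)))
    (hs : ∀ t ∈ Icc (tc - ρ) (tc + ρ), Γ t = Γ tc + (g t : ℂ) * pt (dir d + dir (d + 1))) :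
    ∃ (σ : ℝ) (G : ℝ → ℝ), Str Γ d tc σ G := by
  have hV := pt_diag_ne d
  have hsub : Icc (tc - ρ) (tc + ρ) ⊆ Icc (0 : ℝ) 1 := Icc_subset_Icc (by linarith) (by linarith)
  have hge : ∀ t ∈ Icc (tc - ρ) (tc + ρ), g t = ((Γ t - Γ tc) / pt (dir d + dir (d + 1))).re := by
    intro t ht
    rw [hs t ht, add_sub_cancel_left, mul_div_cancel_right₀ _ hV, Complex.ofReal_re]
  have hgc : ContinuousOn g (Icc (tc - ρ) (tc + ρ)) := by
    have h1 : ContinuousOn (fun t => ((Γ t - Γ tc) / pt (dir d + dir (d + 1))).re)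
        (Icc (tc - ρ) (tc + ρ)) :=
      Complex.continuous_re.comp_continuousOn
        (((hΓ.mono hsub).sub continuousOn_const).div_const _)
    exact h1.congr hge
  have hm1 : tc - ρ ∈ Icc (tc - ρ) (tc + ρ) := ⟨le_rfl, by linarith⟩
  have hm2 : tc + ρ ∈ Icc (tc - ρ) (tc + ρ) := ⟨by linarith, le_rfl⟩
  have hm0 : tc ∈ Icc (tc - ρ) (tc + ρ) := ⟨by linarith, by linarith⟩
  have g0 : g tc = 0 := by
    rw [hge tc hm0, sub_self, zero_div, Complex.zero_re]
  have g1 : g (tc - ρ) < 0 := by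
    rw [← g0]
    exact hg hm1 hm0 (by linarith)
  have g2 : 0 < g (tc + ρ) := by
    rw [← g0]
    exact hg hm0 hm2 (by linarith)
  set σ := min (-g (tc - ρ)) (g (tc + ρ)) with hσ
  have hσ0 : 0 < σ := lt_min (by linarith) g2
  have hσ1 : g (tc - ρ) ≤ -σ := by
    have := min_le_left (-g (tc - ρ)) (g (tc + ρ))
    linarith
  have hσ2 : σ ≤ g (tc + ρ) := min_le_right _ _
  have hex : ∀ y : ℝ, ∃ t, y ∈ Icc (-σ) σ → t ∈ Icc (tc - ρ) (tc + ρ) ∧ g t = y := by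
    intro y
    by_cases hy : y ∈ Icc (-σ) σ
    · have h4 := intermediate_value_Icc (show tc - ρ ≤ tc + ρ by linarith) hgc
      obtain ⟨t, ht, ht'⟩ := h4 ⟨hσ1.trans hy.1, hy.2.trans hσ2⟩
      exact ⟨t, fun _ => ⟨ht, ht'⟩⟩
    · exact ⟨0, fun h => absurd h hy⟩
  choose G hG using hex
  have hmono : StrictMonoOn G (Icc (-σ) σ) := by
    intro y1 hy1 y2 hy2 h12
    obtain ⟨a1, a2⟩ := hG y1 hy1
    obtain ⟨b1, b2⟩ := hG y2 hy2
    by_contra hc
    push Not at hc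
    have := hg.monotoneOn b1 a1 hc
    rw [a2, b2] at this
    linarith
  have z1 : (-σ : ℝ) ∈ Icc (-σ) σ := ⟨le_rfl, by linarith⟩
  have z2 : σ ∈ Icc (-σ) σ := ⟨by linarith, le_rfl⟩
  have z0 : (0 : ℝ) ∈ Icc (-σ) σ := ⟨by linarith, by linarith⟩
  refine ⟨σ, G, hσ0, ?_, hmono, ?_, ?_, ?_⟩
  · obtain ⟨a1, a2⟩ := hG 0 z0
    exact hg.injOn a1 hm0 (by rw [a2, g0])
  · linarith [(hG _ z1).1.1]
  · linarith [(hG _ z2).1.2]
  · intro y₁ hy₁ y₂ hy₂ t ht
    obtain ⟨a1, a2⟩ := hG y₁ hy₁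
    obtain ⟨b1, b2⟩ := hG y₂ hy₂
    have ht' : t ∈ Icc (tc - ρ) (tc + ρ) := ⟨a1.1.trans ht.1, ht.2.trans b1.2⟩
    refine ⟨g t, ⟨?_, ?_⟩, hs t ht'⟩
    · rw [← a2]
      exact hg.monotoneOn a1 ht' ht.1
    · rw [← b2]
      exact hg.monotoneOn ht' b1 ht.2

section total

variable {Γ : ℝ → ℂ} {d : Fin 4} {tc σ h : ℝ} {G : ℝ → ℝ} {K : ℕ}

/-- The coordinates of the parameters of the staircase. -/
noncomputable def sw (σ h : ℝ) (K i : ℕ) : ℝ :=
  if i = 0 then -σ else if i ≤ 4 * K then h * ((i / 2 : ℕ) - K) else σ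

theorem sw_pos {i : ℕ} (h1 : 1 ≤ i) (h2 : i ≤ 4 * K) : sw σ h K i = h * ((i / 2 : ℕ) - K) := by
  rw [sw, if_neg (by omega), if_pos h2]

theorem sw_bd (hh : 0 < h) (hσ : 0 < σ) (hK : (K : ℝ) * h ≤ σ) (i : ℕ) :
    sw σ h K i ∈ Icc (-σ) σ := by
  rw [sw]
  split_ifs with h1 h2
  · exact ⟨le_rfl, by linarith⟩
  · have h3 : ((i / 2 : ℕ) : ℝ) ≤ 2 * K := by
      have : i / 2 ≤ 2 * K := by omega
      exact_mod_cast this
    have h4 : (0 : ℝ) ≤ ((i / 2 : ℕ) : ℝ) := Nat.cast_nonneg _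
    constructor <;> nlinarith
  · exact ⟨by linarith, le_rfl⟩

theorem sw_mono (hh : 0 < h) (hσ : 0 < σ) (hK : (K : ℝ) * h ≤ σ) (i : ℕ) :
    sw σ h K i ≤ sw σ h K (i + 1) := by
  rcases Nat.eq_zero_or_pos i with rfl | hi
  · rw [show sw σ h K 0 = -σ from if_pos rfl]
    exact (sw_bd hh hσ hK _).1
  · rcases Nat.lt_or_ge (4 * K) (i + 1) with h1 | h1
    · rw [show sw σ h K (i + 1) = σ by rw [sw, if_neg (by omega), if_neg (by omega)]]
      exact (sw_bd hh hσ hK _).2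
    · rw [sw_pos hi (by omega), sw_pos (by omega) h1]
      have h3 : ((i / 2 : ℕ) : ℝ) ≤ (((i + 1) / 2 : ℕ) : ℝ) := by
        have : i / 2 ≤ (i + 1) / 2 := by omega
        exact_mod_cast this
      nlinarith

theorem sw_near (hh : 0 < h) (hK' : σ ≤ (K + 1) * h) {i : ℕ}
    (hi : i ≤ 4 * K) : h * ((i / 2 : ℕ) - K) - h ≤ sw σ h K i ∧
      sw σ h K (i + 1) ≤ h * ((i / 2 : ℕ) - K) + h := by
  constructor
  · rcases Nat.eq_zero_or_pos i with rfl | h1
    · rw [show sw σ h K 0 = -σ from if_pos rfl, Nat.zero_div, Nat.cast_zero]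
      linarith
    · rw [sw_pos h1 hi]
      linarith
  · rcases Nat.lt_or_ge (4 * K) (i + 1) with h1 | h1
    · rw [show sw σ h K (i + 1) = σ by rw [sw, if_neg (by omega), if_neg (by omega)]]
      have h2 : i / 2 = 2 * K := by omega
      rw [h2]
      push_cast
      linarith
    · rw [sw_pos (by omega) h1]
      have h3 : (((i + 1) / 2 : ℕ) : ℝ) ≤ ((i / 2 : ℕ) : ℝ) + 1 := by
        have : (i + 1) / 2 ≤ i / 2 + 1 := by omega
        exact_mod_cast this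
      nlinarith

/-- **The staircase follows the straight part.** -/
theorem stair_fo (H : Str Γ d tc σ G) (hh : 0 < h) (hK : (K : ℝ) * h ≤ σ)
    (hK' : σ ≤ (K + 1) * h) : Fo Γ h (4 * h) (G (-σ)) (G σ) (4 * K) (stair d (rd h (Γ tc)) K)
      (fun i => G (sw σ h K i)) := by
  have hbd := sw_bd hh H.pos hK
  refine ⟨fun i _ => Or.inr (stair_adj i), fun i _ => H.mono.monotoneOn (hbd _) (hbd _)
    (sw_mono hh H.pos hK i), ?_, ?_, fun i hi t ht => ?_⟩
  · show G (sw σ h K 0) = _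
    rw [show sw σ h K 0 = -σ from if_pos rfl]
  · show G (sw σ h K (4 * K + 1)) = _
    rw [show sw σ h K (4 * K + 1) = σ by rw [sw, if_neg (by omega), if_neg (by omega)]]
  · obtain ⟨y, hy, hΓy⟩ := H.str _ (hbd i) _ (hbd (i + 1)) t ht
    obtain ⟨h1, h2⟩ := sw_near hh hK' hi
    set c : ℝ := h * ((i / 2 : ℕ) - K) with hc
    have h3 := rd_near hh (Γ tc)
    set q : ℤ × ℤ := if Even i then 0 else if i < 2 * K then dir (d + 1) else dir d with hq
    have hq1 : ‖pt q‖ ≤ 1 := by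
      rw [hq]
      split_ifs
      · have : pt 0 = 0 := by apply Complex.ext <;> simp [pt]
        rw [this, norm_zero]
        exact zero_le_one
      · exact (norm_pt_dir _).le
      · exact (norm_pt_dir _).le
    have h4 : (h : ℂ) * pt (stair d (rd h (Γ tc)) K i) - Γ t =
        ((h : ℂ) * pt (rd h (Γ tc)) - Γ tc) + ((c - y : ℝ) : ℂ) * pt (dir d + dir (d + 1)) +
          (h : ℂ) * pt q := by
      rw [stair, pt_add, pt_add, pt_smul, hΓy, hc, ← hq]
      generalize i / 2 = m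
      push_cast
      ring
    rw [dist_eq_norm, h4]
    rw [dist_eq_norm] at h3
    have h5 : ‖((c - y : ℝ) : ℂ) * pt (dir d + dir (d + 1))‖ ≤ h * 2 := by
      rw [norm_mul, Complex.norm_real, Real.norm_eq_abs]
      refine mul_le_mul ?_ (norm_diag_le d) (norm_nonneg _) hh.le
      rw [abs_le]
      constructor <;> linarith [hy.1, hy.2]
    have h6 : ‖(h : ℂ) * pt q‖ ≤ h * 1 := by
      rw [norm_mul, Complex.norm_real, Real.norm_of_nonneg hh.le]
      exact mul_le_mul_of_nonneg_left hq1 hh.le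
    refine (norm_add_le _ _).trans ?_
    have h7 := norm_add_le ((h : ℂ) * pt (rd h (Γ tc)) - Γ tc)
      (((c - y : ℝ) : ℂ) * pt (dir d + dir (d + 1)))
    linarith

/-- **The walk with the staircase.** -/
theorem exists_total (hΓ : ContinuousOn Γ (Icc 0 1)) (H : Str Γ d tc σ G) (hh : 0 < h)
    (hK : (K : ℝ) * h ≤ σ) (hK' : σ ≤ (K + 1) * h) {v₀ v₁ : ℤ × ℤ} {e : ℝ} (he : 0 ≤ e)
    (h0 : dist ((h : ℂ) * pt v₀) (Γ 0) ≤ e) (h1 : dist ((h : ℂ) * pt v₁) (Γ 1) ≤ e) :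
    ∃ (L₁ L : ℕ) (x : ℕ → ℤ × ℤ) (u : ℕ → ℝ), Fo Γ h (7 * h + e) 0 1 L x u ∧ x 0 = v₀ ∧
      x L = v₁ ∧ L₁ + 4 * K ≤ L ∧ (∀ i ≤ 4 * K, x (L₁ + i) = stair d (rd h (Γ tc)) K i) ∧
      (∀ i, 1 ≤ i → i ≤ 4 * K → u (L₁ + i) = G (sw σ h K i)) ∧ (∀ i ≤ L₁, u i ≤ G (-σ)) ∧
      ∀ i, L₁ + 4 * K < i → i ≤ L + 1 → G σ ≤ u i := by
  have hσ := H.pos
  have z1 : (-σ : ℝ) ∈ Icc (-σ) σ := ⟨le_rfl, by linarith⟩
  have z2 : σ ∈ Icc (-σ) σ := ⟨by linarith, le_rfl⟩
  have hlow := H.low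
  have hhigh := H.high
  have hmid : G (-σ) ≤ G σ := H.mono.monotoneOn z1 z2 (by linarith)
  have hS := stair_fo H hh hK hK'
  -- the first part
  obtain ⟨La, xa, ua, Ha, ha0, ha1⟩ := exists_join (Γ := Γ) (α := 0) (e := h + e) (v := v₀)
    (w := rd h (Γ 0)) hh (by linarith) ((rd_near hh _).trans (by linarith))
  obtain ⟨Lb, xb, ub, Hb, hb0, hb1⟩ := exists_follow hh hlow.le
    (hΓ.mono (Icc_subset_Icc le_rfl (by linarith)))
  obtain ⟨Lc, xc, uc, Hc, hc0, hc1⟩ := exists_join (Γ := Γ) (α := G (-σ)) (e := 4 * h)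
    (v := rd h (Γ (G (-σ)))) (w := stair d (rd h (Γ tc)) K 0) hh
    ((rd_near hh _).trans (by linarith)) (by
      have := hS.nearu (Nat.zero_le _)
      rwa [hS.u0] at this)
  have Ha' := Ha.mono_e (show 3 * h + (h + e) ≤ 7 * h + e by linarith)
  have Hb' := Hb.mono_e (show 3 * h ≤ 7 * h + e by linarith)
  have Hc' := Hc.mono_e (show 3 * h + 4 * h ≤ 7 * h + e by linarith)
  have Hab := Ha'.cat Hb' (by rw [ha1, hb0])
  have habL : cat xa La xb (La + Lb) = xb Lb := cat_ge (by rw [ha1, hb0]) Lb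
  have Habc := Hab.cat Hc' (by rw [habL, hb1, hc0])
  have habcL : cat (cat xa La xb) (La + Lb) xc (La + Lb + Lc) = xc Lc :=
    cat_ge (by rw [habL, hb1, hc0]) Lc
  have habc0 : cat (cat xa La xb) (La + Lb) xc 0 = v₀ := by
    rw [cat_le (Nat.zero_le _), cat_le (Nat.zero_le _), ha0]
  -- the last part
  obtain ⟨Ld, xd, ud, Hd, hd0, hd1⟩ := exists_join (Γ := Γ) (α := G σ) (e := 4 * h)
    (v := stair d (rd h (Γ tc)) K (4 * K)) (w := rd h (Γ (G σ))) hh (by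
      have := hS.nearu' (le_refl (4 * K))
      rwa [hS.uL] at this) ((rd_near hh _).trans (by linarith))
  obtain ⟨Lf, xf, uf, Hf, hf0, hf1⟩ := exists_follow (α := G σ) (β := 1) hh hhigh.le
    (hΓ.mono (Icc_subset_Icc (by linarith) le_rfl))
  obtain ⟨Lg, xg, ug, Hg, hg0, hg1⟩ := exists_join (Γ := Γ) (α := 1) (e := h + e)
    (v := rd h (Γ 1)) (w := v₁) hh ((rd_near hh _).trans (by linarith)) (by linarith)
  have Hd' := Hd.mono_e (show 3 * h + 4 * h ≤ 7 * h + e by linarith)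
  have Hf' := Hf.mono_e (show 3 * h ≤ 7 * h + e by linarith)
  have Hg' := Hg.mono_e (show 3 * h + (h + e) ≤ 7 * h + e by linarith)
  have Hdf := Hd'.cat Hf' (by rw [hd1, hf0])
  have hdfL : cat xd Ld xf (Ld + Lf) = xf Lf := cat_ge (by rw [hd1, hf0]) Lf
  have Hdfg := Hdf.cat Hg' (by rw [hdfL, hf1, hg0])
  have hdfgL : cat (cat xd Ld xf) (Ld + Lf) xg (Ld + Lf + Lg) = xg Lg :=
    cat_ge (by rw [hdfL, hf1, hg0]) Lg
  have hdfg0 : cat (cat xd Ld xf) (Ld + Lf) xg 0 = stair d (rd h (Γ tc)) K (4 * K) := by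
    rw [cat_le (Nat.zero_le _), cat_le (Nat.zero_le _), hd0]
  -- the total
  set x₁ := cat (cat xa La xb) (La + Lb) xc with hx₁
  set u₁ := cat (cat ua La ub) (La + Lb) uc with hu₁
  set L₁ := La + Lb + Lc with hL₁
  set x₂ := cat (cat xd Ld xf) (Ld + Lf) xg with hx₂
  set u₂ := cat (cat ud Ld uf) (Ld + Lf) ug with hu₂
  set L₂ := Ld + Lf + Lg with hL₂
  have hS' := hS.mono_e (show 4 * h ≤ 7 * h + e by linarith)
  have e1 : x₁ L₁ = stair d (rd h (Γ tc)) K 0 := by rw [habcL, hc1]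
  have H1 := Habc.cat hS' e1
  have e2 : cat x₁ L₁ (stair d (rd h (Γ tc)) K) (L₁ + 4 * K) =
      stair d (rd h (Γ tc)) K (4 * K) := cat_ge e1 _
  have H2 := H1.cat Hdfg (by rw [e2, hdfg0])
  refine ⟨L₁, L₁ + 4 * K + L₂, _, _, H2, ?_, ?_, by omega, fun i hi => ?_, fun i hi1 hi2 => ?_,
    fun i hi => ?_, fun i hi1 hi2 => ?_⟩
  · rw [cat_le (Nat.zero_le _), cat_le (Nat.zero_le _)]
    exact habc0
  · rw [cat_ge (by rw [e2, hdfg0]), hdfgL, hg1]
  · rw [cat_le (by omega), cat_ge e1]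
  · rw [cat_le (by omega), cat_gt (by omega)]
  · rw [cat_le (by omega), cat_le hi]
    exact Habc.high (by omega)
  · obtain ⟨j, rfl⟩ := Nat.exists_eq_add_of_le hi1.le
    rw [cat_gt (by omega)]
    exact Hdfg.low (by omega)

end total

end Vale.Agent.P167.N.ST2
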