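import Vale.Agent.P167.N.ST2.Cut
import Vale.Agent.P167.E2.Intf
import Vale.Agent.P167.H192.Dict2

/-!
# P167, block ST2: lattice facts about crosscuts

`CutP`: the polygon `p` (with the enclosed faces `S`) is cut by the path `y` into the parts `S'`, `S''`.
* `CutP.mem_cross` : a common vertex of the two parts is on the path;
* `CutP.edge_cross` : a common edge of the two parts is an edge of the path;
* `CutP.run_mem` : the medial path stays in the first part as long as it does not visit the path `y`.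
-/

set_option autoImplicit false
set_option linter.unusedSectionVars false

namespace Vale.Agent.P167.N.ST2

open Finset
open Vale.Agent.P167.E6
open Vale.Agent.P167.H634.Apx
open Vale.Agent.P167.E2 (verts mem_verts)

section cross

variable {N : ℕ} [NeZero N] {p : ZMod N → ℤ × ℤ} {S S' S'' : Finset (ℤ × ℤ)} {a b M : ℕ}
  {y : ℕ → ℤ × ℤ}

/-- The two parts of a cut polygon. -/
structure CutP (p : ZMod N → ℤ × ℤ) (S : Finset (ℤ × ℤ)) (a b M : ℕ) (y : ℕ → ℤ × ℤ)
    (S' S'' : Finset (ℤ × ℤ)) : Prop where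
  cut : CutDat p S a b M y
  poly : IsPolygon p
  enc : Encloses p S
  encL : Encloses (fun i : ZMod (nL N a b M) => cutL p a b M y i.val) S'
  encR : Encloses (fun i : ZMod (nR a b M) => cutR p a b M y i.val) S''
  disj : Disjoint S' S''
  un : S = S' ∪ S''

theorem CutDat.nL_pos (H : CutDat p S a b M y) : 0 < nL N a b M := by
  have := H.hM
  unfold nL
  omega

theorem CutDat.nR_pos (H : CutDat p S a b M y) : 0 < nR a b M := by
  have := H.hM
  unfold nR
  omega

/-- The path cuts the polygon. -/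
theorem CutDat.cutP (H : CutDat p S a b M y) (hp : IsPolygon p) (hS : Encloses p S) :
    ∃ S' S'', CutP p S a b M y S' S'' := by
  have : NeZero (nL N a b M) := ⟨H.nL_pos.ne'⟩
  have : NeZero (nR a b M) := ⟨H.nR_pos.ne'⟩
  obtain ⟨S', S'', h1, h2, h3, h4⟩ := H.cut_polygon hp hS
  exact ⟨S', S'', H, hp, hS, h1, h2, h3, h4⟩

namespace CutP

variable (H : CutP p S a b M y S' S'')
include H

theorem subL {f : ℤ × ℤ} (h : f ∈ S') : f ∈ S := by
  rw [H.un]
  exact mem_union_left _ h

theorem subR {f : ℤ × ℤ} (h : f ∈ S'') : f ∈ S := by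
  rw [H.un]
  exact mem_union_right _ h

theorem notR {f : ℤ × ℤ} (h : f ∈ S') : f ∉ S'' := fun h' => disjoint_left.1 H.disj h h'

theorem notL {f : ℤ × ℤ} (h : f ∈ S'') : f ∉ S' := fun h' => disjoint_left.1 H.disj h' h

/-- The edges of the path have the first part on the left, the second part on the right. -/
theorem edge_up (v : ℤ × ℤ) (r : Fin 4) :
    (∃ i < M, v = y i ∧ y (i + 1) = v + dir r) ↔ face v r ∈ S' ∧ face v (r - 1) ∈ S'' := by
  have hab := H.cut.hab
  have hb := H.cut.hb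
  have : NeZero (nL N a b M) := ⟨H.cut.nL_pos.ne'⟩
  have : NeZero (nR a b M) := ⟨H.cut.nR_pos.ne'⟩
  constructor
  · rintro ⟨i, hi, rfl, hr⟩
    -- the edge is an edge of the polygon `cutL`
    have h1 := (H.encL (y i) r).1 ⟨((a + i : ℕ) : ZMod (nL N a b M)), by
      show cutL p a b M y (ZMod.val _) = _
      rw [ZMod.val_cast_of_lt (by unfold nL; omega)]
      exact H.cut.L2 hi.le, by
      show cutL p a b M y (ZMod.val _) = _
      rw [val_succ H.cut.closeL, ZMod.val_cast_of_lt (by unfold nL; omega), add_assoc,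
        H.cut.L2 (by omega)]
      exact hr⟩
    obtain ⟨h2, h3⟩ := H.cut.inn i hi r hr
    refine ⟨h1.1, ?_⟩
    rw [H.un, mem_union] at h3
    exact h3.resolve_left h1.2
  · rintro ⟨h1, h2⟩
    obtain ⟨i, hi, hi'⟩ := (H.encL v r).2 ⟨h1, H.notL h2⟩
    have hlt : i.val < nL N a b M := ZMod.val_lt i
    change cutL p a b M y i.val = v at hi
    change cutL p a b M y (i + 1).val = _ at hi'
    rw [val_succ H.cut.closeL] at hi'
    have hne : ∀ j : ℕ, p (j : ZMod N) = v → p ((j + 1 : ℕ) : ZMod N) = v + dir r → False := by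
      intro j h3 h4
      have h5 := (H.enc v r).1 ⟨(j : ZMod N), h3, by push_cast at h4; exact h4⟩
      exact h5.2 (H.subR h2)
    rcases Nat.lt_or_ge i.val a with h3 | h3
    · rw [H.cut.L1 h3.le] at hi
      rw [H.cut.L1 (by omega)] at hi'
      exact (hne _ hi hi').elim
    · rcases Nat.lt_or_ge i.val (a + M) with h4 | h4
      · obtain ⟨k, hk⟩ : ∃ k, i.val = a + k := ⟨i.val - a, by omega⟩
        rw [hk, H.cut.L2 (by omega)] at hi
        rw [hk, add_assoc, H.cut.L2 (by omega)] at hi'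
        exact ⟨k, by omega, hi.symm, hi'⟩
      · obtain ⟨k, hk⟩ : ∃ k, i.val = a + M + k := ⟨i.val - (a + M), by omega⟩
        rw [hk, H.cut.L3] at hi
        rw [hk, add_assoc, H.cut.L3] at hi'
        exact (hne _ hi (by rw [← add_assoc] at hi'; exact hi')).elim

/-- The reversed edges of the path. -/
theorem edge_dn (v : ℤ × ℤ) (r : Fin 4) :
    (∃ i < M, v = y (i + 1) ∧ y i = v + dir r) ↔ face v r ∈ S'' ∧ face v (r - 1) ∈ S' := by
  have h := H.edge_up (v + dir r) (r + 2)
  have e1 : v + dir r + dir (r + 2) = v := by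
    rw [add_assoc, H174.dir_add_two, add_zero]
  have e2 : face (v + dir r) (r + 2) = face v (r - 1) := by
    rw [E2.face_right]
  have e3 : face (v + dir r) (r + 2 - 1) = face v r := by
    have e0 : ∀ t : Fin 4, t + 2 - 1 = t + 1 := by decide
    rw [e0, E2.face_left]
  rw [e1, e2, e3] at h
  rw [and_comm, ← h]
  constructor
  · rintro ⟨i, hi, h1, h2⟩
    exact ⟨i, hi, h2.symm, h1.symm⟩
  · rintro ⟨i, hi, h1, h2⟩
    exact ⟨i, hi, h2.symm, h1.symm⟩

/-- **A common vertex of the two parts is on the path.** -/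
theorem mem_cross {v : ℤ × ℤ} (h1 : v ∈ verts S') (h2 : v ∈ verts S'') : ∃ i ≤ M, v = y i := by
  rw [mem_verts] at h1 h2
  obtain ⟨r1, h1⟩ := h1
  obtain ⟨r2, h2⟩ := h2
  by_cases hu : ∃ r, face v r ∈ S' ∧ face v (r - 1) ∈ S''
  · obtain ⟨r, hr⟩ := hu
    obtain ⟨i, hi, h3, -⟩ := (H.edge_up v r).2 hr
    exact ⟨i, hi.le, h3⟩
  by_cases hu' : ∃ r, face v r ∈ S'' ∧ face v (r - 1) ∈ S'
  · obtain ⟨r, hr⟩ := hu'
    obtain ⟨i, hi, h3, -⟩ := (H.edge_dn v r).2 hr
    exact ⟨i + 1, hi, h3⟩
  exfalso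
  push Not at hu hu'
  -- there are two edges of the polygon out of `v`
  have key : ∀ T : Finset (ℤ × ℤ), (∀ r, face v r ∈ T → face v (r - 1) ∈ S → face v (r - 1) ∈ T) →
      (∃ r, face v r ∉ T) → ∀ r, face v r ∈ T → ∃ s, face v s ∈ T ∧ face v (s - 1) ∉ S := by
    intro T hT h0 r hr
    by_contra hcon
    push Not at hcon
    have k1 := hT r hr (hcon r hr)
    have k2 := hT _ k1 (hcon _ k1)
    have k3 := hT _ k2 (hcon _ k2)
    obtain ⟨s, hs⟩ := h0
    have : s = r ∨ s = r - 1 ∨ s = r - 1 - 1 ∨ s = r - 1 - 1 - 1 := by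
      clear hr hs k1 k2 k3
      revert r s
      decide
    rcases this with e | e | e | e <;> subst e
    exacts [hs hr, hs k1, hs k2, hs k3]
  obtain ⟨s1, g1, g2⟩ := key S' (fun r hr hr' => by
    rw [H.un, mem_union] at hr'
    exact hr'.resolve_right (hu r hr)) ⟨r2, H.notL h2⟩ r1 h1
  obtain ⟨s2, g3, g4⟩ := key S'' (fun r hr hr' => by
    rw [H.un, mem_union] at hr'
    exact hr'.resolve_left (hu' r hr)) ⟨r1, H.notR h1⟩ r2 h2
  obtain ⟨i, i1, i2⟩ := (H.enc v s1).2 ⟨H.subL g1, g2⟩
  obtain ⟨j, j1, j2⟩ := (H.enc v s2).2 ⟨H.subR g3, g4⟩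
  have e : i = j := H.poly.2.1 (i1.trans j1.symm)
  subst e
  have : s1 = s2 := E2.add_dir_inj (i2.symm.trans j2)
  subst this
  exact H.notR g1 g3

/-- **A common edge of the two parts is an edge of the path.** -/
theorem edge_cross {e : Sym2 (ℤ × ℤ)} (h1 : e ∈ edges S') (h2 : e ∈ edges S'') :
    ∃ i < M, e = s(y i, y (i + 1)) := by
  obtain ⟨v, r, rfl⟩ := H192.isEdge_edges h1
  rw [E2.mem_edges] at h1 h2
  rcases h1 with h1 | h1
  · have h3 : face v (r - 1) ∈ S'' := h2.resolve_left (H.notR h1)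
    obtain ⟨i, hi, h4, h5⟩ := (H.edge_up v r).2 ⟨h1, h3⟩
    exact ⟨i, hi, by rw [h5, ← h4]⟩
  · have h3 : face v r ∈ S'' := h2.resolve_right (H.notR h1)
    obtain ⟨i, hi, h4, h5⟩ := (H.edge_dn v r).2 ⟨h3, h1⟩
    exact ⟨i, hi, by rw [h5, ← h4, Sym2.eq_swap]⟩

theorem cross_mem {i : ℕ} (hi : i < M) : s(y i, y (i + 1)) ∈ edges S' ∧
    s(y i, y (i + 1)) ∈ edges S'' := by
  obtain ⟨r, hr⟩ := H.cut.step i hi
  obtain ⟨h1, h2⟩ := (H.edge_up (y i) r).1 ⟨i, hi, rfl, hr⟩
  rw [hr, E2.mem_edges, E2.mem_edges]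
  exact ⟨Or.inl h1, Or.inr h2⟩

theorem edges_eq : edges S = edges S' ∪ edges S'' := by
  rw [H.un]
  unfold edges
  exact Finset.union_biUnion

theorem verts_eq : verts S = verts S' ∪ verts S'' := by
  rw [H.un]
  unfold verts
  exact Finset.union_biUnion

/-- The vertices of the path are in both parts. -/
theorem y_mem {i : ℕ} (hi : i ≤ M) : y i ∈ verts S' ∧ y i ∈ verts S'' := by
  rw [mem_verts, mem_verts]
  rcases hi.lt_or_eq with h | rfl
  · obtain ⟨r, hr⟩ := H.cut.step i h
    obtain ⟨h1, h2⟩ := (H.edge_up (y i) r).1 ⟨i, h, rfl, hr⟩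
    exact ⟨⟨_, h1⟩, ⟨_, h2⟩⟩
  · obtain ⟨m, rfl⟩ : ∃ m, i = m + 1 := ⟨i - 1, by have := H.cut.hM; omega⟩
    obtain ⟨r, hr⟩ := H.cut.step m (by omega)
    have e1 : y m = y (m + 1) + dir (r + 2) := by
      rw [hr, add_assoc, H174.dir_add_two, add_zero]
    obtain ⟨h1, h2⟩ := (H.edge_dn (y (m + 1)) (r + 2)).1 ⟨m, by omega, rfl, e1⟩
    exact ⟨⟨_, h2⟩, ⟨_, h1⟩⟩

/-! ### The polygon -/

/-- The vertices `p 0, …, p a`, `p b, …, p (N - 1)` are in the first part. -/
theorem p_memL {j : ℕ} (hj : j < N) (h : j ≤ a ∨ b ≤ j) : p (j : ZMod N) ∈ verts S' := by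
  have hb := H.cut.hb
  have : NeZero (nL N a b M) := ⟨H.cut.nL_pos.ne'⟩
  have h0 := fun i => E2.p_mem_verts (H.cut.polyL H.poly) H.encL i
  rcases h with h | h
  · have h1 := h0 (j : ZMod (nL N a b M))
    change cutL p a b M y (ZMod.val _) ∈ _ at h1
    rw [ZMod.val_cast_of_lt (by unfold nL; omega), H.cut.L1 h] at h1
    exact h1
  · have h1 := h0 ((a + M + (j - b) : ℕ) : ZMod (nL N a b M))
    change cutL p a b M y (ZMod.val _) ∈ _ at h1
    rw [ZMod.val_cast_of_lt (by unfold nL; omega), H.cut.L3,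
      show b + (j - b) = j by omega] at h1
    exact h1

/-- The vertices `p a, …, p b` are in the second part. -/
theorem p_memR {j : ℕ} (h1 : a ≤ j) (h2 : j ≤ b) : p (j : ZMod N) ∈ verts S'' := by
  have hM := H.cut.hM
  have : NeZero (nR a b M) := ⟨H.cut.nR_pos.ne'⟩
  have h0 := E2.p_mem_verts (H.cut.polyR H.poly H.enc) H.encR ((j - a : ℕ) : ZMod (nR a b M))
  change cutR p a b M y (ZMod.val _) ∈ _ at h0
  rw [ZMod.val_cast_of_lt (by unfold nR; omega), H.cut.R1 (by omega),
    show a + (j - a) = j by omega] at h0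
  exact h0

/-- The vertices of the polygon in the second part. -/
theorem p_iffR {j : ℕ} (hj : j < N) : p (j : ZMod N) ∈ verts S'' ↔ a ≤ j ∧ j ≤ b := by
  have ha := H.cut.hab
  have hb := H.cut.hb
  constructor
  · intro h
    by_contra hcon
    obtain ⟨i, hi, h1⟩ := H.mem_cross (H.p_memL hj (by omega)) h
    rcases Nat.eq_zero_or_pos i with rfl | h0
    · rw [H.cut.y0] at h1
      have := P_inj H.poly hj (by omega) h1
      omega
    · have := H.cut.ne_p H.poly h0 hi hj h1.symm
      omega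
  · rintro ⟨h1, h2⟩
    exact H.p_memR h1 h2

/-- The vertices of the polygon in the first part. -/
theorem p_iffL {j : ℕ} (hj : j < N) : p (j : ZMod N) ∈ verts S' ↔ j ≤ a ∨ b ≤ j := by
  have hb := H.cut.hb
  constructor
  · intro h
    by_contra hcon
    obtain ⟨i, hi, h1⟩ := H.mem_cross h (H.p_memR (j := j) (by omega) (by omega))
    rcases Nat.eq_zero_or_pos i with rfl | h0
    · rw [H.cut.y0] at h1
      have := P_inj H.poly hj (by omega) h1
      omega
    · have := H.cut.ne_p H.poly h0 hi hj h1.symm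
      omega
  · exact H.p_memL hj

theorem neg_mem : p (-1) ∈ verts S' := by
  have hb := H.cut.hb
  have hN : 0 < N := by omega
  have e2 : (-1 : ZMod N) = ((N - 1 : ℕ) : ZMod N) := by
    rw [Nat.cast_sub hN, ZMod.natCast_self, Nat.cast_one, zero_sub]
  rw [e2]
  exact H.p_memL (by omega) (by omega)

/-! ### The edges of the polygon -/

/-- The edge `p j, p (j + 1)` has its inner face in the first part iff it is not between `a` and `b`. -/
theorem pe_iffR {j : ℕ} (hj : j < N) :
    s(p (j : ZMod N), p ((j : ZMod N) + 1)) ∈ edges S'' ↔ a ≤ j ∧ j < b := by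
  have ha := H.cut.ha
  have hab := H.cut.hab
  have hb := H.cut.hb
  have hM := H.cut.hM
  have : NeZero (nL N a b M) := ⟨H.cut.nL_pos.ne'⟩
  have : NeZero (nR a b M) := ⟨H.cut.nR_pos.ne'⟩
  obtain ⟨r, hr⟩ := H.poly.2.2 (j : ZMod N)
  have h0 := (H.enc (p (j : ZMod N)) r).1 ⟨_, rfl, hr⟩
  rw [hr, E2.mem_edges]
  have e1 : face (p (j : ZMod N)) (r - 1) ∉ S'' := fun h => h0.2 (H.subR h)
  constructor
  · rintro (h | h)
    · by_contra hcon
      -- the edge is an edge of `cutL`
      have h1 : face (p (j : ZMod N)) r ∈ S' := by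
        rcases (show j < a ∨ b ≤ j by omega) with h2 | h2
        · refine ((H.encL _ r).1 ⟨(j : ZMod (nL N a b M)), ?_, ?_⟩).1
          · show cutL p a b M y (ZMod.val _) = _
            rw [ZMod.val_cast_of_lt (by unfold nL; omega), H.cut.L1 h2.le]
          · show cutL p a b M y (ZMod.val _) = _
            rw [val_succ H.cut.closeL, ZMod.val_cast_of_lt (by unfold nL; omega),
              H.cut.L1 (by omega)]
            push_cast
            exact hr
        · refine ((H.encL _ r).1 ⟨((a + M + (j - b) : ℕ) : ZMod (nL N a b M)), ?_, ?_⟩).1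
          · show cutL p a b M y (ZMod.val _) = _
            rw [ZMod.val_cast_of_lt (by unfold nL; omega), H.cut.L3,
              show b + (j - b) = j by omega]
          · show cutL p a b M y (ZMod.val _) = _
            rw [val_succ H.cut.closeL, ZMod.val_cast_of_lt (by unfold nL; omega), add_assoc,
              H.cut.L3, show b + (j - b + 1) = j + 1 by omega]
            push_cast
            exact hr
      exact H.notR h1 h
    · exact absurd h e1
  · rintro ⟨h1, h2⟩
    left
    refine ((H.encR _ r).1 ⟨((j - a : ℕ) : ZMod (nR a b M)), ?_, ?_⟩).1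
    · show cutR p a b M y (ZMod.val _) = _
      rw [ZMod.val_cast_of_lt (by unfold nR; omega), H.cut.R1 (by omega),
        show a + (j - a) = j by omega]
    · show cutR p a b M y (ZMod.val _) = _
      rw [val_succ H.cut.closeR, ZMod.val_cast_of_lt (by unfold nR; omega),
        H.cut.R1 (by omega), show a + (j - a + 1) = j + 1 by omega]
      push_cast
      exact hr

/-- The edge `p j, p (j + 1)` is in the first part iff it is not between `a` and `b`. -/
theorem pe_iffL {j : ℕ} (hj : j < N) :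
    s(p (j : ZMod N), p ((j : ZMod N) + 1)) ∈ edges S' ↔ j < a ∨ b ≤ j := by
  have h1 := H.pe_iffR hj
  have h2 : s(p (j : ZMod N), p ((j : ZMod N) + 1)) ∈ edges S := E2.p_edge H.poly H.enc _
  rw [H.edges_eq, mem_union] at h2
  constructor
  · intro h
    by_contra hcon
    obtain ⟨i, hi, h3⟩ := H.edge_cross h (h1.2 (by omega))
    -- both sides of the edge would be in the domain
    obtain ⟨r, hr⟩ := H.poly.2.2 (j : ZMod N)
    have h0 := (H.enc (p (j : ZMod N)) r).1 ⟨_, rfl, hr⟩
    have h4 := h1.2 (by omega)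
    rw [hr, E2.mem_edges] at h h4
    rcases h with h | h
    · rcases h4 with h4 | h4
      · exact H.notR h h4
      · exact h0.2 (H.subR h4)
    · exact h0.2 (H.subL h)
  · intro h
    refine h2.resolve_right fun h3 => ?_
    have := h1.1 h3
    omega

/-! ### The medial path -/

variable {O : Set (Sym2 (ℤ × ℤ))}

/-- One step. -/
theorem next_memL (hO : O ⊆ edges S) {c : Medial} (h1 : c.1 ∈ verts S')
    (h2 : ∀ i ≤ M, c.1 ≠ y i) : (next O c).1 ∈ verts S' := by
  by_cases h : ahead c ∈ O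
  · rw [E2.next_open h]
    have h3 := hO h
    rw [mem_coe, H.edges_eq, mem_union] at h3
    have h4 : ahead c ∈ edges S' := by
      refine h3.resolve_right fun h5 => ?_
      have h6 : c.1 ∈ verts S'' := by
        rw [mem_verts]
        rcases (E2.mem_edges _).1 h5 with h7 | h7 <;> exact ⟨_, h7⟩
      obtain ⟨i, hi, h7⟩ := H.mem_cross h1 h6
      exact h2 i hi h7
    rw [mem_verts]
    rcases (E2.mem_edges _).1 h4 with h5 | h5
    · exact ⟨_, by rw [E2.face_left]; exact h5⟩
    · exact ⟨_, by rw [E2.face_right]; exact h5⟩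
  · rw [E2.next_closed h]
    exact h1

/-- **The medial path stays in the first part as long as it does not visit the path `y`.** -/
theorem iter_memL (hO : O ⊆ edges S) {c : Medial} (h1 : c.1 ∈ verts S') {m : ℕ}
    (h2 : ∀ j < m, ∀ i ≤ M, ((next O)^[j] c).1 ≠ y i) : ((next O)^[m] c).1 ∈ verts S' := by
  induction m with
  | zero => exact h1
  | succ m ih =>
    rw [Function.iterate_succ_apply']
    exact H.next_memL hO (ih fun j hj => h2 j (by omega)) (h2 m (by omega))

/-- The next square is not in the second part. -/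
theorem ahead_notR {c : Medial} (h1 : c.1 ∈ verts S') (h2 : ∀ i ≤ M, c.1 ≠ y i) :
    ahead c ∉ edges S'' := by
  intro h5
  have h6 : c.1 ∈ verts S'' := by
    rw [mem_verts]
    rcases (E2.mem_edges _).1 h5 with h7 | h7 <;> exact ⟨_, h7⟩
  obtain ⟨i, hi, h7⟩ := H.mem_cross h1 h6
  exact h2 i hi h7

end CutP

end cross

end Vale.Agent.P167.N.ST2
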