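import Vale.Agent.P167.N.ST2.Xc
import Vale.Agent.P167.N.ST2.PV
import Vale.Agent.P167.N.ST2.GlueB

/-!
# P167, block ST2: the interface before its first visit of a crosscut

`CutP.evB_cross`: if the path `y` of the cut is in the ball, then the event `EvB` depends on the squares
of the edges off the second part and off the ball only.
-/

set_option autoImplicit false
set_option linter.unusedSectionVars false

namespace Vale.Agent.P167.N.ST2

open Metric
open Vale.Agent.P167.FK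
open Vale.Agent.P167.E6
open Vale.Agent.P167.E2 (verts mem_verts cs lin lin_nat)
open Vale.Agent.P167.H192 (sq ed hdv_me me_open nx_me)
open Vale.Agent.P167.H718 (Dq etaQ wE mem_wE mem_Dq')

section cross

variable {N : ℕ} [NeZero N] {p : ZMod N → ℤ × ℤ} {S S' S'' : Finset (ℤ × ℤ)} {a b M : ℕ}
  {y : ℕ → ℤ × ℤ} {δ r : ℝ} {z : ℂ} {ω ω' : Cfg}

/-- The two ends of an edge are at distance `δ / 2` from the middle. -/
theorem dist_mid (hδ : 0 ≤ δ) (c : Medial) : dist (mid δ c) ((δ : ℂ) * pt c.1) ≤ δ := by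
  have h := dist_sqp_mem (v := sq (ahead c)) (w := c.1) hδ (by
    rw [H192.ed_sq (H192.isEdge_ahead c)]
    exact Sym2.mem_mk_left _ _)
  rw [← hdv_me, sqp_me] at h
  linarith

namespace CutP

variable (H : CutP p S a b M y S' S'')
include H

theorem off_ball (hδ : 0 ≤ δ) (hy : ∀ i ≤ M, dist ((δ : ℂ) * pt (y i)) z + δ ≤ r) {c : Medial}
    (hc : mid δ c ∉ closedBall z r) : ∀ i ≤ M, c.1 ≠ y i := by
  intro i hi h
  refine hc ?_
  have h1 := dist_mid hδ c
  rw [h] at h1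
  have h2 := hy i hi
  have h3 := dist_triangle (mid δ c) ((δ : ℂ) * pt (y i)) z
  rw [mem_closedBall]
  linarith

/-- The strands agree until the first visit of the closed ball. -/
theorem iter_cross (hδ : 0 ≤ δ) (hy : ∀ i ≤ M, dist ((δ : ℂ) * pt (y i)) z + δ ≤ r)
    (hω : ∀ v, ed v ∉ edges S'' → r < dist (sqp δ v) z → ω v = true → ed v ∈ edges S)
    (h : ∀ v, ed v ∉ edges S'' → r < dist (sqp δ v) z → ω v = ω' v) {c : Medial}
    (hc : c.1 ∈ verts S') (m : ℕ)
    (hm : ∀ i < m, sqp δ (hdv ((nx ω)^[i] (H192.me c))) ∉ closedBall z r) :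
    (nx ω')^[m] (H192.me c) = (nx ω)^[m] (H192.me c) ∧
      ∃ c' : Medial, (nx ω)^[m] (H192.me c) = H192.me c' ∧ c'.1 ∈ verts S' := by
  induction m with
  | zero => exact ⟨rfl, c, rfl, hc⟩
  | succ m ih =>
    obtain ⟨h1, c', h2, h3⟩ := ih fun i hi => hm i (by omega)
    have h4 := hm m (by omega)
    rw [h2, sqp_me] at h4
    have h5 := H.off_ball hδ hy h4
    have h6 := H.ahead_notR h3 h5
    rw [Function.iterate_succ_apply', Function.iterate_succ_apply', h1, h2]
    set v := hdv (H192.me c') with hv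
    have e1 : ed v = ahead c' := H192.ed_hdv_me c'
    have e2 : r < dist (sqp δ v) z := by
      rw [hv, sqp_me]
      rw [mem_closedBall, not_le] at h4
      exact h4
    have h7 := h v (by rw [e1]; exact h6) e2
    have h8 := hω v (by rw [e1]; exact h6) e2
    rw [e1] at h8
    refine ⟨(nx_congr (by rw [← hv]; exact h7)).symm, next {e | e = ahead c' ∧ ω v = true} c', ?_, ?_⟩
    · refine nx_me c' ?_
      simp only [Set.mem_ofPred_eq, true_and]
      exact Iff.rfl
    · refine H.next_memL ?_ h3 h5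
      rintro e ⟨rfl, h9⟩
      exact h8 h9

theorem strand_cross (hδ : 0 ≤ δ) (hy : ∀ i ≤ M, dist ((δ : ℂ) * pt (y i)) z + δ ≤ r)
    (hω : ∀ v, ed v ∉ edges S'' → r < dist (sqp δ v) z → ω v = true → ed v ∈ edges S)
    (h : ∀ v, ed v ∉ edges S'' → r < dist (sqp δ v) z → ω v = ω' v) {c : Medial}
    (hc : c.1 ∈ verts S') {T : ℝ} (hT : 0 ≤ T)
    (hs : ∀ s, 0 ≤ s → s ≤ T → strand δ (H192.me c) ω s ∉ closedBall z r) :
    ∀ s, 0 ≤ s → s ≤ T → strand δ (H192.me c) ω s = strand δ (H192.me c) ω' s := by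
  have key : ∀ m ≤ ⌊T⌋₊ + 1, (nx ω')^[m] (H192.me c) = (nx ω)^[m] (H192.me c) := by
    intro m hm
    refine (H.iter_cross hδ hy hω h hc m fun i hi => ?_).1
    have h1 := hs i (Nat.cast_nonneg i)
      (le_trans (by exact_mod_cast (by omega : i ≤ ⌊T⌋₊)) (Nat.floor_le hT))
    unfold strand at h1
    rw [lin_nat] at h1
    exact h1
  intro s h0 hsT
  have h3 : ⌊s⌋₊ ≤ ⌊T⌋₊ := Nat.floor_mono hsT
  unfold strand lin
  dsimp only
  rw [key _ (by omega), key _ (by omega)]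

theorem evB_cross_imp (hδ : 0 ≤ δ) (hy : ∀ i ≤ M, dist ((δ : ℂ) * pt (y i)) z + δ ≤ r)
    (hω : ∀ v, ed v ∉ edges S'' → r < dist (sqp δ v) z → ω v = true → ed v ∈ edges S)
    (h : ∀ v, ed v ∉ edges S'' → r < dist (sqp δ v) z → ω v = ω' v) {m : ℕ}
    {A B : Fin m → Set ℂ} (hE : ω ∈ EvB δ (H192.me (cs p)) z r A B) :
    ω' ∈ EvB δ (H192.me (cs p)) z r A B := by
  intro j
  obtain ⟨T, h0, h1, h2⟩ := hE j
  have h3 := H.strand_cross hδ hy hω h (c := cs p) H.neg_mem h0 fun s hs hsT hc =>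
    h2 s hs hsT (Or.inr hc)
  refine ⟨T, h0, ?_, fun s hs hsT => ?_⟩
  · rw [← h3 T h0 le_rfl]
    exact h1
  · rw [← h3 s hs hsT]
    exact h2 s hs hsT

/-- **The event depends on the squares of the edges off the second part and off the ball only.** -/
theorem evB_cross (hδ : 0 ≤ δ) (hy : ∀ i ≤ M, dist ((δ : ℂ) * pt (y i)) z + δ ≤ r)
    (hω : ∀ v, ed v ∉ edges S'' → r < dist (sqp δ v) z → ω v = true → ed v ∈ edges S)
    (h : ∀ v, ed v ∉ edges S'' → r < dist (sqp δ v) z → ω v = ω' v) {m : ℕ}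
    {A B : Fin m → Set ℂ} :
    ω ∈ EvB δ (H192.me (cs p)) z r A B ↔ ω' ∈ EvB δ (H192.me (cs p)) z r A B :=
  ⟨H.evB_cross_imp hδ hy hω h, H.evB_cross_imp hδ hy
    (fun v h1 h2 h3 => hω v h1 h2 (by rw [h v h1 h2]; exact h3)) fun v h1 h2 => (h v h1 h2).symm⟩

end CutP

end cross

end Vale.Agent.P167.N.ST2
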